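import Claimed.Agent.R256.Tri.Env

/-!
# Row 256, BOX E3 (trilinear route, replaces Guth-Wang-Zhang Thm 1.3 = (GWZ) of 08-round-entropy.tex): CONTRACT      (chief helper213; folder R256/Tri, prefix `tri_`, defs `t..`/`T..`)

**STATUS 20:30Z: THE BOX IS CLOSED.  All files of R256/Tri are free of holes on main; `tri_env`, `tri_env_dil`, `tri_TR` depend only on the three standard axioms.  4.3k lines.  FROZEN.**

## ENTRY (what the box consumes)
 NOTHING of the model, nothing of the paper.   Only Mathlib and `R252/Mlk/Main.lean` (`R252.mlk_main`, multilinear Kakeya with determinant threshold: PROVED, on main).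
## EXIT (consumer: Re, (sec)-wave, 08 l.440-523; report 884 (B))
 `tri_env  (N m ε) : ∃ C, ∀ r ≥ 1, ENVc N r m (C r^ε)`                    (Env.lean; frequency `~ 1`, thickness `1/r`, physical scale `r`)
 `tri_env_dil (N m ε)`                                                      (this file; the same at physical scale `ℓ`: frequency `~ r/ℓ`, thickness `1/ℓ`; in 08 l.452: `ℓ = L`, `r = L/H`, tiles `|U| = ℓ³R³`)
     `∫ ‖∑_{x ∈ X} F x‖³ ≤ C r^ε (tKd N r ℓ X F)^{1/2} ∑_{x ∈ X} ∫ ‖F x‖²`,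
     `tKd` = sup over `R ∈ [r^{-1/2}, 1]`, `x0 ∈ ℝ`, `c ∈ ℝ³` of `(ℓ³R³)⁻¹ ∫ (1 + ‖tcoord x0 ℓ R (p - c)‖)^{-N} ∑_{x ∈ X, |x - x0| ≤ R} ‖F x p‖² dp`     (tile `ℓ × ℓR × ℓR²` of direction `(1, x0, x0²)`).
 This is what 08 l.503-517 obtains from (GWZ) + (tile) + Cauchy-Schwarz:  with (tile) `tKd ≤ s^{-o(1)} P^C Δ^{-η/2} κ_*` the `L^3` bound with factor `P^C Δ^{-η/4} √κ_* e_g` follows DIRECTLY (no `L^4`).
## WHAT THE CONSUMER MUST SUPPLY (hypotheses of the exit, all explicit)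
 (a) FAMILY FORM: the pieces `F x : ℝ³ → ℂ` (`x ∈ X` finite, `|x| ≤ 1`) are GIVEN; no projection is applied by the box, so "comparable adapted windows" (08 l.452) never occur: take the windows you like.
 (b) `TFS S (F x)`: `F x = 𝓕⁻ g` with `g` integrable and `g = 0` off `S = tPl x (2/ℓ) (4√r/ℓ) ((1 - 1/√r) r/ℓ) ((2 + 1/√r) r/ℓ)`, i.e. `|τ + xξ + x²ζ| ≤ 2/ℓ`, `|ξ + 2xζ| ≤ 4√r/ℓ`, `ζ ∈ [(1 - r^{-1/2}) r/ℓ, (2 + r^{-1/2}) r/ℓ]`
     (`p = (t, b, y)`, `ω = (τ, ξ, ζ)`, `𝓕⁻ g p = ∫ e^{2πi⟪ω,p⟫} g ω`; cone `τ = ξ²/(4ζ)`, `ζ > 0`; the phase of 08 l.487 has `ζ = -ρ'`: pass to the complex conjugate).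
     If `|ξ/(2ζ) + x| ≤ δ` and `|τ - ξ²/(4ζ)| ≤ θ` then `tl1 = 2ζ(ξ/(2ζ) + x)`, `tl0 = (τ - ξ²/(4ζ)) + ζ (ξ/(2ζ) + x)²`: it is enough that `θ + (2r/ℓ)δ² ≤ 2/ℓ`, e.g. `δ ≤ 1/√(2r)`, `θ ≤ 1/ℓ`.
 (c) multiplicity: `#{x ∈ X : |x - y| ≤ 1/√r} ≤ m` for all `y` (`m` fixed before `C`).
 (d) radial band `[1, 2] r/ℓ` only: a band `[c₁, c₂]` = `O(1)` bands (change `ℓ`), triangle inequality in `L^3`.    Parameter range `|x| ≤ 1` only: other ranges by the shear `tLorP 1 a` (`tri_lor_*` with `K = 1`).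
 (e) scalar valued.   The order `N` of the weight is arbitrary (fixed before `C`).
## UNITS  (file; leaves `L-256-TRI-*`; lines; depends on)
 U0 Defs.lean   definitions (FROZEN)                                                                                          130    -
 U1 Kit.lean    API MUL LIN ETA0 ETA LATSUM ETAORTH LINE SUP   (`TFS` calculus, bumps, exact orthogonality, Bernstein)       DONE (760 lines, sorry-free on main 20:20Z)
 U2 Geo.lean    GEO0-GEO5 ORTH   (plank geometry, local orthogonality)                                                       DONE (565 lines, sorry-free on main 20:20Z)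
 U3 Kak.lean    BIG GAMDOM MKCUBE HOLD3 MKSHIFT SUPERPOSE ALPHASUM MKCONV | PHI CUBES DISC KAK                                ~1400  U1, U2, R252/Mlk
 U4 Step.lean   IND REGROUP COVER STEPBALL STEP CS BASE TR                                                                    ~950   U1-U3
 U5 Env.lean    ENVAPI BN LOR1 LOR2 LOR3 LORK NARROW BROAD ENVSTEP ENVBASE ENV                                                ~1700  U1, U2, U4 (only `tri_TR`, `tri_cover`, `tri_energy_sum`, `tri_ind_div`)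
 U6 Contract    DIL                                                                                                           ~150   U5, `TFS.comp_lin`
 All leaves are independent of each other (every statement is frozen with `sorry`), serial depth 1.   Total ~5.5k lines.
-/

set_option autoImplicit false

namespace Claimed.Agent.R256

open MeasureTheory
open scoped ENNReal BigOperators InnerProductSpace

/-- the largest tile density at physical scale `ℓ` (tiles `ℓ × ℓR × ℓR²`, `R ∈ [r^{-1/2}, 1]`);  `tK N r = tKd N r r` -/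
noncomputable def tKd (N : ℕ) (r ℓ : ℝ) (X : Finset ℝ) (F : ℝ → TV → ℂ) : ℝ≥0∞ :=
  ⨆ (R : ℝ) (_ : 1 / √r ≤ R ∧ R ≤ 1) (x0 : ℝ) (c : TV),
    ENNReal.ofReal ((ℓ ^ 3 * R ^ 3)⁻¹) * ∫⁻ p, tW N x0 ℓ R c p * ∑ x ∈ X.filter (fun x => |x - x0| ≤ R), ‖F x p‖ₑ ^ 2

theorem tri_contract_eqns_cite : True := by
  have := @tKd.eq_1
  trivial

/-- how the consumer bounds `tKd`: tile by tile -/
theorem tri_Kd_le (N : ℕ) (r ℓ : ℝ) (X : Finset ℝ) (F : ℝ → TV → ℂ) (κ : ℝ≥0∞)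
    (h : ∀ R : ℝ, 1 / √r ≤ R → R ≤ 1 → ∀ (x0 : ℝ) (c : TV),
      ∫⁻ p, tW N x0 ℓ R c p * ∑ x ∈ X.filter (fun x => |x - x0| ≤ R), ‖F x p‖ₑ ^ 2 ≤ κ * ENNReal.ofReal (ℓ ^ 3 * R ^ 3)) (hr : 0 < r) (hℓ : 0 < ℓ) :
    tKd N r ℓ X F ≤ κ := by
  unfold tKd
  refine iSup_le fun R => iSup_le fun hR => iSup_le fun x0 => iSup_le fun c => ?_
  have hR0 : 0 < R := lt_of_lt_of_le (by positivity) hR.1
  have hpos : 0 < ℓ ^ 3 * R ^ 3 := by positivity
  calc ENNReal.ofReal ((ℓ ^ 3 * R ^ 3)⁻¹) * ∫⁻ p, tW N x0 ℓ R c p * ∑ x ∈ X.filter (fun x => |x - x0| ≤ R), ‖F x p‖ₑ ^ 2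
      ≤ ENNReal.ofReal ((ℓ ^ 3 * R ^ 3)⁻¹) * (κ * ENNReal.ofReal (ℓ ^ 3 * R ^ 3)) := by
        gcongr
        exact h R hR.1 hR.2 x0 c
    _ = κ * (ENNReal.ofReal ((ℓ ^ 3 * R ^ 3)⁻¹) * ENNReal.ofReal (ℓ ^ 3 * R ^ 3)) := by ring
    _ = κ := by
        rw [← ENNReal.ofReal_mul (by positivity), inv_mul_cancel₀ hpos.ne', ENNReal.ofReal_one, mul_one]

theorem tri_dil_lint (a : ℝ) (ha : 0 < a) (f : TV → ℝ≥0∞) : ∫⁻ q, f (a⁻¹ • q) = ENNReal.ofReal (a ^ 3) * ∫⁻ p, f p := by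
  have h0 : a⁻¹ ≠ 0 := (inv_pos.mpr ha).ne'
  have h1 := lintegral_map_equiv (μ := (volume : Measure TV)) f (Homeomorph.smulOfNeZero a⁻¹ h0).toMeasurableEquiv
  have h2 : Measure.map (⇑(Homeomorph.smulOfNeZero a⁻¹ h0).toMeasurableEquiv) (volume : Measure TV) = ENNReal.ofReal (a ^ 3) • volume := by
    have := Measure.map_addHaar_smul (volume : Measure TV) h0
    simp only [finrank_euclideanSpace, Fintype.card_fin] at this
    have e : |((a⁻¹) ^ 3)⁻¹| = a ^ 3 := by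
      rw [inv_pow, inv_inv, abs_of_pos (by positivity)]
    rw [e] at this
    exact this
  rw [h2, lintegral_smul_measure] at h1
  simpa using h1.symm

theorem tri_dil_equiv (a : ℝ) (ha : 0 < a) : ∃ A : TV ≃L[ℝ] TV, (∀ p, A p = a⁻¹ • p) := by
  refine ⟨ContinuousLinearEquiv.smulLeft (Units.mk0 a⁻¹ (inv_pos.mpr ha).ne'), fun p => ?_⟩
  simp [Units.smul_def]

theorem tri_dil_coord (x0 r ℓ R : ℝ) (hr : 0 < r) (hℓ : 0 < ℓ) (v : TV) : tcoord x0 r R v = tcoord x0 ℓ R ((r / ℓ)⁻¹ • v) := by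
  unfold tcoord
  congr 1
  · simp only [PiLp.smul_apply, smul_eq_mul]
    field_simp
  · simp only [PiLp.smul_apply, smul_eq_mul]
    by_cases hR : R = 0
    · simp [hR]
    · field_simp
  · simp only [PiLp.smul_apply, smul_eq_mul]
    by_cases hR : R = 0
    · simp [hR]
    · field_simp

/-- **LEAF L-256-TRI-DIL = EXIT OF THE BOX IN THE NORMALISATION OF THE CONSUMER** (physical scale `ℓ`, frequency `r/ℓ`, thickness `1/ℓ`).
PLAN.  `C` from `tri_env N m ε`.   `λ = r/ℓ > 0`, `F' x q = F x (λ⁻¹ • q)`.   `TFS.comp_lin` with `A = L =` the dilation by `λ⁻¹` (`ContinuousLinearEquiv.smulLeft`/`LinearEquiv.smulOfNeZero ..`, `inner_smul_left/right`), image of the plank `⊆ tPlank x r` (`tl0`, `tl1`, `ω 2` are homogeneous: divide the four inequalities by `λ`), so `TFam r m X F'`.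
Change of variables `∫⁻ f (λ⁻¹ • q) dq = ofReal (λ³) ∫⁻ f` (`Measure.map_addHaar_smul` + `lintegral_map_equiv`, `finrank = 3`) in the three integrals;  `tcoord x0 r R (λ • v) = tcoord x0 ℓ R v`, so `tW N x0 r R c (λ • p) = tW N x0 ℓ R (λ⁻¹ • c) p` and
`(r³R³)⁻¹ λ³ = (ℓ³R³)⁻¹`: `tK N r X F' ≤ tKd N r ℓ X F`.   Cancel `λ³`. -/
theorem tri_env_dil (N m : ℕ) (ε : ℝ) (hε : 0 < ε) : ∃ C : ℝ, 0 ≤ C ∧ ∀ r ℓ : ℝ, 1 ≤ r → 0 < ℓ → ∀ (X : Finset ℝ) (F : ℝ → TV → ℂ),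
    (∀ x ∈ X, |x| ≤ 1) → (∀ y : ℝ, (X.filter fun x => |x - y| ≤ 1 / √r).card ≤ m) →
    (∀ x ∈ X, TFS (tPl x (2 / ℓ) (4 * √r / ℓ) ((1 - 1 / √r) * (r / ℓ)) ((2 + 1 / √r) * (r / ℓ))) (F x)) →
    ∫⁻ p, ‖∑ x ∈ X, F x p‖ₑ ^ 3 ≤ ENNReal.ofReal (C * r ^ ε) * (tKd N r ℓ X F) ^ (1 / 2 : ℝ) * ∑ x ∈ X, tE (F x) := by
  obtain ⟨C, hC, h⟩ := tri_env N m ε hε
  refine ⟨C, hC, ?_⟩
  intro r ℓ hr hℓ X F hbd hmult hfs
  have hr0 : 0 < r := by linarith
  have hs0 : 0 < √r := Real.sqrt_pos.mpr hr0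
  obtain ⟨a, ha⟩ : ∃ a, a = r / ℓ := ⟨_, rfl⟩
  have ha0 : 0 < a := by rw [ha]; positivity
  obtain ⟨A, hA⟩ := tri_dil_equiv a ha0
  have hfam : TFam r m X (fun x q => F x (a⁻¹ • q)) := by
    refine ⟨hbd, hmult, fun x hx => ?_⟩
    have h1 := (hfs x hx).comp_lin A A (fun p ω => by rw [hA, hA, inner_smul_left, inner_smul_right]; simp)
    have h2 : (fun p => F x (A p)) = fun q => F x (a⁻¹ • q) := by funext p; rw [hA]
    rw [h2] at h1
    refine h1.mono ?_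
    rintro _ ⟨ω, hω, rfl⟩
    rw [hA]
    obtain ⟨h0, h1, h2, h3⟩ := hω
    have e0 : tl0 x (a⁻¹ • ω) = a⁻¹ * tl0 x ω := by
      unfold tl0; simp only [PiLp.smul_apply, smul_eq_mul]; ring
    have e1 : tl1 x (a⁻¹ • ω) = a⁻¹ * tl1 x ω := by
      unfold tl1; simp only [PiLp.smul_apply, smul_eq_mul]; ring
    have e2 : (a⁻¹ • ω) 2 = a⁻¹ * ω 2 := by simp only [PiLp.smul_apply, smul_eq_mul]
    have hai : 0 < a⁻¹ := inv_pos.mpr ha0
    refine ⟨?_, ?_, ?_, ?_⟩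
    · rw [e0, abs_mul, abs_of_pos hai]
      calc a⁻¹ * |tl0 x ω| ≤ a⁻¹ * (2 / ℓ) := by gcongr
        _ = 2 / r := by rw [ha]; field_simp
    · rw [e1, abs_mul, abs_of_pos hai]
      calc a⁻¹ * |tl1 x ω| ≤ a⁻¹ * (4 * √r / ℓ) := by gcongr
        _ = 4 / √r := by
          rw [ha]
          have : r = √r * √r := (Real.mul_self_sqrt hr0.le).symm
          field_simp
          nlinarith
    · rw [e2]
      calc 1 - 1 / √r = a⁻¹ * ((1 - 1 / √r) * a) := by field_simp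
        _ ≤ a⁻¹ * ω 2 := by rw [ha]; gcongr
    · rw [e2]
      calc a⁻¹ * ω 2 ≤ a⁻¹ * ((2 + 1 / √r) * a) := by rw [ha]; gcongr
        _ = 2 + 1 / √r := by field_simp
  have hmain := h r hr X _ hfam
  have e1 : ∫⁻ q, ‖∑ x ∈ X, F x (a⁻¹ • q)‖ₑ ^ 3 = ENNReal.ofReal (a ^ 3) * ∫⁻ p, ‖∑ x ∈ X, F x p‖ₑ ^ 3 :=
    tri_dil_lint a ha0 (fun p => ‖∑ x ∈ X, F x p‖ₑ ^ 3)
  have e2 : ∀ x, tE (fun q => F x (a⁻¹ • q)) = ENNReal.ofReal (a ^ 3) * tE (F x) := fun x =>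
    tri_dil_lint a ha0 (fun p => ‖F x p‖ₑ ^ 2)
  have e3 : tK N r X (fun x q => F x (a⁻¹ • q)) ≤ tKd N r ℓ X F := by
    unfold tK tKd
    refine iSup_mono fun R => iSup_mono fun hR => iSup_mono fun x0 => ?_
    refine iSup_le fun c => le_iSup_of_le (a⁻¹ • c) (le_of_eq ?_)
    have hR0 : 0 < R := lt_of_lt_of_le (by positivity) hR.1
    have hW : ∀ q, tW N x0 r R c q = tW N x0 ℓ R (a⁻¹ • c) (a⁻¹ • q) := by
      intro q
      unfold tW
      rw [tri_dil_coord x0 r ℓ R hr0 hℓ, ← ha, smul_sub]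
    simp only [hW]
    rw [tri_dil_lint a ha0 (fun p => tW N x0 ℓ R (a⁻¹ • c) p * ∑ x ∈ X.filter (fun x => |x - x0| ≤ R), ‖F x p‖ₑ ^ 2), ← mul_assoc,
      ← ENNReal.ofReal_mul (by positivity)]
    congr 2
    rw [ha]
    field_simp
  rw [e1] at hmain
  simp only [e2] at hmain
  rw [← Finset.mul_sum] at hmain
  have hne : ENNReal.ofReal (a ^ 3) ≠ 0 := by
    rw [Ne, ENNReal.ofReal_eq_zero, not_le]; positivity
  have hmain2 : ENNReal.ofReal (a ^ 3) * ∫⁻ p, ‖∑ x ∈ X, F x p‖ₑ ^ 3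
      ≤ ENNReal.ofReal (a ^ 3) * (ENNReal.ofReal (C * r ^ ε) * (tKd N r ℓ X F) ^ (1 / 2 : ℝ) * ∑ x ∈ X, tE (F x)) := by
    refine hmain.trans ?_
    calc ENNReal.ofReal (C * r ^ ε) * tK N r X (fun x q => F x (a⁻¹ • q)) ^ (1 / 2 : ℝ) * (ENNReal.ofReal (a ^ 3) * ∑ x ∈ X, tE (F x))
        ≤ ENNReal.ofReal (C * r ^ ε) * (tKd N r ℓ X F) ^ (1 / 2 : ℝ) * (ENNReal.ofReal (a ^ 3) * ∑ x ∈ X, tE (F x)) := by gcongr
      _ = _ := by ring
  exact (ENNReal.mul_le_mul_iff_right hne ENNReal.ofReal_ne_top).mp hmain2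

end Claimed.Agent.R256
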