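import Claimed.Agent.R256.Tri.Defs

/-!
# Row 256, BOX E3, file 2: THE KIT (API of `TFS`, three fixed bumps)            (architect helper213)            CONTRACT
PAPER-FREE, Mathlib only.   Every `sorry` is a leaf `L-256-TRI-*` (name in the docstring).   Statements are FROZEN; auxiliary lemmas directly above your theorem, prefix `tri_`; edit only your block.
USEFUL MATHLIB:  `Real.fourierInv_eq` (`𝓕⁻ g p = ∫ ω, 𝐞 ⟪ω, p⟫ • g ω`), `Real.fourierInv_eq_fourier_neg`, `Real.fourier_mul_convolution_eq` (`𝓕 (f ⋆ g) = 𝓕 f * 𝓕 g`, integrable `f g`),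
`MeasureTheory.Integrable.integrable_convolution`, `MeasureTheory.support_convolution_subset`, `HasCompactSupport.toSchwartzMap`, `ContDiffBump`, `SchwartzMap.decay`, `SchwartzMap.integrable`,
`FourierTransform.fourierInv_fourier_eq` (Schwartz), `SchwartzMap.fourier_coe`, `integral_integral_swap`, `MeasureTheory.Measure.integral_comp_smul`, `MeasureTheory.integral_add_right_eq_self`.
-/

set_option autoImplicit false

namespace Claimed.Agent.R256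

open MeasureTheory
open scoped FourierTransform ENNReal BigOperators SchwartzMap InnerProductSpace Pointwise

/-- **LEAF L-256-TRI-API (1).** -/
theorem TFS.mono {S S' : Set TV} {F : TV → ℂ} (h : S ⊆ S') (hF : TFS S F) : TFS S' F := by
  obtain ⟨g, hg, h0, rfl⟩ := hF
  exact ⟨g, hg, fun ω hω => h0 ω fun h' => hω (h h'), rfl⟩

theorem tri_char_int {g : TV → ℂ} (hg : Integrable g) (p : TV) : Integrable fun ω : TV => 𝐞 ⟪ω, p⟫_ℝ • g ω := by
  have h := (Real.fourierIntegral_convergent_iff (μ := volume) (f := g) (-p)).2 hg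
  simpa only [inner_neg_right, neg_neg] using h

/-- **LEAF L-256-TRI-API (2).**  `g = ∑ g_x` (`integrable_finset_sum`), `𝓕⁻` is additive on integrable functions (`integral_finset_sum` after `Real.fourierInv_eq`). -/
theorem TFS.sum {S : Set TV} {ι : Type*} (Y : Finset ι) (G : ι → TV → ℂ) (h : ∀ x ∈ Y, TFS S (G x)) :
    TFS S (fun p => ∑ x ∈ Y, G x p) := by
  choose! g hg h0 hG using h
  refine ⟨fun ω => ∑ x ∈ Y, g x ω, integrable_finsetSum _ hg, fun ω hω => Finset.sum_eq_zero fun x hx => h0 x hx ω hω, ?_⟩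
  ext p
  rw [Real.fourierInv_eq]
  simp only [Finset.smul_sum]
  rw [integral_finsetSum _ (fun x hx => tri_char_int (hg x hx) p)]
  refine Finset.sum_congr rfl fun x hx => ?_
  rw [hG x hx, Real.fourierInv_eq]

/-- **LEAF L-256-TRI-API (3).**  `Real.fourierInv_eq_fourier_neg` + `VectorFourier.fourierIntegral_continuous` (or `continuous_of_dominated`). -/
theorem TFS.continuous {S : Set TV} {F : TV → ℂ} (hF : TFS S F) : Continuous F := by
  obtain ⟨g, hg, -, rfl⟩ := hF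
  rw [Real.fourierInv_eq_fourier_comp_neg]
  exact VectorFourier.fourierIntegral_continuous Real.continuous_fourierChar (innerSL ℝ).continuous₂ hg.comp_neg

/-- **LEAF L-256-TRI-API (4).**  `B = ∫ ‖g‖` (`norm_integral_le_integral_norm`, `Circle.norm_smul`). -/
theorem TFS.bdd {S : Set TV} {F : TV → ℂ} (hF : TFS S F) : ∃ B : ℝ, 0 ≤ B ∧ ∀ p, ‖F p‖ ≤ B := by
  obtain ⟨g, hg, -, rfl⟩ := hF
  refine ⟨∫ ω, ‖g ω‖, integral_nonneg fun _ => norm_nonneg _, fun p => ?_⟩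
  rw [Real.fourierInv_eq]
  refine (norm_integral_le_integral_norm _).trans (le_of_eq ?_)
  simp_rw [Circle.norm_smul]

/-- **LEAF L-256-TRI-MUL.**  `g = g₁ ⋆[mul] g₂`; integrable; support in `S + S'` (`support_convolution_subset`);  `𝓕⁻ (g₁ ⋆ g₂) = 𝓕⁻ g₁ * 𝓕⁻ g₂` from `Real.fourier_mul_convolution_eq` at `-p` (`Real.fourierInv_eq_fourier_neg`). -/
theorem TFS.mul {S S' : Set TV} {F F' : TV → ℂ} (hF : TFS S F) (hF' : TFS S' F') : TFS (S + S') (fun p => F p * F' p) := by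
  obtain ⟨g, hg, h0, rfl⟩ := hF
  obtain ⟨g', hg', h0', rfl⟩ := hF'
  refine ⟨convolution g g' (ContinuousLinearMap.mul ℂ ℂ) volume, hg.integrable_convolution _ hg', ?_, ?_⟩
  · intro ω hω
    by_contra hne
    have h1 : ω ∈ Function.support (convolution g g' (ContinuousLinearMap.mul ℂ ℂ) volume) := hne
    have h2 := support_convolution_subset (ContinuousLinearMap.mul ℂ ℂ) h1
    apply hω
    refine Set.add_subset_add ?_ ?_ h2
    · intro x hx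
      by_contra hxS
      exact hx (h0 x hxS)
    · intro x hx
      by_contra hxS
      exact hx (h0' x hxS)
  · funext p
    rw [Real.fourierInv_eq_fourier_neg, Real.fourierInv_eq_fourier_neg, Real.fourierInv_eq_fourier_neg,
      Real.fourier_mul_convolution_eq hg hg']

/-- **LEAF L-256-TRI-API (5).**  `g' ω = 𝐞 ⟪ω, z⟫ • g ω`. -/
theorem TFS.comp_add {S : Set TV} {F : TV → ℂ} (hF : TFS S F) (z : TV) : TFS S (fun p => F (p + z)) := by
  obtain ⟨g, hg, h0, rfl⟩ := hF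
  refine ⟨fun ω => 𝐞 ⟪ω, z⟫_ℝ • g ω, tri_char_int hg z, fun ω hω => by simp only [h0 ω hω, smul_zero], ?_⟩
  ext p
  rw [Real.fourierInv_eq, Real.fourierInv_eq]
  refine integral_congr_ae (Filter.Eventually.of_forall fun ω => ?_)
  show 𝐞 ⟪ω, p + z⟫_ℝ • g ω = 𝐞 ⟪ω, p⟫_ℝ • 𝐞 ⟪ω, z⟫_ℝ • g ω
  rw [inner_add_right, AddChar.map_add_eq_mul, mul_smul]

/-- change of variables for a linear equivalence -/
theorem tri_integral_comp_lin (L : TV ≃L[ℝ] TV) (h : TV → ℂ) :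
    ∫ ω, h (L ω) = |(LinearMap.det (L : TV →ₗ[ℝ] TV))⁻¹| • ∫ ω, h ω := by
  have hdet : LinearMap.det (L : TV →ₗ[ℝ] TV) ≠ 0 := (LinearEquiv.isUnit_det' L.toLinearEquiv).ne_zero
  have hmap := Measure.map_linearMap_addHaar_eq_smul_addHaar (volume : Measure TV) hdet
  have h1 : ∫ ω, h ω ∂(Measure.map (L : TV →ₗ[ℝ] TV) volume) = ∫ ω, h (L ω) :=
    L.toHomeomorph.measurableEmbedding.integral_map h
  rw [← h1, hmap, integral_smul_measure, ENNReal.toReal_ofReal (abs_nonneg _)]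

/-- **LEAF L-256-TRI-LIN.**  `F (A p) = ∫ 𝐞 ⟪ω, A p⟫ g ω = ∫ 𝐞 ⟪L ω, p⟫ g ω`;  substitution `ω' = L ω`: `g' = |det L|⁻¹ • g ∘ L.symm`
(`MeasureTheory.Measure.map_linearMap_addHaar_eq_smul_addHaar` / `ContinuousLinearEquiv.integral_comp..`, `MeasurePreserving`-free: `integral_map` + `Measure.map_..`). -/
theorem TFS.comp_lin {S : Set TV} {F : TV → ℂ} (hF : TFS S F) (A L : TV ≃L[ℝ] TV) (hAL : ∀ p ω : TV, ⟪A p, ω⟫_ℝ = ⟪p, L ω⟫_ℝ) :
    TFS (L '' S) (fun p => F (A p)) := by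
  obtain ⟨g, hg, h0, rfl⟩ := hF
  have hdet : LinearMap.det (L : TV →ₗ[ℝ] TV) ≠ 0 := (LinearEquiv.isUnit_det' L.toLinearEquiv).ne_zero
  set c : ℝ := |(LinearMap.det (L : TV →ₗ[ℝ] TV))⁻¹| with hc
  have hcpos : 0 < c := abs_pos.mpr (inv_ne_zero hdet)
  refine ⟨fun ω => c • g (L.symm ω), ?_, ?_, ?_⟩
  · refine Integrable.smul c ?_
    have hdet' : LinearMap.det (L.symm : TV →ₗ[ℝ] TV) ≠ 0 := (LinearEquiv.isUnit_det' L.symm.toLinearEquiv).ne_zero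
    have hmap := Measure.map_linearMap_addHaar_eq_smul_addHaar (volume : Measure TV) hdet'
    have : Integrable g (Measure.map (L.symm : TV →ₗ[ℝ] TV) volume) := by
      rw [hmap]
      exact hg.smul_measure ENNReal.ofReal_ne_top
    exact (L.symm.toHomeomorph.measurableEmbedding.integrable_map_iff).1 this
  · intro ω hω
    have : L.symm ω ∉ S := fun h => hω ⟨L.symm ω, h, by simp⟩
    simp [h0 _ this]
  · funext p
    rw [Real.fourierInv_eq, Real.fourierInv_eq]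
    have h2 := tri_integral_comp_lin L (fun ω => 𝐞 ⟪ω, p⟫_ℝ • (g (L.symm ω)))
    simp only [ContinuousLinearEquiv.symm_apply_apply] at h2
    have h3 : ∫ ω, 𝐞 ⟪ω, p⟫_ℝ • (c • g (L.symm ω)) = c • ∫ ω, 𝐞 ⟪ω, p⟫_ℝ • (g (L.symm ω)) := by
      rw [← integral_smul]
      congr 1
      funext ω
      rw [smul_comm]
    rw [h3, ← h2]
    congr 1
    funext ω
    rw [real_inner_comm, hAL, real_inner_comm]

theorem tri_norm_le_one_of_cube (p : TV) (h : ∀ i, |p i| ≤ 1 / 2) : ‖p‖ ≤ 1 := by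
  have h1 : ‖p‖ ^ 2 ≤ 1 := by
    rw [EuclideanSpace.norm_sq_eq, Fin.sum_univ_three]
    have hs : ∀ i, ‖p i‖ ^ 2 ≤ 1 / 4 := by
      intro i
      rw [Real.norm_eq_abs]
      have := h i
      have h0 := abs_nonneg (p i)
      nlinarith
    linarith [hs 0, hs 1, hs 2]
  have h0 := norm_nonneg p
  nlinarith

/-- **LEAF L-256-TRI-ETA0.**  `φ = ContDiffBump (0 : TV)` with `rOut = 1/16`, normalised (`ContDiffBump.normed`, `∫ φ = 1`, `φ ≥ 0`), as a Schwartz map (`HasCompactSupport.toSchwartzMap`, cast to `ℂ`);  `η = 2 • 𝓕⁻ φ`;  `𝓕 η = 2 φ`.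
For `|p i| ≤ 1/2`: `‖p‖ ≤ √3/2`, `|2π ⟪ω, p⟫| ≤ 2π (1/16)(√3/2) < 1`, `Re 𝐞(..) = cos(..) ≥ 1/2` (`Real.one_sub_sq_div_two_le_cos`), so `Re (𝓕⁻ φ p) = ∫ φ cos ≥ 1/2`. -/
theorem tri_eta_exists : ∃ η : 𝓢(TV, ℂ), (∀ ω : TV, 1 / 16 < ‖ω‖ → (𝓕 η) ω = 0) ∧ ∀ p : TV, (∀ i, |p i| ≤ 1 / 2) → 1 ≤ ‖η p‖ := by
  let φ : ContDiffBump (0 : TV) := ⟨1 / 32, 1 / 16, by norm_num, by norm_num⟩
  have hI : 0 < ∫ ξ, φ ξ := φ.integral_pos
  set I : ℝ := ∫ ξ, φ ξ with hIdef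
  set g : TV → ℂ := fun ξ => ((2 / I * φ ξ : ℝ) : ℂ) with hg
  have hφint : Integrable (fun ξ => φ ξ) := φ.integrable
  have hgint : Integrable g := (hφint.const_mul (2 / I)).ofReal
  have hzero : ∀ ξ : TV, 1 / 16 ≤ ‖ξ‖ → g ξ = 0 := by
    intro ξ hξ
    have : φ ξ = 0 := φ.zero_of_le_dist (by rw [dist_zero_right]; exact hξ)
    simp [hg, this]
  have hnorm : ∀ ξ, ‖g ξ‖ = 2 / I * φ ξ := by
    intro ξ
    rw [hg]
    simp only
    rw [Complex.norm_real, Real.norm_of_nonneg (mul_nonneg (by positivity) φ.nonneg)]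
  have hgI : ∫ ξ, g ξ = 2 := by
    rw [hg]
    simp only
    have h1 : ∫ ξ, ((2 / I * φ ξ : ℝ) : ℂ) = ((∫ ξ, 2 / I * φ ξ : ℝ) : ℂ) := integral_ofReal
    rw [h1, integral_const_mul, ← hIdef]
    have : 2 / I * I = 2 := by field_simp
    rw [this]
    norm_num
  have hgN : ∫ ξ, ‖g ξ‖ = 2 := by
    simp_rw [hnorm]
    rw [integral_const_mul, ← hIdef]
    field_simp
  have hcs : HasCompactSupport g := by
    apply HasCompactSupport.intro (isCompact_closedBall (0 : TV) 1)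
    intro ξ hξ
    apply hzero
    simp only [Metric.mem_closedBall, dist_zero_right, not_le] at hξ
    linarith
  have hsm : ContDiff ℝ (⊤ : ℕ∞) g := by
    have h1 : ContDiff ℝ (⊤ : ℕ∞) fun ξ => 2 / I * φ ξ := contDiff_const.mul φ.contDiff
    exact Complex.ofRealCLM.contDiff.comp h1
  let G : 𝓢(TV, ℂ) := hcs.toSchwartzMap hsm
  have hGg : ∀ ξ, G ξ = g ξ := fun ξ => rfl
  refine ⟨𝓕⁻ G, ?_, ?_⟩
  · intro ω hω
    rw [FourierTransform.fourier_fourierInv_eq, hGg]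
    exact hzero ω hω.le
  · intro p hp
    have hp1 : ‖p‖ ≤ 1 := tri_norm_le_one_of_cube p hp
    have hval : (𝓕⁻ G) p = ∫ ξ, Complex.exp (↑(2 * Real.pi * ⟪ξ, p⟫_ℝ) * Complex.I) • g ξ := by
      rw [SchwartzMap.fourierInv_coe, Real.fourierInv_eq']
      rfl
    have hchint : Integrable fun ξ => Complex.exp (↑(2 * Real.pi * ⟪ξ, p⟫_ℝ) * Complex.I) • g ξ := by
      refine hgint.bdd_mul (c := 1) ?_ ?_
      · apply Continuous.aestronglyMeasurable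
        fun_prop
      · exact Filter.Eventually.of_forall fun ξ => (Complex.norm_exp_ofReal_mul_I _).le
    have e : (𝓕⁻ G) p = 2 + ∫ ξ, (Complex.exp (↑(2 * Real.pi * ⟪ξ, p⟫_ℝ) * Complex.I) - 1) * g ξ := by
      have : ∀ ξ, (Complex.exp (↑(2 * Real.pi * ⟪ξ, p⟫_ℝ) * Complex.I) - 1) * g ξ
          = Complex.exp (↑(2 * Real.pi * ⟪ξ, p⟫_ℝ) * Complex.I) • g ξ - g ξ := fun ξ => by
        rw [smul_eq_mul]; ring
      simp_rw [this]
      rw [integral_sub hchint hgint, hgI, hval]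
      ring
    have hb : ‖∫ ξ, (Complex.exp (↑(2 * Real.pi * ⟪ξ, p⟫_ℝ) * Complex.I) - 1) * g ξ‖ ≤ 1 := by
      calc ‖∫ ξ, (Complex.exp (↑(2 * Real.pi * ⟪ξ, p⟫_ℝ) * Complex.I) - 1) * g ξ‖
          ≤ ∫ ξ, ‖(Complex.exp (↑(2 * Real.pi * ⟪ξ, p⟫_ℝ) * Complex.I) - 1) * g ξ‖ := norm_integral_le_integral_norm _
        _ ≤ ∫ ξ, 1 / 2 * ‖g ξ‖ := by
          apply integral_mono_of_nonneg (Filter.Eventually.of_forall fun ξ => norm_nonneg _) (hgint.norm.const_mul _)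
          refine Filter.Eventually.of_forall fun ξ => ?_
          simp only
          rw [norm_mul]
          by_cases hξ : 1 / 16 ≤ ‖ξ‖
          · rw [hzero ξ hξ]; simp
          · push Not at hξ
            apply mul_le_mul_of_nonneg_right _ (norm_nonneg _)
            have h1 := Real.norm_exp_I_mul_ofReal_sub_one_le (x := 2 * Real.pi * ⟪ξ, p⟫_ℝ)
            rw [mul_comm] at h1
            refine h1.trans ?_
            rw [Real.norm_eq_abs, abs_mul, abs_of_nonneg (by positivity)]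
            have h2 : |⟪ξ, p⟫_ℝ| ≤ 1 / 16 := by
              refine (abs_real_inner_le_norm ξ p).trans ?_
              nlinarith [norm_nonneg p, norm_nonneg ξ]
            have hπ := Real.pi_lt_four
            have hπ0 := Real.pi_pos
            nlinarith [abs_nonneg ⟪ξ, p⟫_ℝ]
        _ = 1 := by rw [integral_const_mul, hgN]; norm_num
    rw [e]
    have h2 : ‖(2 : ℂ)‖ = 2 := by simp
    have := norm_sub_le_norm_add (2 : ℂ) (∫ ξ, (Complex.exp (↑(2 * Real.pi * ⟪ξ, p⟫_ℝ) * Complex.I) - 1) * g ξ)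
    linarith

/-- the fixed bump: Fourier support in the ball of radius `1/16`, `|η| ≥ 1` on the unit cube -/
noncomputable def teta0 : 𝓢(TV, ℂ) := Classical.choose tri_eta_exists

/-- the bump at scale `ρ` with centre `z` -/
noncomputable def teta (ρ : ℝ) (z p : TV) : ℂ := teta0 (ρ⁻¹ • (p - z))

theorem tri_kit_eqns_cite : True := by
  have := @teta0.eq_1
  have := @teta.eq_1
  trivial

theorem tri_teta0_fs : TFS (Metric.closedBall 0 (1 / 16)) (teta0 : TV → ℂ) := by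
  refine ⟨(𝓕 teta0 : 𝓢(TV, ℂ)), (𝓕 teta0 : 𝓢(TV, ℂ)).integrable, ?_, ?_⟩
  · intro ω hω
    apply (Classical.choose_spec tri_eta_exists).1
    simpa using hω
  · rw [← SchwartzMap.fourierInv_coe, FourierTransform.fourierInv_fourier_eq]

/-- **LEAF L-256-TRI-ETA (1).**  `teta0 = 𝓕⁻ (𝓕 teta0)`;  `teta0 (ρ⁻¹ (p - z)) = ∫ 𝐞 ⟪ω, ρ⁻¹ (p - z)⟫ η̂ ω = ∫ 𝐞 ⟪ω', p⟫ [𝐞 (-⟪ω', z⟫) ρ³ η̂ (ρ ω')] dω'` (`Measure.integral_comp_smul`, `finrank = 3`). -/
theorem tri_eta_fs (ρ : ℝ) (hρ : 0 < ρ) (z : TV) : TFS (Metric.closedBall 0 (1 / (16 * ρ))) (teta ρ z) := by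
  have hne : ρ⁻¹ ≠ 0 := inv_ne_zero hρ.ne'
  let A : TV ≃L[ℝ] TV := ContinuousLinearEquiv.smulLeft (Units.mk0 ρ⁻¹ hne)
  have hA : ∀ p, A p = ρ⁻¹ • p := fun p => rfl
  have h1 : TFS (A '' Metric.closedBall 0 (1 / 16)) (fun p => teta0 (A p)) :=
    TFS.comp_lin tri_teta0_fs A A (fun p ω => by rw [hA, hA, inner_smul_left, inner_smul_right]; simp)
  have h2 : TFS (A '' Metric.closedBall 0 (1 / 16)) (fun p => teta0 (A (p + (-z)))) := TFS.comp_add h1 (-z)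
  have h3 : (fun p => teta0 (A (p + (-z)))) = teta ρ z := by
    funext p
    rw [hA, teta, sub_eq_add_neg]
  rw [h3] at h2
  refine TFS.mono ?_ h2
  rintro _ ⟨ω, hω, rfl⟩
  simp only [Metric.mem_closedBall, dist_zero_right] at hω ⊢
  rw [hA, norm_smul, Real.norm_of_nonneg (inv_nonneg.mpr hρ.le)]
  calc ρ⁻¹ * ‖ω‖ ≤ ρ⁻¹ * (1 / 16) := by gcongr
    _ = 1 / (16 * ρ) := by field_simp

/-- **LEAF L-256-TRI-ETA (2).** -/
theorem tri_eta_ge (ρ : ℝ) (hρ : 0 < ρ) (z p : TV) (h : ∀ i, |p i - z i| ≤ ρ / 2) : 1 ≤ ‖teta ρ z p‖ := by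
  apply (Classical.choose_spec tri_eta_exists).2
  intro i
  have : (ρ⁻¹ • (p - z)) i = ρ⁻¹ * (p i - z i) := by simp
  rw [this, abs_mul, abs_of_pos (inv_pos.mpr hρ)]
  calc ρ⁻¹ * |p i - z i| ≤ ρ⁻¹ * (ρ / 2) := by gcongr; exact h i
    _ = 1 / 2 := by field_simp

/-- **LEAF L-256-TRI-ETA (3).**  `SchwartzMap.decay` / `SchwartzMap.one_add_le_sup_seminorm_apply`: `(1 + ‖u‖)^N ‖teta0 u‖² ≤ C`. -/
theorem tri_eta_decay (N : ℕ) : ∃ C : ℝ, 0 ≤ C ∧ ∀ (ρ : ℝ), 0 < ρ → ∀ z p : TV, ‖teta ρ z p‖ₑ ^ 2 ≤ ENNReal.ofReal C * tWt N ρ z p := by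
  set C₁ : ℝ := 2 ^ N * (Finset.Iic (N, 0)).sup (fun m => SchwartzMap.seminorm ℝ m.1 m.2) teta0 with hC₁
  set C₀ : ℝ := 2 ^ 0 * (Finset.Iic (0, 0)).sup (fun m => SchwartzMap.seminorm ℝ m.1 m.2) teta0 with hC₀
  have hC₁nn : 0 ≤ C₁ := by positivity
  have hC₀nn : 0 ≤ C₀ := by positivity
  refine ⟨C₁ * C₀, by positivity, fun ρ hρ z p => ?_⟩
  set u : TV := ρ⁻¹ • (p - z) with hu
  have hun : ‖u‖ = ‖p - z‖ / ρ := by
    rw [hu, norm_smul, Real.norm_of_nonneg (inv_nonneg.mpr hρ.le)]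
    field_simp
  have h1 := SchwartzMap.one_add_le_sup_seminorm_apply (𝕜 := ℝ) (m := (N, 0)) (k := N) (n := 0) le_rfl le_rfl teta0 u
  have h0 := SchwartzMap.one_add_le_sup_seminorm_apply (𝕜 := ℝ) (m := (0, 0)) (k := 0) (n := 0) le_rfl le_rfl teta0 u
  rw [norm_iteratedFDeriv_zero] at h1 h0
  rw [pow_zero, one_mul] at h0
  have hpos : 0 < 1 + ‖u‖ := by positivity
  have hkey : ‖teta0 u‖ ^ 2 ≤ C₁ * C₀ * (1 + ‖u‖) ^ (-(N : ℝ)) := by
    rw [Real.rpow_neg hpos.le, Real.rpow_natCast]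
    have hp : 0 < (1 + ‖u‖) ^ N := by positivity
    rw [← div_eq_mul_inv, le_div_iff₀ hp]
    calc ‖teta0 u‖ ^ 2 * (1 + ‖u‖) ^ N = ((1 + ‖u‖) ^ N * ‖teta0 u‖) * ‖teta0 u‖ := by ring
      _ ≤ C₁ * C₀ := mul_le_mul h1 h0 (norm_nonneg _) hC₁nn
  have hte : teta ρ z p = teta0 u := rfl
  rw [hte, tWt, ← hun, ← ENNReal.ofReal_mul (by positivity)]
  have : ‖teta0 u‖ₑ ^ 2 = ENNReal.ofReal (‖teta0 u‖ ^ 2) := by
    rw [ENNReal.ofReal_pow (norm_nonneg _), ofReal_norm]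
  rw [this]
  exact ENNReal.ofReal_le_ofReal hkey

theorem tri_tlat_apply (ρ : ℝ) (k : Fin 3 → ℤ) (i : Fin 3) : tlat ρ k i = ρ * k i := by
  fin_cases i <;> simp [tlat, tvec]

theorem tri_tlat_eq_smul (ρ : ℝ) (k : Fin 3 → ℤ) : tlat ρ k = ρ • tlat 1 k := by
  ext i
  simp [tri_tlat_apply]

theorem tri_tlat_sep (k k' : Fin 3 → ℤ) (h : k ≠ k') : 1 ≤ dist (tlat 1 k) (tlat 1 k') := by
  obtain ⟨i, hi⟩ : ∃ i, k i ≠ k' i := by
    by_contra hcon
    push Not at hcon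
    exact h (funext hcon)
  have h1 : (1 : ℝ) ≤ |(k i : ℝ) - k' i| := by
    have : (1 : ℤ) ≤ |k i - k' i| := Int.one_le_abs (sub_ne_zero.mpr hi)
    exact_mod_cast this
  have h2 : ‖(tlat 1 k - tlat 1 k') i‖ ≤ ‖tlat 1 k - tlat 1 k'‖ := PiLp.norm_apply_le _ i
  rw [dist_eq_norm]
  refine le_trans ?_ h2
  simpa [tri_tlat_apply] using h1

/-- unit scale -/
theorem tri_lat_sum_unit : ∃ C : ℝ, 0 ≤ C ∧ ∀ u : TV,
    ∑' k : Fin 3 → ℤ, ENNReal.ofReal ((1 + ‖u - tlat 1 k‖) ^ (-(4 : ℝ))) ≤ ENNReal.ofReal C := by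
  have hint : Integrable (fun x : TV => (1 + ‖x‖) ^ (-(4 : ℝ))) := by
    apply integrable_one_add_norm
    simp
    norm_num
  set I : ℝ := ∫ x : TV, (1 + ‖x‖) ^ (-(4 : ℝ)) with hI
  have hI0 : 0 ≤ I := integral_nonneg fun x => by positivity
  set v : ℝ≥0∞ := volume (Metric.ball (0 : TV) (1 / 2)) with hv
  have hv0 : v ≠ 0 := (Metric.measure_ball_pos volume _ (by norm_num)).ne'
  have hvt : v ≠ ∞ := measure_ball_lt_top.ne
  refine ⟨16 * I / v.toReal, by positivity, fun u => ?_⟩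
  set f : TV → ℝ≥0∞ := fun x => ENNReal.ofReal ((1 + ‖u - x‖) ^ (-(4 : ℝ))) with hf
  have hfm : Measurable f := by
    apply ENNReal.measurable_ofReal.comp
    fun_prop
  have hftot : ∫⁻ x, f x = ENNReal.ofReal I := by
    have h1 : ∫⁻ x, f x = ∫⁻ x : TV, ENNReal.ofReal ((1 + ‖x‖) ^ (-(4 : ℝ))) :=
      lintegral_sub_left_eq_self (fun x : TV => ENNReal.ofReal ((1 + ‖x‖) ^ (-(4 : ℝ)))) u
    rw [h1, hI, ofReal_integral_eq_lintegral_ofReal hint (Filter.Eventually.of_forall fun x => by positivity)]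
  have hone : ∀ k : Fin 3 → ℤ, v * ENNReal.ofReal ((1 + ‖u - tlat 1 k‖) ^ (-(4 : ℝ)))
      ≤ 16 * ∫⁻ x in Metric.ball (tlat 1 k) (1 / 2), f x := by
    intro k
    have hvol : volume (Metric.ball (tlat 1 k) (1 / 2)) = v := Measure.addHaar_ball_center _ _ _
    have hle : ∀ x ∈ Metric.ball (tlat 1 k) (1 / 2),
        ENNReal.ofReal ((1 + ‖u - tlat 1 k‖) ^ (-(4 : ℝ)) / 16) ≤ f x := by
      intro x hx
      apply ENNReal.ofReal_le_ofReal
      have hx' : ‖x - tlat 1 k‖ < 1 / 2 := by simpa [dist_eq_norm] using hx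
      have h1 : ‖u - x‖ ≤ ‖u - tlat 1 k‖ + ‖x - tlat 1 k‖ := by
        have : u - x = (u - tlat 1 k) - (x - tlat 1 k) := by abel
        rw [this]
        exact norm_sub_le _ _
      have h2 : 1 + ‖u - x‖ ≤ 2 * (1 + ‖u - tlat 1 k‖) := by
        have := norm_nonneg (u - tlat 1 k)
        linarith
      have h3 : (2 * (1 + ‖u - tlat 1 k‖)) ^ (-(4 : ℝ)) ≤ (1 + ‖u - x‖) ^ (-(4 : ℝ)) :=
        Real.rpow_le_rpow_of_nonpos (by positivity) h2 (by norm_num)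
      have h4 : (2 * (1 + ‖u - tlat 1 k‖)) ^ (-(4 : ℝ)) = (1 + ‖u - tlat 1 k‖) ^ (-(4 : ℝ)) / 16 := by
        rw [Real.mul_rpow (by norm_num) (by positivity)]
        have : (2 : ℝ) ^ (-(4 : ℝ)) = 1 / 16 := by
          rw [Real.rpow_neg (by norm_num)]
          norm_num
        rw [this]
        ring
      rw [← h4]
      exact h3
    have hlow : ENNReal.ofReal ((1 + ‖u - tlat 1 k‖) ^ (-(4 : ℝ)) / 16) * v
        ≤ ∫⁻ x in Metric.ball (tlat 1 k) (1 / 2), f x := by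
      rw [← hvol, ← setLIntegral_const]
      exact setLIntegral_mono' measurableSet_ball hle
    calc v * ENNReal.ofReal ((1 + ‖u - tlat 1 k‖) ^ (-(4 : ℝ)))
        = 16 * (ENNReal.ofReal ((1 + ‖u - tlat 1 k‖) ^ (-(4 : ℝ)) / 16) * v) := by
          rw [ENNReal.ofReal_div_of_pos (by norm_num)]
          have : ENNReal.ofReal 16 = 16 := by norm_num
          rw [this, ← mul_assoc, ENNReal.mul_div_cancel (by norm_num) (by norm_num), mul_comm]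
      _ ≤ _ := by gcongr
  have hsum : ∑' k : Fin 3 → ℤ, ∫⁻ x in Metric.ball (tlat 1 k) (1 / 2), f x ≤ ENNReal.ofReal I := by
    rw [← lintegral_iUnion (fun k => measurableSet_ball), ← hftot]
    · exact setLIntegral_le_lintegral _ _
    · intro k k' hkk
      apply Metric.ball_disjoint_ball
      have := tri_tlat_sep k k' hkk
      linarith
  have hfin : v * ∑' k : Fin 3 → ℤ, ENNReal.ofReal ((1 + ‖u - tlat 1 k‖) ^ (-(4 : ℝ))) ≤ 16 * ENNReal.ofReal I := by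
    rw [← ENNReal.tsum_mul_left]
    calc _ ≤ ∑' k : Fin 3 → ℤ, 16 * ∫⁻ x in Metric.ball (tlat 1 k) (1 / 2), f x := ENNReal.tsum_le_tsum hone
      _ = 16 * ∑' k : Fin 3 → ℤ, ∫⁻ x in Metric.ball (tlat 1 k) (1 / 2), f x := ENNReal.tsum_mul_left
      _ ≤ _ := by gcongr
  have hvr : 0 < v.toReal := ENNReal.toReal_pos hv0 hvt
  rw [ENNReal.ofReal_div_of_pos hvr, ENNReal.ofReal_toReal hvt, ENNReal.le_div_iff_mul_le (Or.inl hv0) (Or.inl hvt),
    ENNReal.ofReal_mul (by norm_num), mul_comm]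
  simpa using hfin

/-- **LEAF L-256-TRI-LATSUM.**  `∑_{k ∈ ℤ³} (1 + ‖p/ρ - k‖)^{-4} ≤ C` uniformly in `p` (compare with `∑ (1 + ‖k‖_∞)^{-4}`, shells `‖k‖_∞ = j` have `≤ 26 j² + 1 ..` points; or `∏` of three one-dimensional sums after
`(1 + ‖u‖)^{-4} ≤ ..`;  any finite `C`). -/
theorem tri_lat_sum : ∃ C : ℝ, 0 ≤ C ∧ ∀ (ρ : ℝ), 0 < ρ → ∀ p : TV, ∑' k : Fin 3 → ℤ, tWt 4 ρ (tlat ρ k) p ≤ ENNReal.ofReal C := by
  obtain ⟨C, hC, h⟩ := tri_lat_sum_unit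
  refine ⟨C, hC, fun ρ hρ p => ?_⟩
  refine le_trans (le_of_eq ?_) (h (ρ⁻¹ • p))
  congr 1
  funext k
  unfold tWt
  have : ‖p - tlat ρ k‖ / ρ = ‖ρ⁻¹ • p - tlat 1 k‖ := by
    have h1 : ρ⁻¹ • p - tlat 1 k = ρ⁻¹ • (p - tlat ρ k) := by
      rw [tri_tlat_eq_smul ρ k, smul_sub, smul_smul, inv_mul_cancel₀ hρ.ne', one_smul]
    rw [h1, norm_smul, Real.norm_of_nonneg (inv_nonneg.mpr hρ.le)]
    field_simp
  rw [this]
  norm_num

/-- self-adjointness of the Fourier integral on integrable functions -/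
theorem tri_flip (f g : TV → ℂ) (hf : Integrable f) (hg : Integrable g) :
    ∫ ξ, 𝓕 f ξ * g ξ = ∫ x, f x * 𝓕 g x := by
  simpa using! VectorFourier.integral_bilin_fourierIntegral_eq_flip (ContinuousLinearMap.mul ℂ ℂ) (L := innerₗ TV)
    Real.continuous_fourierChar continuous_inner hf hg

/-- self-adjointness of the inverse Fourier integral on integrable functions -/
theorem tri_flipInv (f g : TV → ℂ) (hf : Integrable f) (hg : Integrable g) :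
    ∫ ξ, 𝓕⁻ f ξ * g ξ = ∫ x, f x * 𝓕⁻ g x := by
  rw [Real.fourierInv_eq_fourier_comp_neg, tri_flip _ _ hf.comp_neg hg,
    ← integral_neg_eq_self (fun x => f x * 𝓕⁻ g x) volume]
  refine integral_congr_ae (Filter.Eventually.of_forall fun x => ?_)
  simp only
  rw [Real.fourierInv_eq_fourier_neg, neg_neg]

/-- conjugate of an inverse Fourier integral -/
theorem tri_conj_fourierInv (g : TV → ℂ) (p : TV) :
    (starRingEnd ℂ) (𝓕⁻ g p) = 𝓕 (fun ω => (starRingEnd ℂ) (g ω)) p := by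
  rw [Real.fourierInv_eq, Real.fourier_eq, ← integral_conj]
  refine integral_congr_ae (Filter.Eventually.of_forall fun ω => ?_)
  simp only [Circle.smul_def, smul_eq_mul, map_mul]
  rw [← Circle.coe_inv_eq_conj, ← AddChar.map_neg_eq_inv]

/-- conjugation reflects the Fourier support -/
theorem TFS.conj {S : Set TV} {F : TV → ℂ} (hF : TFS S F) : TFS (-S) (fun p => (starRingEnd ℂ) (F p)) := by
  obtain ⟨g, hg, h0, rfl⟩ := hF
  refine ⟨fun ω => (starRingEnd ℂ) (g (-ω)), ?_, ?_, ?_⟩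
  · have h1 : Integrable (fun ω => (starRingEnd ℂ) (g ω)) := by
      refine (integrable_norm_iff ?_).1 ?_
      · exact Complex.continuous_conj.comp_aestronglyMeasurable hg.1
      · simpa using hg.norm
    exact h1.comp_neg
  · intro ω hω
    have : g (-ω) = 0 := h0 _ (fun h => hω (by simpa using h))
    simp [this]
  · funext p
    rw [tri_conj_fourierInv, Real.fourierInv_eq_fourier_comp_neg]
    simp

/-- the weight `|η|²` is integrable -/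
theorem tri_eta_sq_intC (ρ : ℝ) (hρ : 0 < ρ) (z : TV) :
    Integrable (fun p => ((‖teta ρ z p‖ ^ 2 : ℝ) : ℂ)) := by
  have h0 : Integrable (fun u : TV => ‖teta0 u‖ ^ 2) :=
    (memLp_two_iff_integrable_sq_norm (teta0.integrable.1)).1 (teta0.memLp 2)
  have h1 : Integrable (fun u : TV => ‖teta0 (ρ⁻¹ • u)‖ ^ 2) := h0.comp_smul (inv_ne_zero hρ.ne')
  have h2 : Integrable (fun p : TV => ‖teta0 (ρ⁻¹ • (p - z))‖ ^ 2) := h1.comp_sub_right z
  exact h2.ofReal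

/-- the Fourier transform of the weight `|η|²` vanishes off the ball of radius `1/(8ρ)` -/
theorem tri_eta_sq_fs (ρ : ℝ) (hρ : 0 < ρ) (z ξ : TV) (hξ : 1 / (8 * ρ) < ‖ξ‖) :
    𝓕 (fun p => ((‖teta ρ z p‖ ^ 2 : ℝ) : ℂ)) ξ = 0 := by
  have hv : (fun p => ((‖teta ρ z p‖ ^ 2 : ℝ) : ℂ)) = fun p => teta ρ z p * (starRingEnd ℂ) (teta ρ z p) := by
    funext p
    rw [Complex.mul_conj, Complex.normSq_eq_norm_sq]
  obtain ⟨k, hk, k0, hk'⟩ := (tri_eta_fs ρ hρ z).mul (tri_eta_fs ρ hρ z).conj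
  have hint := tri_eta_sq_intC ρ hρ z
  rw [hv, hk'] at hint
  rw [hv, hk']
  have hzero : ∀ ω : TV, 1 / (8 * ρ) < ‖ω‖ → k ω = 0 := by
    intro ω hω
    apply k0
    rintro ⟨a, ha, b, hb, rfl⟩
    have ha' : ‖a‖ ≤ 1 / (16 * ρ) := by simpa using ha
    have hb' : ‖b‖ ≤ 1 / (16 * ρ) := by simpa using hb
    have h1 : ‖a + b‖ ≤ ‖a‖ + ‖b‖ := norm_add_le _ _
    have h2 : 1 / (16 * ρ) + 1 / (16 * ρ) = 1 / (8 * ρ) := by field_simp; norm_num
    linarith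
  have hcont : ContinuousAt k ξ := by
    have hopen : IsOpen {ω : TV | 1 / (8 * ρ) < ‖ω‖} := isOpen_lt continuous_const continuous_norm
    have : k =ᶠ[nhds ξ] fun _ => (0 : ℂ) := by
      filter_upwards [hopen.mem_nhds hξ] with ω hω using hzero ω hω
    exact (continuousAt_const).congr this.symm
  have hFk : Integrable (𝓕 k) := by
    have : 𝓕 k = fun x => 𝓕⁻ k (-x) := by
      funext x
      rw [Real.fourierInv_eq_fourier_neg, neg_neg]
    rw [this]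
    exact hint.comp_neg
  rw [hk.fourier_fourierInv_eq hFk hcont]
  exact hzero ξ hξ

/-- **LEAF L-256-TRI-ETAORTH: exact orthogonality against the weight `|η|²`.**
PLAN A.  `F η ∈ TFS (S + ball)`, `F' η ∈ TFS (S' + ball)` (`TFS.mul`, `tri_eta_fs`): representing functions `a = g ⋆ η̂`, `b = g' ⋆ η̂` are integrable, bounded and continuous with DISJOINT supports;  `∫ 𝓕⁻ a * conj (𝓕⁻ b) = ∫ a * conj b = 0`
(`VectorFourier.integral_fourierIntegral_smul_eq_flip` + inversion `Continuous.fourier_fourierInv_eq`; `𝓕⁻ a = F η` is integrable since `F` is bounded and `η` Schwartz).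
PLAN B.  Fubini: `∫ F conj F' v = ∫∫ g ω conj (g' ω') (∫ 𝐞 ⟪ω - ω', p⟫ v p dp)`, `v = |η|²` Schwartz with `𝓕 v = η̂ ⋆ (conj η̂ (-·))` supported in the ball of radius `1/(8ρ)`. -/
theorem tri_eta_orth (ρ : ℝ) (hρ : 0 < ρ) (z : TV) {S S' : Set TV} {F F' : TV → ℂ} (hF : TFS S F) (hF' : TFS S' F')
    (hsep : ∀ ω ∈ S, ∀ ω' ∈ S', 1 / (8 * ρ) < ‖ω - ω'‖) :
    ∫ p, F p * (starRingEnd ℂ) (F' p) * ((‖teta ρ z p‖ ^ 2 : ℝ) : ℂ) = 0 := by
  have hcont' := hF'.continuous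
  obtain ⟨B, hB0, hB⟩ := hF'.bdd
  obtain ⟨g, hg, h0, rfl⟩ := hF
  obtain ⟨g', hg', h0', rfl⟩ := hF'
  have hv := tri_eta_sq_intC ρ hρ z
  have hgc : Integrable (fun ω => (starRingEnd ℂ) (g' ω)) := by
    refine (integrable_norm_iff ?_).1 ?_
    · exact Complex.continuous_conj.comp_aestronglyMeasurable hg'.1
    · simpa using hg'.norm
  have hw : Integrable (fun p => (starRingEnd ℂ) (𝓕⁻ g' p) * ((‖teta ρ z p‖ ^ 2 : ℝ) : ℂ)) := by
    refine hv.bdd_mul (c := B) (Complex.continuous_conj.comp hcont').aestronglyMeasurable ?_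
    exact Filter.Eventually.of_forall fun p => by simpa using hB p
  have e1 : ∫ p, 𝓕⁻ g p * (starRingEnd ℂ) (𝓕⁻ g' p) * ((‖teta ρ z p‖ ^ 2 : ℝ) : ℂ)
      = ∫ ω, g ω * 𝓕⁻ (fun p => (starRingEnd ℂ) (𝓕⁻ g' p) * ((‖teta ρ z p‖ ^ 2 : ℝ) : ℂ)) ω := by
    rw [← tri_flipInv _ _ hg hw]
    refine integral_congr_ae (Filter.Eventually.of_forall fun p => ?_)
    simp only [mul_assoc]
  rw [e1]
  refine integral_eq_zero_of_ae (Filter.Eventually.of_forall fun ω => ?_)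
  by_cases hω : ω ∈ S
  swap
  · simp [h0 ω hω]
  have hmod : Integrable (fun p : TV => (𝐞 ⟪p, ω⟫_ℝ : ℂ) * ((‖teta ρ z p‖ ^ 2 : ℝ) : ℂ)) := by
    refine hv.bdd_mul (c := 1) ?_ ?_
    · exact (Continuous.aestronglyMeasurable (by fun_prop))
    · exact Filter.Eventually.of_forall fun p => (Circle.norm_coe _).le
  have e2 : 𝓕⁻ (fun p => (starRingEnd ℂ) (𝓕⁻ g' p) * ((‖teta ρ z p‖ ^ 2 : ℝ) : ℂ)) ω
      = ∫ ω', (starRingEnd ℂ) (g' ω') * 𝓕 (fun p : TV => (𝐞 ⟪p, ω⟫_ℝ : ℂ) * ((‖teta ρ z p‖ ^ 2 : ℝ) : ℂ)) ω' := by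
    rw [← tri_flip _ _ hgc hmod, Real.fourierInv_eq]
    refine integral_congr_ae (Filter.Eventually.of_forall fun p => ?_)
    simp only [Circle.smul_def, smul_eq_mul]
    rw [tri_conj_fourierInv]
    ring
  have e3 : ∫ ω', (starRingEnd ℂ) (g' ω') * 𝓕 (fun p : TV => (𝐞 ⟪p, ω⟫_ℝ : ℂ) * ((‖teta ρ z p‖ ^ 2 : ℝ) : ℂ)) ω' = 0 := by
    refine integral_eq_zero_of_ae (Filter.Eventually.of_forall fun ω' => ?_)
    by_cases hω' : ω' ∈ S'
    swap
    · simp [h0' ω' hω']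
    have e4 : 𝓕 (fun p : TV => (𝐞 ⟪p, ω⟫_ℝ : ℂ) * ((‖teta ρ z p‖ ^ 2 : ℝ) : ℂ)) ω'
        = 𝓕 (fun p => ((‖teta ρ z p‖ ^ 2 : ℝ) : ℂ)) (ω' - ω) := by
      rw [Real.fourier_eq, Real.fourier_eq]
      refine integral_congr_ae (Filter.Eventually.of_forall fun p => ?_)
      simp only [Circle.smul_def, smul_eq_mul]
      rw [← mul_assoc, ← Circle.coe_mul, ← AddChar.map_add_eq_mul, inner_sub_right]
      congr 3
      ring
    have h5 : 1 / (8 * ρ) < ‖ω' - ω‖ := by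
      rw [norm_sub_rev]
      exact hsep ω hω ω' hω'
    show (starRingEnd ℂ) (g' ω') * _ = 0
    rw [e4, tri_eta_sq_fs ρ hρ z _ h5, mul_zero]
  show g ω * _ = 0
  rw [e2, e3, mul_zero]

theorem tri_bump_exists {V : Type*} [NormedAddCommGroup V] [InnerProductSpace ℝ V] [FiniteDimensional ℝ V] [MeasurableSpace V] [BorelSpace V]
    (R : ℝ) (hR : 0 < R) : ∃ k : 𝓢(V, ℂ), ∀ ω : V, ‖ω‖ ≤ R → (𝓕⁻ k) ω = 1 := by
  let φ : ContDiffBump (0 : V) := ⟨R, R + 1, hR, by linarith⟩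
  have h1 : HasCompactSupport (Complex.ofRealCLM ∘ φ) := φ.hasCompactSupport.comp_left rfl
  have h2 : ContDiff ℝ ((⊤ : ℕ∞) : WithTop ℕ∞) (Complex.ofRealCLM ∘ φ) := Complex.ofRealCLM.contDiff.comp φ.contDiff
  refine ⟨𝓕 (h1.toSchwartzMap h2), fun ω hω => ?_⟩
  rw [FourierTransform.fourierInv_fourier_eq]
  have h3 : φ ω = 1 := φ.one_of_mem_closedBall (by simpa using hω)
  simp [h3]

/-- **LEAF L-256-TRI-PSI.**  `χ : ℝ → ℝ` smooth, compact support, `= 1` on `[-1,1]` (`ContDiffBump` with `rIn = 1`, `rOut = 2`: `ContDiffBump.one_of_mem_closedBall`), `Ψ = 𝓕 χ` as a Schwartz map, `𝓕⁻ Ψ = χ`. -/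
theorem tri_psi_exists : ∃ Ψ : 𝓢(ℝ, ℂ), ∀ u : ℝ, |u| ≤ 1 → (𝓕⁻ Ψ) u = 1 := by
  let φ : ContDiffBump (0 : ℝ) := ⟨1, 2, by norm_num, by norm_num⟩
  set g : ℝ → ℂ := fun ξ => ((φ ξ : ℝ) : ℂ) with hg
  have hcs : HasCompactSupport g := by
    apply HasCompactSupport.intro (isCompact_closedBall (0 : ℝ) 2)
    intro ξ hξ
    simp only [Metric.mem_closedBall, not_le] at hξ
    have : φ ξ = 0 := φ.zero_of_le_dist hξ.le
    simp [hg, this]
  have hsm : ContDiff ℝ (⊤ : ℕ∞) g := Complex.ofRealCLM.contDiff.comp φ.contDiff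
  let G : 𝓢(ℝ, ℂ) := hcs.toSchwartzMap hsm
  have hGg : ∀ ξ, G ξ = g ξ := fun ξ => rfl
  refine ⟨𝓕 G, fun u hu => ?_⟩
  rw [FourierTransform.fourierInv_fourier_eq, hGg]
  have : φ u = 1 := φ.one_of_mem_closedBall (by simpa [Real.dist_eq] using hu)
  simp [hg, this]

theorem tri_sch_decay {V : Type*} [NormedAddCommGroup V] [NormedSpace ℝ V] (k : 𝓢(V, ℂ)) (N : ℕ) :
    ∃ C : ℝ, 0 ≤ C ∧ ∀ v, ‖k v‖ ≤ C * (1 + ‖v‖) ^ (-(N : ℝ)) := by
  refine ⟨2 ^ N * (Finset.Iic ((N, 0) : ℕ × ℕ)).sup (fun m => SchwartzMap.seminorm ℝ m.1 m.2) k, by positivity, fun v => ?_⟩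
  have h := SchwartzMap.one_add_le_sup_seminorm_apply (𝕜 := ℝ) (m := (N, 0)) (k := N) (n := 0) le_rfl le_rfl k v
  rw [norm_iteratedFDeriv_zero] at h
  have hp : 0 < (1 + ‖v‖) ^ N := by positivity
  rw [Real.rpow_neg (by positivity), Real.rpow_natCast, ← div_eq_mul_inv, le_div_iff₀ hp, mul_comm]
  exact h

theorem tri_cs {α : Type*} [MeasurableSpace α] (μ : Measure α) (f w : α → ℝ≥0∞) (hf : AEMeasurable f μ) (hw : AEMeasurable w μ) :
    (∫⁻ a, f a * w a ∂μ) ^ 2 ≤ (∫⁻ a, w a ∂μ) * ∫⁻ a, f a ^ 2 * w a ∂μ := by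
  have hh : (2 : ℝ).HolderConjugate 2 := by
    rw [Real.holderConjugate_iff]
    norm_num
  have h := ENNReal.lintegral_mul_le_Lp_mul_Lq μ hh (f := fun a => f a * w a ^ (1 / 2 : ℝ)) (g := fun a => w a ^ (1 / 2 : ℝ))
    (hf.mul (hw.pow_const (1 / 2 : ℝ))) (hw.pow_const (1 / 2 : ℝ))
  have e1 : ∀ a, ((fun a => f a * w a ^ (1 / 2 : ℝ)) * fun a => w a ^ (1 / 2 : ℝ)) a = f a * w a := by
    intro a
    simp only [Pi.mul_apply]
    rw [mul_assoc, ← ENNReal.rpow_add_of_nonneg _ _ (by norm_num) (by norm_num)]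
    norm_num
  have e2 : ∀ a, (f a * w a ^ (1 / 2 : ℝ)) ^ (2 : ℝ) = f a ^ 2 * w a := by
    intro a
    rw [ENNReal.mul_rpow_of_nonneg _ _ (by norm_num), ← ENNReal.rpow_mul]
    norm_num
  have e3 : ∀ a, (w a ^ (1 / 2 : ℝ)) ^ (2 : ℝ) = w a := by
    intro a
    rw [← ENNReal.rpow_mul]
    norm_num
  simp only [e1, e2, e3] at h
  calc (∫⁻ a, f a * w a ∂μ) ^ 2 ≤ ((∫⁻ a, f a ^ 2 * w a ∂μ) ^ (1 / 2 : ℝ) * (∫⁻ a, w a ∂μ) ^ (1 / 2 : ℝ)) ^ 2 := by gcongr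
    _ = (∫⁻ a, w a ∂μ) * ∫⁻ a, f a ^ 2 * w a ∂μ := by
      rw [mul_pow, ← ENNReal.rpow_natCast, ← ENNReal.rpow_natCast, ← ENNReal.rpow_mul, ← ENNReal.rpow_mul, mul_comm]
      norm_num

theorem tri_repro {V : Type*} [MeasurableSpace V] (μ : Measure V) [SFinite μ] (T : V → TV) (hT : Measurable T) (k : V → ℂ) (hk : Integrable k μ)
    (S : Set TV) (h1 : ∀ ω ∈ S, ∫ v, 𝐞 ⟪ω, T v⟫_ℝ • k v ∂μ = 1) (G : TV → ℂ) (hG : TFS S G) (p : TV) :
    G p = ∫ v, G (p + T v) * k v ∂μ := by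
  obtain ⟨g, hg, h0, rfl⟩ := hG
  simp only [Real.fourierInv_eq]
  have hint : Integrable (Function.uncurry fun (v : V) (ω : TV) => (𝐞 ⟪ω, p + T v⟫_ℝ • g ω) * k v) (μ.prod volume) := by
    have h2 : Integrable (fun z : V × TV => k z.1 * g z.2) (μ.prod volume) := hk.mul_prod hg
    have hm : Measurable fun z : V × TV => ((𝐞 ⟪z.2, p + T z.1⟫_ℝ : Circle) : ℂ) := by
      have hc : Continuous fun t : ℝ => ((𝐞 t : Circle) : ℂ) := by fun_prop
      exact hc.measurable.comp (measurable_snd.inner (measurable_const.add (hT.comp measurable_fst)))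
    have h3 := h2.bdd_mul (c := 1) hm.aestronglyMeasurable (Filter.Eventually.of_forall fun z => (Circle.norm_coe _).le)
    refine h3.congr (Filter.Eventually.of_forall fun z => ?_)
    simp only [Function.uncurry, Circle.smul_def, smul_eq_mul]
    ring
  calc ∫ ω, 𝐞 ⟪ω, p⟫_ℝ • g ω = ∫ ω, ∫ v, (𝐞 ⟪ω, p + T v⟫_ℝ • g ω) * k v ∂μ := by
        refine integral_congr_ae (Filter.Eventually.of_forall fun ω => ?_)
        by_cases hω : ω ∈ S
        · have e : ∀ v, (𝐞 ⟪ω, p + T v⟫_ℝ • g ω) * k v = (𝐞 ⟪ω, p⟫_ℝ • g ω) * (𝐞 ⟪ω, T v⟫_ℝ • k v) := by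
            intro v
            rw [inner_add_right, AddChar.map_add_eq_mul]
            simp only [Circle.smul_def, smul_eq_mul, Circle.coe_mul]
            ring
          simp only [e]
          rw [integral_const_mul, h1 ω hω, mul_one]
        · simp [h0 ω hω]
    _ = ∫ v, (∫ ω, (𝐞 ⟪ω, p + T v⟫_ℝ • g ω) * k v) ∂μ := (integral_integral_swap hint).symm
    _ = ∫ v, (∫ ω, 𝐞 ⟪ω, p + T v⟫_ℝ • g ω) * k v ∂μ := by
        refine integral_congr_ae (Filter.Eventually.of_forall fun v => ?_)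
        exact integral_mul_const _ _

theorem tri_bern {V : Type*} [MeasurableSpace V] (μ : Measure V) [SFinite μ] (T : V → TV) (hT : Measurable T) (k : V → ℂ) (hk : Integrable k μ)
    (S : Set TV) (h1 : ∀ ω ∈ S, ∫ v, 𝐞 ⟪ω, T v⟫_ℝ • k v ∂μ = 1) (G : TV → ℂ) (hG : TFS S G) (p : TV) :
    ‖G p‖ₑ ^ 2 ≤ (∫⁻ v, ‖k v‖ₑ ∂μ) * ∫⁻ v, ‖G (p + T v)‖ₑ ^ 2 * ‖k v‖ₑ ∂μ := by
  have hGm : Measurable fun v => ‖G (p + T v)‖ₑ := (hG.continuous.measurable.comp (measurable_const.add hT)).enorm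
  refine le_trans ?_ (tri_cs μ _ _ hGm.aemeasurable hk.1.aemeasurable.enorm)
  gcongr
  conv_lhs => rw [tri_repro μ T hT k hk S h1 G hG p]
  refine (enorm_integral_le_lintegral_enorm _).trans (le_of_eq ?_)
  simp only [enorm_mul]

theorem tri_inner_smul_dir (x : ℝ) (ω : TV) (s : ℝ) : ⟪ω, s • tdir x⟫_ℝ = s * tl0 x ω := by
  rw [inner_smul_right]
  congr 1
  simp only [tdir, tvec, tl0, PiLp.inner_apply, Fin.sum_univ_three]
  simp

/-- **LEAF L-256-TRI-LINE: Bernstein on the lines of direction `tdir x`.**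
PLAN.  `Ψ` from `tri_psi_exists`, `ψ s = a Ψ (a s)`, `𝓕⁻ ψ u = 𝓕⁻ Ψ (u / a)`.   Reproducing formula (Fubini, `g` and `ψ` integrable):
`∫ G (p + s e) ψ s ds = ∫ 𝐞 ⟪ω, p⟫ g ω (∫ 𝐞 (s ⟪ω, e⟫) ψ s ds) dω = ∫ 𝐞 ⟪ω, p⟫ g ω (𝓕⁻ ψ (tl0 x ω)) dω = G p`   (`⟪ω, tdir x⟫ = tl0 x ω`, `= 1` on the support of `g`).
Cauchy-Schwarz: `‖G p‖² ≤ (∫ |ψ|) ∫ ‖G (p + s e)‖² |ψ s| ds`, `∫ |ψ| = ∫ |Ψ|`, `|ψ s| ≤ a C_N (1 + a |s|)^{-N}` (`SchwartzMap.decay`).   `A = C_N ∫ |Ψ|`.   Pass to `ENNReal` at the end (`G` bounded continuous). -/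
theorem tri_line (N : ℕ) : ∃ A : ℝ, 0 ≤ A ∧ ∀ a : ℝ, 0 < a → ∀ (x : ℝ) (S : Set TV) (G : TV → ℂ), (∀ ω ∈ S, |tl0 x ω| ≤ a) → TFS S G →
    ∀ p : TV, ‖G p‖ₑ ^ 2 ≤ ENNReal.ofReal (A * a) * ∫⁻ s : ℝ, ‖G (p + s • tdir x)‖ₑ ^ 2 * ENNReal.ofReal ((1 + a * |s|) ^ (-(N : ℝ))) := by
  obtain ⟨Ψ, hΨ⟩ := tri_psi_exists
  obtain ⟨C, hC, hdec⟩ := tri_sch_decay Ψ N
  obtain ⟨I, hI⟩ : ∃ I : ℝ, I = ∫ s, ‖Ψ s‖ := ⟨_, rfl⟩
  have hI0 : 0 ≤ I := by
    rw [hI]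
    exact integral_nonneg fun _ => norm_nonneg _
  refine ⟨I * C, by positivity, fun a ha x S G hS hG p => ?_⟩
  obtain ⟨k, hk⟩ : ∃ k : ℝ → ℂ, k = fun s => (a : ℂ) * Ψ (a * s) := ⟨_, rfl⟩
  have hki : Integrable k := by
    rw [hk]
    exact (Ψ.integrable.comp_mul_left' ha.ne').const_mul _
  have hkn : ∫⁻ s, ‖k s‖ₑ = ENNReal.ofReal I := by
    rw [← ofReal_integral_norm_eq_lintegral_enorm hki, hk, hI]
    congr 1
    simp only [norm_mul, Complex.norm_real, Real.norm_eq_abs, abs_of_pos ha]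
    rw [integral_const_mul, Measure.integral_comp_mul_left (fun s => ‖Ψ s‖) a, abs_of_pos (inv_pos.2 ha), smul_eq_mul, ← mul_assoc,
      mul_inv_cancel₀ ha.ne', one_mul]
  have hkw : ∀ s, ‖k s‖ₑ ≤ ENNReal.ofReal (C * a) * ENNReal.ofReal ((1 + a * |s|) ^ (-(N : ℝ))) := by
    intro s
    rw [← ENNReal.ofReal_mul (by positivity), ← ofReal_norm, hk]
    refine ENNReal.ofReal_le_ofReal ?_
    have h2 := hdec (a * s)
    rw [Real.norm_eq_abs, abs_mul, abs_of_pos ha] at h2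
    rw [norm_mul, Complex.norm_real, Real.norm_eq_abs, abs_of_pos ha]
    calc a * ‖Ψ (a * s)‖ ≤ a * (C * (1 + a * |s|) ^ (-(N : ℝ))) := by gcongr
      _ = _ := by ring
  have h1 : ∀ ω ∈ S, ∫ s : ℝ, 𝐞 ⟪ω, s • tdir x⟫_ℝ • k s = 1 := by
    intro ω hω
    have hu : |tl0 x ω / a| ≤ 1 := by
      rw [abs_div, abs_of_pos ha, div_le_one ha]
      exact hS ω hω
    have h2 := hΨ _ hu
    rw [SchwartzMap.fourierInv_coe, Real.fourierInv_eq] at h2
    have e : ∀ s : ℝ, 𝐞 ⟪ω, s • tdir x⟫_ℝ • k s = (a : ℂ) * (fun v : ℝ => 𝐞 ⟪v, tl0 x ω / a⟫_ℝ • Ψ v) (a * s) := by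
      intro s
      rw [tri_inner_smul_dir, hk]
      have h3 : ⟪a * s, tl0 x ω / a⟫_ℝ = s * tl0 x ω := by
        simp only [RCLike.inner_apply, conj_trivial]
        field_simp
      simp only [h3, Circle.smul_def, smul_eq_mul]
      ring
    simp only [e]
    rw [integral_const_mul, Measure.integral_comp_mul_left (fun v : ℝ => 𝐞 ⟪v, tl0 x ω / a⟫_ℝ • Ψ v) a, h2, abs_of_pos (inv_pos.2 ha)]
    simp [ha.ne']
  have h := tri_bern volume (fun s : ℝ => s • tdir x) (measurable_id.smul_const _) k hki S h1 G hG p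
  rw [hkn] at h
  refine h.trans ?_
  rw [mul_assoc I C a, ENNReal.ofReal_mul hI0, mul_assoc]
  refine mul_le_mul' le_rfl ?_
  rw [← lintegral_const_mul' _ _ ENNReal.ofReal_ne_top]
  refine lintegral_mono fun s => ?_
  calc ‖G (p + s • tdir x)‖ₑ ^ 2 * ‖k s‖ₑ
      ≤ ‖G (p + s • tdir x)‖ₑ ^ 2 * (ENNReal.ofReal (C * a) * ENNReal.ofReal ((1 + a * |s|) ^ (-(N : ℝ)))) := mul_le_mul' le_rfl (hkw s)
    _ = _ := by ring

/-- **LEAF L-256-TRI-SUP: Bernstein at unit scale.**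
PLAN.  `χ` = bump `= 1` on `closedBall 0 20` in `TV`, `k = 𝓕 χ` Schwartz;  `G p = ∫ G (p + q) k q dq` (Fubini as in `tri_line`);  Cauchy-Schwarz, `|k q| ≤ C (1 + ‖q‖)^{-N}`;  substitution `q ↦ q - p`. -/
theorem tri_sup (N : ℕ) : ∃ C : ℝ, 0 ≤ C ∧ ∀ G : TV → ℂ, TFS (Metric.closedBall 0 20) G →
    ∀ p : TV, ‖G p‖ₑ ^ 2 ≤ ENNReal.ofReal C * ∫⁻ q, ‖G q‖ₑ ^ 2 * tWt N 1 p q := by
  obtain ⟨k, hk⟩ := tri_bump_exists (V := TV) 20 (by norm_num)
  obtain ⟨C, hC, hdec⟩ := tri_sch_decay k N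
  obtain ⟨I, hI⟩ : ∃ I : ℝ, I = ∫ s, ‖k s‖ := ⟨_, rfl⟩
  have hI0 : 0 ≤ I := by
    rw [hI]
    exact integral_nonneg fun _ => norm_nonneg _
  refine ⟨I * C, by positivity, fun G hG p => ?_⟩
  have h1 : ∀ ω ∈ Metric.closedBall (0 : TV) 20, ∫ v : TV, 𝐞 ⟪ω, v⟫_ℝ • k v = 1 := by
    intro ω hω
    have h2 := hk ω (by simpa using hω)
    rw [SchwartzMap.fourierInv_coe, Real.fourierInv_eq] at h2
    rw [← h2]
    refine integral_congr_ae (Filter.Eventually.of_forall fun v => ?_)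
    show 𝐞 ⟪ω, v⟫_ℝ • k v = 𝐞 ⟪v, ω⟫_ℝ • k v
    rw [real_inner_comm]
  have h := tri_bern volume (fun v : TV => v) measurable_id k k.integrable _ h1 G hG p
  rw [← ofReal_integral_norm_eq_lintegral_enorm k.integrable, ← hI] at h
  refine h.trans ?_
  rw [ENNReal.ofReal_mul hI0, mul_assoc]
  refine mul_le_mul' le_rfl ?_
  rw [← lintegral_const_mul' _ _ ENNReal.ofReal_ne_top, ← lintegral_add_left_eq_self (fun q => ENNReal.ofReal C * (‖G q‖ₑ ^ 2 * tWt N 1 p q)) p]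
  refine lintegral_mono fun v => ?_
  have h3 : ‖k v‖ₑ ≤ ENNReal.ofReal C * tWt N 1 p (p + v) := by
    unfold tWt
    rw [add_sub_cancel_left, div_one, ← ENNReal.ofReal_mul hC, ← ofReal_norm]
    exact ENNReal.ofReal_le_ofReal (hdec v)
  calc ‖G (p + v)‖ₑ ^ 2 * ‖k v‖ₑ ≤ ‖G (p + v)‖ₑ ^ 2 * (ENNReal.ofReal C * tWt N 1 p (p + v)) := mul_le_mul' le_rfl h3
    _ = _ := by ring

end Claimed.Agent.R256
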