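import Claimed.Agent.R256.Tri.Geo
import Claimed.Agent.R252.Mlk.Main

/-!
# Row 256, BOX E3, file 4: FROM MULTILINEAR KAKEYA TO THE CONTINUOUS KAKEYA INPUT OF THE INDUCTION ON SCALES            (architect helper213)            CONTRACT
PAPER-FREE.   Input: `R252.mlk_main` (PROVED on main; finite families of `1`-tubes, `1`-separated points of diameter `≤ S`, determinant threshold `θ`).   Output: `tri_kak`.
LATTICE PART.  Tubes are indexed by `(x, c)`, `x ∈ X i` the direction `(1, x, x²)`, `c ∈ ℤ³` a point of the tube, weight `w i x c`;  the kernel `tgam L x (c - k)` = tube of width `1` and length `L` with polynomial tails.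
   `tri_gam_dom`   : `tgam ≤ 2^16 ∑_j talpha j · (sharp tube, shifted by j.1, restricted to the big cube number tbig k + j.2)`;
   `tri_mk_cube`   : `mlk_main` on one big cube of side `Lp = ⌈L⌉₊`;        `tri_mk_shift` : sum over the big cubes (Hölder `ℓ^{3/2}`, `ℓ¹ ⊂ ℓ^{3/2}`);
   `tri_superpose` : abstract superposition;        `tri_alpha_sum` : `∑ talpha^{1/2} < ∞`;        `tri_mkconv` : glue.
CONTINUOUS PART.  `H i x = ‖G i x‖²` is essentially constant along `tdir x` at scale `r` (hypothesis `LD`, supplied by `tri_line`);  `tri_phi`, `tri_cube_*`, `tri_disc`: discretisation at scale `√r`;  `tri_kak`: glue.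
Every `sorry` is a leaf `L-256-TRI-*`.   Statements FROZEN; auxiliary lemmas directly above your theorem, prefix `tri_`; edit only your block.
-/

set_option autoImplicit false

namespace Claimed.Agent.R256

open MeasureTheory
open scoped ENNReal BigOperators

/-- number of the big cube (side `Lp`) that contains the lattice point `k` (floor division) -/
def tbig (Lp : ℕ) (k : Fin 3 → ℤ) : Fin 3 → ℤ := fun i => k i / (Lp : ℤ)

/-- the lattice points of the big cube number `κ` -/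
noncomputable def tQ (Lp : ℕ) (κ : Fin 3 → ℤ) : Finset (Fin 3 → ℤ) :=
  Fintype.piFinset fun i => Finset.Ico ((Lp : ℤ) * κ i) ((Lp : ℤ) * (κ i + 1))

open Classical in
/-- sharp tube sum at `k`: tubes `(x, c)` with `c` in the big cube number `tbig k + j.2` whose axis, shifted by `j.1`, passes within `1` of `k` -/
noncomputable def tS (Lp : ℕ) (X : Finset ℝ) (w : ℝ → (Fin 3 → ℤ) → ℝ≥0∞) (j : (Fin 3 → ℤ) × (Fin 3 → ℤ)) (k : Fin 3 → ℤ) : ℝ≥0∞ :=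
  ∑ x ∈ X, ∑' c : Fin 3 → ℤ, if tbig Lp c = tbig Lp k + j.2 ∧ tdx x (fun i => ((c + j.1 - k) i : ℝ)) ≤ 1 then w x c else 0

/-- the coefficients of the superposition -/
noncomputable def talpha (j : (Fin 3 → ℤ) × (Fin 3 → ℤ)) : ℝ≥0∞ := ENNReal.ofReal ((1 + ‖j.1‖) ^ (-8 : ℝ) * (1 + ‖j.2‖) ^ (-8 : ℝ))

theorem tri_kak_eqns_cite : True := by
  have := @tbig.eq_1
  have := @tQ.eq_1
  have := @tS.eq_1
  have := @talpha.eq_1
  trivial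

/-- **LEAF L-256-TRI-BIG.**  `Fintype.mem_piFinset`, `Finset.mem_Ico`, `Int.ediv_eq_iff..` / `Int.le_ediv_iff_mul_le`, `Int.ediv_lt_iff_lt_mul`, `funext_iff`. -/
theorem tri_mem_tQ (Lp : ℕ) (hL : 1 ≤ Lp) (κ c : Fin 3 → ℤ) : c ∈ tQ Lp κ ↔ tbig Lp c = κ := by
  have hp : (0 : ℤ) < (Lp : ℤ) := by exact_mod_cast hL
  unfold tQ tbig
  rw [Fintype.mem_piFinset, funext_iff]
  refine forall_congr' fun i => ?_
  rw [Finset.mem_Ico]
  constructor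
  · rintro ⟨h1, h2⟩
    apply le_antisymm
    · have : c i / (Lp : ℤ) < κ i + 1 := by
        rw [Int.ediv_lt_iff_lt_mul hp]
        linarith
      omega
    · rw [Int.le_ediv_iff_mul_le hp]
      linarith
  · intro h
    have h1 : κ i ≤ c i / (Lp : ℤ) := h.ge
    have h2 : c i / (Lp : ℤ) < κ i + 1 := by omega
    rw [Int.le_ediv_iff_mul_le hp] at h1
    rw [Int.ediv_lt_iff_lt_mul hp] at h2
    constructor <;> linarith

/-- comparison of negative powers -/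
theorem tri_rpow_m8 (a b : ℝ) (ha : 0 < a) (h : a ≤ 2 * b) : b ^ (-8 : ℝ) ≤ 2 ^ 8 * a ^ (-8 : ℝ) := by
  have h1 : b ^ (-8 : ℝ) ≤ (a / 2) ^ (-8 : ℝ) :=
    Real.rpow_le_rpow_of_nonpos (by positivity) (by linarith) (by norm_num)
  have h2 : (a / 2) ^ (-8 : ℝ) = 2 ^ 8 * a ^ (-8 : ℝ) := by
    rw [Real.div_rpow ha.le (by norm_num)]
    have : (2 : ℝ) ^ (-8 : ℝ) = (2 ^ 8)⁻¹ := by
      rw [show (-8 : ℝ) = -((8 : ℕ) : ℝ) by norm_num, Real.rpow_neg (by norm_num), Real.rpow_natCast]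
    rw [this]
    field_simp
  rw [← h2]
  exact h1

/-- floor division is `Lp`-Lipschitz up to `1` -/
theorem tri_ediv_diff (Lp : ℤ) (hp : 0 < Lp) (c k : ℤ) : Lp * (|c / Lp - k / Lp| - 1) ≤ |c - k| := by
  have e1 := Int.mul_ediv_add_emod c Lp
  have e2 := Int.mul_ediv_add_emod k Lp
  have r1 := Int.emod_nonneg c hp.ne'
  have r2 := Int.emod_nonneg k hp.ne'
  have s1 := Int.emod_lt_of_pos c hp
  have s2 := Int.emod_lt_of_pos k hp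
  have a1 := le_abs_self (c - k)
  have a2 := neg_abs_le (c - k)
  rcases abs_cases (c / Lp - k / Lp) with ⟨h, -⟩ | ⟨h, -⟩
  · rw [h]
    have : Lp * (c / Lp - k / Lp - 1) = Lp * (c / Lp) - Lp * (k / Lp) - Lp := by ring
    rw [this]
    linarith
  · rw [h]
    have : Lp * (-(c / Lp - k / Lp) - 1) = Lp * (k / Lp) - Lp * (c / Lp) - Lp := by ring
    rw [this]
    linarith

/-- the pointwise choice of the index -/
theorem tri_gam_pt (L : ℝ) (hL : 1 ≤ L) (x : ℝ) (c k : Fin 3 → ℤ) :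
    ∃ j : (Fin 3 → ℤ) × (Fin 3 → ℤ), (tbig ⌈L⌉₊ c = tbig ⌈L⌉₊ k + j.2 ∧ tdx x (fun i => ((c + j.1 - k) i : ℝ)) ≤ 1) ∧
      tgam L x (c - k) ≤ ENNReal.ofReal (2 ^ 16) * talpha j := by
  have hL0 : 0 < L := by linarith
  obtain ⟨a, ha⟩ : ∃ a : ℝ, a = ((c - k) 1 : ℝ) - x * ((c - k) 0 : ℝ) := ⟨_, rfl⟩
  obtain ⟨b, hb⟩ : ∃ b : ℝ, b = ((c - k) 2 : ℝ) - x ^ 2 * ((c - k) 0 : ℝ) := ⟨_, rfl⟩
  obtain ⟨d, hd⟩ : ∃ d : ℝ, d = tdx x (fun i => ((c - k) i : ℝ)) := ⟨_, rfl⟩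
  obtain ⟨U, hU⟩ : ∃ U : ℝ, U = ‖(fun i => ((c - k) i : ℝ))‖ := ⟨_, rfl⟩
  have hda : |a| ≤ d := by
    rw [hd, ha]; exact le_max_left _ _
  have hdb : |b| ≤ d := by
    rw [hd, hb]; exact le_max_right _ _
  have hd0 : 0 ≤ d := (abs_nonneg a).trans hda
  have hU0 : 0 ≤ U := by rw [hU]; exact norm_nonneg _
  have hra := abs_sub_round a
  have hrb := abs_sub_round b
  refine ⟨(![0, -round a, -round b], tbig ⌈L⌉₊ c - tbig ⌈L⌉₊ k), ⟨by simp, ?_⟩, ?_⟩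
  · unfold tdx
    have m0 : (c + ![0, -round a, -round b] - k) 0 = (c - k) 0 := by
      show c 0 + (![0, -round a, -round b] : Fin 3 → ℤ) 0 - k 0 = c 0 - k 0
      simp
    have m1 : (c + ![0, -round a, -round b] - k) 1 = (c - k) 1 - round a := by
      show c 1 + (![0, -round a, -round b] : Fin 3 → ℤ) 1 - k 1 = c 1 - k 1 - round a
      simp only [Matrix.cons_val_one, Matrix.cons_val_zero]
      ring
    have m2 : (c + ![0, -round a, -round b] - k) 2 = (c - k) 2 - round b := by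
      show c 2 + (![0, -round a, -round b] : Fin 3 → ℤ) 2 - k 2 = c 2 - k 2 - round b
      simp only [Matrix.cons_val]
      ring
    have e1 : (((c + ![0, -round a, -round b] - k) 1 : ℤ) : ℝ) - x * (((c + ![0, -round a, -round b] - k) 0 : ℤ) : ℝ) = a - round a := by
      rw [m0, m1, Int.cast_sub, ha]
      ring
    have e2 : (((c + ![0, -round a, -round b] - k) 2 : ℤ) : ℝ) - x ^ 2 * (((c + ![0, -round a, -round b] - k) 0 : ℤ) : ℝ) = b - round b := by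
      rw [m0, m2, Int.cast_sub, hb]
      ring
    simp only []
    rw [e1, e2]
    exact max_le (by linarith) (by linarith)
  · -- the two norms
    have hm : ‖(![0, -round a, -round b] : Fin 3 → ℤ)‖ ≤ d + 1 / 2 := by
      rw [pi_norm_le_iff_of_nonneg (by linarith)]
      intro i
      rw [Int.norm_eq_abs]
      have ta : |(round a : ℝ)| ≤ |a| + 1 / 2 := by
        have := abs_sub_abs_le_abs_sub (round a : ℝ) a
        rw [abs_sub_comm] at this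
        linarith
      have tb : |(round b : ℝ)| ≤ |b| + 1 / 2 := by
        have := abs_sub_abs_le_abs_sub (round b : ℝ) b
        rw [abs_sub_comm] at this
        linarith
      fin_cases i
      · simp; linarith
      · simp; linarith
      · simp; linarith
    have hLp : L ≤ (⌈L⌉₊ : ℝ) := Nat.le_ceil L
    have hLp0 : (0 : ℤ) < ((⌈L⌉₊ : ℕ) : ℤ) := by
      have : 0 < ⌈L⌉₊ := Nat.ceil_pos.2 hL0
      exact_mod_cast this
    have hn : ‖tbig ⌈L⌉₊ c - tbig ⌈L⌉₊ k‖ ≤ 1 + U / L := by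
      rw [pi_norm_le_iff_of_nonneg (by positivity)]
      intro i
      rw [Int.norm_eq_abs]
      have h1 := tri_ediv_diff _ hLp0 (c i) (k i)
      have h2 : ((⌈L⌉₊ : ℕ) : ℝ) * (|(((tbig ⌈L⌉₊ c - tbig ⌈L⌉₊ k) i : ℤ) : ℝ)| - 1) ≤ |(((c - k) i : ℤ) : ℝ)| := by
        have : (((⌈L⌉₊ : ℕ) : ℤ) * (|c i / ((⌈L⌉₊ : ℕ) : ℤ) - k i / ((⌈L⌉₊ : ℕ) : ℤ)| - 1) : ℤ) ≤ |c i - k i| := h1
        unfold tbig
        simp only [Pi.sub_apply]
        exact_mod_cast this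
      have h3 : |(((c - k) i : ℤ) : ℝ)| ≤ U := by
        rw [hU]
        have := norm_le_pi_norm (fun i => (((c - k) i : ℤ) : ℝ)) i
        rwa [Real.norm_eq_abs] at this
      by_cases hq : |(((tbig ⌈L⌉₊ c - tbig ⌈L⌉₊ k) i : ℤ) : ℝ)| ≤ 1
      · have : 0 ≤ U / L := by positivity
        linarith
      · have hq' := not_le.1 hq
        have h4 : L * (|(((tbig ⌈L⌉₊ c - tbig ⌈L⌉₊ k) i : ℤ) : ℝ)| - 1) ≤ U := by
          refine le_trans ?_ (h2.trans h3)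
          exact mul_le_mul_of_nonneg_right hLp (by linarith)
        have h5 : |(((tbig ⌈L⌉₊ c - tbig ⌈L⌉₊ k) i : ℤ) : ℝ)| - 1 ≤ U / L := by
          rw [le_div_iff₀ hL0]
          linarith
        linarith
    have k1 : (1 + d) ^ (-8 : ℝ) ≤ 2 ^ 8 * (1 + ‖(![0, -round a, -round b] : Fin 3 → ℤ)‖) ^ (-8 : ℝ) :=
      tri_rpow_m8 _ _ (by positivity) (by linarith)
    have k2 : (1 + U / L) ^ (-8 : ℝ) ≤ 2 ^ 8 * (1 + ‖tbig ⌈L⌉₊ c - tbig ⌈L⌉₊ k‖) ^ (-8 : ℝ) :=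
      tri_rpow_m8 _ _ (by positivity) (by
        have : 0 ≤ U / L := by positivity
        linarith)
    unfold tgam talpha
    rw [← hd, ← hU, ← ENNReal.ofReal_mul (by positivity)]
    apply ENNReal.ofReal_le_ofReal
    calc (1 + d) ^ (-8 : ℝ) * (1 + U / L) ^ (-8 : ℝ)
        ≤ (2 ^ 8 * (1 + ‖(![0, -round a, -round b] : Fin 3 → ℤ)‖) ^ (-8 : ℝ)) * (2 ^ 8 * (1 + ‖tbig ⌈L⌉₊ c - tbig ⌈L⌉₊ k‖) ^ (-8 : ℝ)) :=
          mul_le_mul k1 k2 (by positivity) (by positivity)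
      _ = _ := by ring

/-- **LEAF L-256-TRI-GAMDOM: the kernel with tails is a superposition of sharp truncated tubes.**
PLAN.  Fix `x, c`, `u = c - k`.   It suffices to exhibit ONE `j` with indicator `1` and `tgam L x u ≤ 2^16 talpha j` (`ENNReal.le_tsum`), then sum (`ENNReal.tsum_mul_left`, `ENNReal.tsum_comm`, `Finset.sum_le_sum`, `tsum` of finite sums `tsum_finsetSum`-type lemma or `ENNReal.tsum_le_tsum`).
`j.2 = tbig c - tbig k =: n`:   `|u i| > Lp (|n i| - 1)`, `Lp ≥ L`, so `1 + ‖u‖/L ≥ max 1 ‖n‖ ≥ (1 + ‖n‖)/2`.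
`j.1 = (0, -round (u 1 - x u 0), -round (u 2 - x² u 0)) =: m`:   `tdx x (u + m) ≤ 1/2` (`abs_sub_round`), `‖m‖ ≤ tdx x u + 1/2`, so `1 + ‖m‖ ≤ 2 (1 + tdx x u)`. -/
theorem tri_gam_dom (L : ℝ) (hL : 1 ≤ L) (X : Finset ℝ) (w : ℝ → (Fin 3 → ℤ) → ℝ≥0∞) (k : Fin 3 → ℤ) :
    ∑ x ∈ X, ∑' c : Fin 3 → ℤ, w x c * tgam L x (c - k) ≤ ENNReal.ofReal (2 ^ 16) * ∑' j, talpha j * tS ⌈L⌉₊ X w j k := by
  classical
  have e1 : ∑' j, talpha j * tS ⌈L⌉₊ X w j k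
      = ∑ x ∈ X, ∑' c : Fin 3 → ℤ, ∑' j : (Fin 3 → ℤ) × (Fin 3 → ℤ), talpha j *
          (if tbig ⌈L⌉₊ c = tbig ⌈L⌉₊ k + j.2 ∧ tdx x (fun i => ((c + j.1 - k) i : ℝ)) ≤ 1 then w x c else 0) := by
    unfold tS
    simp_rw [Finset.mul_sum]
    rw [Summable.tsum_finsetSum fun _ _ => ENNReal.summable]
    refine Finset.sum_congr rfl fun x _ => ?_
    simp_rw [← ENNReal.tsum_mul_left]
    rw [ENNReal.tsum_comm]
  rw [e1, Finset.mul_sum]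
  refine Finset.sum_le_sum fun x _ => ?_
  rw [← ENNReal.tsum_mul_left]
  refine ENNReal.tsum_le_tsum fun c => ?_
  obtain ⟨j, hj, hle⟩ := tri_gam_pt L hL x c k
  calc w x c * tgam L x (c - k) ≤ w x c * (ENNReal.ofReal (2 ^ 16) * talpha j) := by gcongr
    _ = ENNReal.ofReal (2 ^ 16) * (talpha j *
          (if tbig ⌈L⌉₊ c = tbig ⌈L⌉₊ k + j.2 ∧ tdx x (fun i => ((c + j.1 - k) i : ℝ)) ≤ 1 then w x c else 0)) := by
        rw [if_pos hj]; ring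
    _ ≤ _ := by
        gcongr
        exact ENNReal.le_tsum (f := fun j : (Fin 3 → ℤ) × (Fin 3 → ℤ) => talpha j *
          (if tbig ⌈L⌉₊ c = tbig ⌈L⌉₊ k + j.2 ∧ tdx x (fun i => ((c + j.1 - k) i : ℝ)) ≤ 1 then w x c else 0)) j

/-- the sharp tube sum on a big cube is a finite real sum -/
theorem tri_tS_eq (Lp : ℕ) (hL : 1 ≤ Lp) (X : Finset ℝ) (w : ℝ → (Fin 3 → ℤ) → ℝ≥0∞) (hw : ∀ x ∈ X, ∀ c, w x c ≠ ∞)
    (j : (Fin 3 → ℤ) × (Fin 3 → ℤ)) (κ k : Fin 3 → ℤ) (hk : k ∈ tQ Lp κ) :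
    tS Lp X w j k = ENNReal.ofReal (∑ x ∈ X, ∑ c ∈ tQ Lp (κ + j.2),
      if tdx x (fun i => ((c + j.1 - k) i : ℝ)) ≤ 1 then (w x c).toReal else 0) := by
  classical
  have hbk : tbig Lp k = κ := (tri_mem_tQ Lp hL κ k).1 hk
  unfold tS
  rw [ENNReal.ofReal_sum_of_nonneg (fun x _ => Finset.sum_nonneg fun c _ => by split_ifs <;> simp)]
  refine Finset.sum_congr rfl fun x hx => ?_
  rw [ENNReal.ofReal_sum_of_nonneg (fun c _ => by split_ifs <;> simp)]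
  rw [tsum_eq_sum (s := tQ Lp (κ + j.2))]
  · refine Finset.sum_congr rfl fun c hc => ?_
    have hbc : tbig Lp c = κ + j.2 := (tri_mem_tQ Lp hL _ c).1 hc
    by_cases hT : tdx x (fun i => ((c + j.1 - k) i : ℝ)) ≤ 1
    · rw [if_pos ⟨by rw [hbc, hbk], hT⟩, if_pos hT, ENNReal.ofReal_toReal (hw x hx c)]
    · rw [if_neg (fun h => hT h.2), if_neg hT, ENNReal.ofReal_zero]
  · intro c hc
    have hbc : tbig Lp c ≠ κ + j.2 := fun h => hc ((tri_mem_tQ Lp hL _ c).2 h)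
    rw [if_neg]
    rintro ⟨h1, -⟩
    exact hbc (by rw [h1, hbk])

theorem tri_tube_of_tdx (x : ℝ) (q k : Fin 3 → ℤ) (h : tdx x (fun i => ((q - k) i : ℝ)) ≤ 1) :
    (fun l => (k l : ℝ)) ∈ R252.mlkTube (fun l => (q l : ℝ)) ![1, x, x ^ 2] 1 := by
  unfold tdx at h
  have h1 := (max_le_iff.1 h).1
  have h2 := (max_le_iff.1 h).2
  simp only [Pi.sub_apply, Int.cast_sub] at h1 h2
  refine ⟨(k 0 : ℝ) - q 0, fun l => ?_⟩
  fin_cases l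
  · simp
  · simp only [Fin.mk_one, Matrix.cons_val_one, Matrix.cons_val_zero]
    rw [abs_le] at h1 ⊢
    constructor <;> nlinarith [h1.1, h1.2]
  · simp only [Fin.reduceFinMk, Matrix.cons_val]
    rw [abs_le] at h2 ⊢
    constructor <;> nlinarith [h2.1, h2.2]

theorem tri_vdm_ge (ν : ℝ) (hν : 0 < ν) (X : Fin 3 → Finset ℝ) (hsep : TSep ν X) (x : Fin 3 → ℝ) (hx : ∀ i, x i ∈ X i) :
    ν ^ 3 ≤ |Matrix.det (Matrix.of fun i : Fin 3 => (![1, x i, x i ^ 2] : Fin 3 → ℝ))| := by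
  rw [tri_vdm, abs_mul, abs_mul]
  have h10 : ν ≤ |x 1 - x 0| := hsep 1 0 (by decide) _ (hx 1) _ (hx 0)
  have h20 : ν ≤ |x 2 - x 0| := hsep 2 0 (by decide) _ (hx 2) _ (hx 0)
  have h21 : ν ≤ |x 2 - x 1| := hsep 2 1 (by decide) _ (hx 2) _ (hx 1)
  calc ν ^ 3 = ν * ν * ν := by ring
    _ ≤ _ := by gcongr

/-- **LEAF L-256-TRI-MKCUBE: multilinear Kakeya on one big cube.**
PLAN.  `R252.mlk_main 3 (by norm_num) ε hε` with `ρ = 1`, `S = Lp`, `θ = ν³`, `α = Fin 3 × ℝ × (Fin 3 → ℤ)`, `β = Fin 3 → ℤ`, `A i = {i} ×ˢ X i ×ˢ tQ Lp (κ + (j i).2)`, `p (i, x, c) = c + (j i).1` (cast), `e (i, x, c) = ![1, x, x²]`,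
weight `(w i x c).toReal`, `B = tQ Lp κ`, `z = cast`.   Distinct lattice points are `1`-separated; `|k i - k' i| ≤ Lp` on `tQ`.   For `k ∈ tQ Lp κ`: `tbig k = κ` (`tri_mem_tQ`), the `∑' c` in `tS` is the finite sum over `tQ Lp (κ + (j i).2)` (`tsum_eq_sum`).
`tdx x (c + m - k) ≤ 1 → k ∈ mlkTube (c + m) e 1` (`t = k 0 - (c + m) 0`).   All tuples are transversal: `|det| = |x₁-x₀||x₂-x₀||x₂-x₁| ≥ ν³` (`tri_vdm`, `TSep`).
So `∏ i (sharp sum i) ≤ mlkCount` (`Finset.prod_univ_sum`), `1/(3-1) = 1/2`.   Constant `C_mlk (1/ν³)^12`.   Convert with `ENNReal.ofReal`/`toReal` (all weights finite). -/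
theorem tri_mk_cube (ν ε : ℝ) (hν : 0 < ν) (hν1 : ν ≤ 1) (hε : 0 < ε) : ∃ C : ℝ, 0 ≤ C ∧ ∀ Lp : ℕ, 1 ≤ Lp →
    ∀ X : Fin 3 → Finset ℝ, (∀ i, ∀ x ∈ X i, |x| ≤ 1) → TSep ν X →
    ∀ w : Fin 3 → ℝ → (Fin 3 → ℤ) → ℝ≥0∞, (∀ i, ∀ x ∈ X i, ∀ c, w i x c ≠ ∞) →
    ∀ (j : Fin 3 → (Fin 3 → ℤ) × (Fin 3 → ℤ)) (κ : Fin 3 → ℤ),
    ∑ k ∈ tQ Lp κ, ∏ i, (tS Lp (X i) (w i) (j i) k) ^ (1 / 2 : ℝ)
      ≤ ENNReal.ofReal (C * (Lp : ℝ) ^ ε) * ∏ i, (∑ x ∈ X i, ∑ c ∈ tQ Lp (κ + (j i).2), w i x c) ^ (1 / 2 : ℝ) := by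
  classical
  obtain ⟨C, hC, hmain⟩ := R252.mlk_main.{0, 0} 3 (by norm_num) ε hε
  refine ⟨C * (1 / ν ^ 3) ^ 12, by positivity, ?_⟩
  intro Lp hLp X hX hsep w hw j κ
  let A : Fin 3 → Finset (Fin 3 × ℝ × (Fin 3 → ℤ)) := fun i => {i} ×ˢ (X i ×ˢ tQ Lp (κ + (j i).2))
  let p : Fin 3 × ℝ × (Fin 3 → ℤ) → Fin 3 → ℝ := fun a l => ((a.2.2 + (j a.1).1) l : ℤ)
  let e : Fin 3 × ℝ × (Fin 3 → ℤ) → Fin 3 → ℝ := fun a => ![1, a.2.1, a.2.1 ^ 2]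
  let w' : Fin 3 × ℝ × (Fin 3 → ℤ) → ℝ := fun a => (w a.1 a.2.1 a.2.2).toReal
  let z : (Fin 3 → ℤ) → Fin 3 → ℝ := fun k l => (k l : ℝ)
  have hw'0 : ∀ a, 0 ≤ w' a := fun a => ENNReal.toReal_nonneg
  have hAmem : ∀ i a, a ∈ A i → a.1 = i ∧ a.2.1 ∈ X i ∧ a.2.2 ∈ tQ Lp (κ + (j i).2) := by
    intro i a ha
    simp only [A, Finset.mem_product, Finset.mem_singleton] at ha
    exact ⟨ha.1, ha.2.1, ha.2.2⟩
  have hLp1 : (1 : ℝ) ≤ (Lp : ℝ) := by exact_mod_cast hLp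
  have h := hmain 1 Lp (ν ^ 3) le_rfl hLp1 (by positivity) (pow_le_one₀ hν.le hν1) _ _ A p e w' hw'0
    (by
      intro i a ha l
      have hx : |a.2.1| ≤ 1 := hX i _ (hAmem i a ha).2.1
      fin_cases l
      · simp [e]
      · simpa [e] using hx
      · simp only [e, Fin.reduceFinMk, Matrix.cons_val]
        rw [abs_pow]
        exact pow_le_one₀ (abs_nonneg _) hx)
    (tQ Lp κ) z
    (by
      intro b _ b' _ hbb
      obtain ⟨i, hi⟩ : ∃ i, b i ≠ b' i := by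
        by_contra hcon
        push Not at hcon
        exact hbb (funext hcon)
      refine ⟨i, ?_⟩
      have : (1 : ℤ) ≤ |b i - b' i| := Int.one_le_abs (sub_ne_zero.mpr hi)
      simp only [z]
      exact_mod_cast this)
    (by
      intro b hb b' hb' i
      simp only [tQ, Fintype.mem_piFinset, Finset.mem_Ico] at hb hb'
      have h1 := hb i
      have h2 := hb' i
      have : |b i - b' i| ≤ (Lp : ℤ) := by
        rw [abs_le]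
        constructor <;> nlinarith [h1.1, h1.2, h2.1, h2.2]
      simp only [z]
      exact_mod_cast this)
  have hexp : (1 / (((3 : ℕ) : ℝ) - 1)) = (1 / 2 : ℝ) := by norm_num
  rw [hexp] at h
  -- the real sharp sums
  let f : (Fin 3 → ℤ) → Fin 3 → Fin 3 × ℝ × (Fin 3 → ℤ) → ℝ := fun k i a =>
    if tdx a.2.1 (fun l => ((a.2.2 + (j i).1 - k) l : ℝ)) ≤ 1 then w' (i, a.2) else 0
  have hf0 : ∀ k i a, 0 ≤ f k i a := by
    intro k i a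
    simp only [f]
    split_ifs
    · exact hw'0 _
    · exact le_rfl
  have hS : ∀ k ∈ tQ Lp κ, ∀ i, tS Lp (X i) (w i) (j i) k = ENNReal.ofReal (∑ a ∈ A i, f k i a) := by
    intro k hk i
    rw [tri_tS_eq Lp hLp (X i) (w i) (hw i) (j i) κ k hk]
    congr 1
    simp only [A, f, w']
    rw [Finset.sum_product, Finset.sum_singleton, Finset.sum_product]
  have hprod : ∀ k, ∏ i, ∑ a ∈ A i, f k i a ≤ R252.mlkCount A p e w' 1 (ν ^ 3) (z k) := by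
    intro k
    rw [Finset.prod_univ_sum]
    unfold R252.mlkCount
    refine Finset.sum_le_sum fun a ha => ?_
    rw [Fintype.mem_piFinset] at ha
    by_cases hT : ∀ i, tdx (a i).2.1 (fun l => (((a i).2.2 + (j i).1 - k) l : ℝ)) ≤ 1
    · rw [if_pos]
      · refine le_of_eq (Finset.prod_congr rfl fun i _ => ?_)
        simp only [f]
        rw [if_pos (hT i)]
        congr 1
        exact Prod.ext (hAmem i _ (ha i)).1.symm rfl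
      · refine ⟨tri_vdm_ge ν hν X hsep (fun i => (a i).2.1) (fun i => (hAmem i _ (ha i)).2.1), fun i => ?_⟩
        have := tri_tube_of_tdx (a i).2.1 ((a i).2.2 + (j i).1) k (hT i)
        simp only [p, e, z]
        rw [(hAmem i _ (ha i)).1]
        exact this
    · push Not at hT
      obtain ⟨i, hi⟩ := hT
      have h0 : ∏ i, f k i (a i) = 0 := by
        apply Finset.prod_eq_zero (Finset.mem_univ i)
        simp only [f]
        rw [if_neg (not_le.mpr hi)]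
      rw [h0]
      split_ifs
      · exact Finset.prod_nonneg fun i _ => hw'0 _
      · exact le_rfl
  have hsumA : ∀ i, ∑ x ∈ X i, ∑ c ∈ tQ Lp (κ + (j i).2), w i x c = ENNReal.ofReal (∑ a ∈ A i, w' a) := by
    intro i
    simp only [A, w']
    rw [Finset.sum_product, Finset.sum_singleton, Finset.sum_product,
      ENNReal.ofReal_sum_of_nonneg (fun x _ => Finset.sum_nonneg fun c _ => ENNReal.toReal_nonneg)]
    refine Finset.sum_congr rfl fun x hx => ?_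
    rw [ENNReal.ofReal_sum_of_nonneg (fun c _ => ENNReal.toReal_nonneg)]
    exact Finset.sum_congr rfl fun c _ => (ENNReal.ofReal_toReal (hw i x hx c)).symm
  have hsA0 : ∀ i, 0 ≤ ∑ a ∈ A i, w' a := fun i => Finset.sum_nonneg fun a _ => hw'0 a
  have hsf0 : ∀ k i, 0 ≤ ∑ a ∈ A i, f k i a := fun k i => Finset.sum_nonneg fun a _ => hf0 k i a
  calc ∑ k ∈ tQ Lp κ, ∏ i, (tS Lp (X i) (w i) (j i) k) ^ (1 / 2 : ℝ)
      = ∑ k ∈ tQ Lp κ, ENNReal.ofReal ((∏ i, ∑ a ∈ A i, f k i a) ^ (1 / 2 : ℝ)) := by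
        refine Finset.sum_congr rfl fun k hk => ?_
        rw [← Real.finsetProd_rpow _ _ (fun i _ => hsf0 k i),
          ENNReal.ofReal_prod_of_nonneg (fun i _ => Real.rpow_nonneg (hsf0 k i) _)]
        refine Finset.prod_congr rfl fun i _ => ?_
        rw [hS k hk i, ENNReal.ofReal_rpow_of_nonneg (hsf0 k i) (by norm_num)]
    _ ≤ ∑ k ∈ tQ Lp κ, ENNReal.ofReal ((R252.mlkCount A p e w' 1 (ν ^ 3) (z k)) ^ (1 / 2 : ℝ)) := by
        refine Finset.sum_le_sum fun k _ => ENNReal.ofReal_le_ofReal ?_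
        exact Real.rpow_le_rpow (Finset.prod_nonneg fun i _ => hsf0 k i) (hprod k) (by norm_num)
    _ = ENNReal.ofReal (∑ k ∈ tQ Lp κ, (R252.mlkCount A p e w' 1 (ν ^ 3) (z k)) ^ (1 / 2 : ℝ)) := by
        rw [ENNReal.ofReal_sum_of_nonneg]
        intro k _
        exact Real.rpow_nonneg (R252.mlkCount_nonneg A p e w' hw'0 _ _ _) _
    _ ≤ ENNReal.ofReal (C * (1 / ν ^ 3) ^ (3 ^ 2 + 3) * (Lp : ℝ) ^ ε * ∏ i, (∑ a ∈ A i, w' a) ^ (1 / 2 : ℝ)) :=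
        ENNReal.ofReal_le_ofReal h
    _ = ENNReal.ofReal (C * (1 / ν ^ 3) ^ 12 * (Lp : ℝ) ^ ε) * ∏ i, (∑ x ∈ X i, ∑ c ∈ tQ Lp (κ + (j i).2), w i x c) ^ (1 / 2 : ℝ) := by
        rw [ENNReal.ofReal_mul (by positivity), ENNReal.ofReal_prod_of_nonneg (fun i _ => Real.rpow_nonneg (hsA0 i) _)]
        congr 1
        refine Finset.prod_congr rfl fun i _ => ?_
        rw [hsumA i, ENNReal.ofReal_rpow_of_nonneg (hsA0 i) (by norm_num)]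

theorem tri_cs_tsum {Z : Type*} (f g : Z → ℝ≥0∞) :
    ∑' κ, (f κ) ^ (1 / 2 : ℝ) * (g κ) ^ (1 / 2 : ℝ) ≤ (∑' κ, f κ) ^ (1 / 2 : ℝ) * (∑' κ, g κ) ^ (1 / 2 : ℝ) := by
  rw [ENNReal.tsum_eq_iSup_sum]
  refine iSup_le fun s => ?_
  have hpq : (2 : ℝ).HolderConjugate 2 := by
    rw [Real.holderConjugate_iff]; norm_num
  refine (ENNReal.inner_le_Lp_mul_Lq s _ _ hpq).trans ?_
  have e : ∀ t : ℝ≥0∞, (t ^ (1 / 2 : ℝ)) ^ (2 : ℝ) = t := fun t => by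
    rw [← ENNReal.rpow_mul]; norm_num
  simp only [e]
  gcongr <;> exact ENNReal.sum_le_tsum s

/-- **LEAF L-256-TRI-HOLD3: `∑_κ ∏_i a_i(κ)^{1/2} ≤ ∏_i (∑_κ a_i(κ))^{1/2}`.**
PLAN.  Hölder with three exponents `3` (`ENNReal.lintegral_prod_norm_pow_le` for the counting measure, or twice `ENNReal.inner_le_Lp_mul_Lq_tsum`-type lemmas): `∑ ∏ a_i^{1/2} ≤ ∏ (∑ a_i^{3/2})^{1/3}`;
`∑ a^{3/2} ≤ (∑ a)^{3/2}` (`a κ ≤ ∑ a =: T`, `a^{3/2} ≤ T^{1/2} a`).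
PLAN B (elementary).  `T i = ∑' a i`.  Some `T i = 0`: all `a i κ = 0`, LHS `= 0`.  Else some `T i = ∞`: RHS `= ∞`.  Else `b i = a i / T i ≤ 1`, `∑' b i = 1`:  `∏ (b i)^{1/2} ≤ (1/3) ∑_i (b i)^{3/2} ≤ (1/3) ∑_i b i` (AM-GM `Real.inner_le_nnorm_mul_nnorm`-free: `Real.geom_mean_le_arith_mean3_weighted`), sum over `κ`. -/
theorem tri_hold3 {Z : Type*} (a : Fin 3 → Z → ℝ≥0∞) :
    ∑' κ, ∏ i, (a i κ) ^ (1 / 2 : ℝ) ≤ ∏ i, (∑' κ, a i κ) ^ (1 / 2 : ℝ) := by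
  simp only [Fin.prod_univ_three]
  calc ∑' κ, (a 0 κ) ^ (1 / 2 : ℝ) * (a 1 κ) ^ (1 / 2 : ℝ) * (a 2 κ) ^ (1 / 2 : ℝ)
      ≤ ∑' κ, (a 0 κ) ^ (1 / 2 : ℝ) * (a 1 κ) ^ (1 / 2 : ℝ) * (∑' κ, a 2 κ) ^ (1 / 2 : ℝ) := by
        refine ENNReal.tsum_le_tsum fun κ => ?_
        gcongr
        exact ENNReal.le_tsum κ
    _ = (∑' κ, (a 0 κ) ^ (1 / 2 : ℝ) * (a 1 κ) ^ (1 / 2 : ℝ)) * (∑' κ, a 2 κ) ^ (1 / 2 : ℝ) := ENNReal.tsum_mul_right
    _ ≤ _ := by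
        gcongr
        exact tri_cs_tsum _ _

/-- summation over the fibres of `tbig` -/
theorem tri_fibre (Lp : ℕ) (hL : 1 ≤ Lp) (f : (Fin 3 → ℤ) → ℝ≥0∞) : ∑' κ : Fin 3 → ℤ, ∑ k ∈ tQ Lp κ, f k = ∑' k, f k := by
  classical
  have h1 : ∀ κ : Fin 3 → ℤ, ∑ k ∈ tQ Lp κ, f k = ∑' k, if tbig Lp k = κ then f k else 0 := by
    intro κ
    rw [tsum_eq_sum (s := tQ Lp κ)]
    · refine Finset.sum_congr rfl fun k hk => ?_
      rw [if_pos ((tri_mem_tQ Lp hL κ k).1 hk)]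
    · intro k hk
      rw [if_neg fun h => hk ((tri_mem_tQ Lp hL κ k).2 h)]
  simp_rw [h1]
  rw [ENNReal.tsum_comm]
  refine tsum_congr fun k => ?_
  simp_rw [eq_comm (a := tbig Lp k)]
  exact tsum_ite_eq (tbig Lp k) (fun _ => f k)

/-- **LEAF L-256-TRI-MKSHIFT: sum over the big cubes.**
PLAN.  `∑' k = ∑' κ ∑_{k ∈ tQ Lp κ}` (the fibres of `tbig Lp`, `tri_mem_tQ`; e.g. `ENNReal.tsum` over the sigma type / `tsum_eq_tsum_of_..`, or `∑' k f k = ∑' κ ∑' k, if tbig k = κ then f k else 0` by `ENNReal.tsum_comm` + `tsum_ite_eq`).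
`tri_mk_cube` on each `κ`;  `tri_hold3` with `a i κ = ∑_x ∑_{c ∈ tQ (κ + (j i).2)} w i x c`;   `∑' κ a i κ = ∑_x ∑' c w i x c` (translation `κ ↦ κ + n` is an `Equiv`: `Equiv.tsum_eq (Equiv.addRight _)`, fibres again). -/
theorem tri_mk_shift (ν ε : ℝ) (hν : 0 < ν) (hν1 : ν ≤ 1) (hε : 0 < ε) : ∃ C : ℝ, 0 ≤ C ∧ ∀ Lp : ℕ, 1 ≤ Lp →
    ∀ X : Fin 3 → Finset ℝ, (∀ i, ∀ x ∈ X i, |x| ≤ 1) → TSep ν X →
    ∀ w : Fin 3 → ℝ → (Fin 3 → ℤ) → ℝ≥0∞, (∀ i, ∀ x ∈ X i, ∀ c, w i x c ≠ ∞) →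
    ∀ j : Fin 3 → (Fin 3 → ℤ) × (Fin 3 → ℤ),
    ∑' k : Fin 3 → ℤ, ∏ i, (tS Lp (X i) (w i) (j i) k) ^ (1 / 2 : ℝ)
      ≤ ENNReal.ofReal (C * (Lp : ℝ) ^ ε) * ∏ i, (∑ x ∈ X i, ∑' c : Fin 3 → ℤ, w i x c) ^ (1 / 2 : ℝ) := by
  obtain ⟨C, hC, h⟩ := tri_mk_cube ν ε hν hν1 hε
  refine ⟨C, hC, fun Lp hL X hX hsep w hw j => ?_⟩
  have hsum : ∀ i, ∑' κ : Fin 3 → ℤ, ∑ x ∈ X i, ∑ c ∈ tQ Lp (κ + (j i).2), w i x c = ∑ x ∈ X i, ∑' c : Fin 3 → ℤ, w i x c := by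
    intro i
    rw [Summable.tsum_finsetSum fun _ _ => ENNReal.summable]
    refine Finset.sum_congr rfl fun x _ => ?_
    rw [← tri_fibre Lp hL (w i x)]
    exact (Equiv.addRight (j i).2).tsum_eq (fun κ => ∑ c ∈ tQ Lp κ, w i x c)
  rw [← tri_fibre Lp hL]
  calc ∑' κ : Fin 3 → ℤ, ∑ k ∈ tQ Lp κ, ∏ i, (tS Lp (X i) (w i) (j i) k) ^ (1 / 2 : ℝ)
      ≤ ∑' κ : Fin 3 → ℤ, ENNReal.ofReal (C * (Lp : ℝ) ^ ε) * ∏ i, (∑ x ∈ X i, ∑ c ∈ tQ Lp (κ + (j i).2), w i x c) ^ (1 / 2 : ℝ) :=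
        ENNReal.tsum_le_tsum fun κ => h Lp hL X hX hsep w hw j κ
    _ = ENNReal.ofReal (C * (Lp : ℝ) ^ ε) * ∑' κ : Fin 3 → ℤ, ∏ i, (∑ x ∈ X i, ∑ c ∈ tQ Lp (κ + (j i).2), w i x c) ^ (1 / 2 : ℝ) :=
        ENNReal.tsum_mul_left
    _ ≤ ENNReal.ofReal (C * (Lp : ℝ) ^ ε) * ∏ i, (∑' κ : Fin 3 → ℤ, ∑ x ∈ X i, ∑ c ∈ tQ Lp (κ + (j i).2), w i x c) ^ (1 / 2 : ℝ) := by
        gcongr
        exact tri_hold3 (fun i κ => ∑ x ∈ X i, ∑ c ∈ tQ Lp (κ + (j i).2), w i x c)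
    _ = _ := by simp_rw [hsum]

theorem tri_sqrt_sum_le {J : Type*} (s : Finset J) (b : J → ℝ≥0∞) :
    (∑ j ∈ s, b j) ^ (1 / 2 : ℝ) ≤ ∑ j ∈ s, (b j) ^ (1 / 2 : ℝ) := by
  classical
  induction s using Finset.induction_on with
  | empty => simp
  | insert j s hj ih =>
    rw [Finset.sum_insert hj, Finset.sum_insert hj]
    refine (ENNReal.rpow_add_le_add_rpow _ _ (by norm_num) (by norm_num)).trans ?_
    gcongr

theorem tri_sqrt_tsum_le {J : Type*} (b : J → ℝ≥0∞) :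
    (∑' j, b j) ^ (1 / 2 : ℝ) ≤ ∑' j, (b j) ^ (1 / 2 : ℝ) := by
  have h := (ENNReal.orderIsoRpow (1 / 2 : ℝ) (by norm_num)).map_iSup (fun s : Finset J => ∑ j ∈ s, b j)
  simp only [ENNReal.orderIsoRpow_apply] at h
  rw [ENNReal.tsum_eq_iSup_sum, h]
  refine iSup_le fun s => (tri_sqrt_sum_le s b).trans (ENNReal.sum_le_tsum s)

theorem tri_tsum_mul3 {J : Type*} (A B C : J → ℝ≥0∞) :
    (∑' j, A j) * (∑' j, B j) * (∑' j, C j) = ∑' j0, ∑' j1, ∑' j2, A j0 * B j1 * C j2 := by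
  have e1 : ∀ j0 j1, ∑' j2, A j0 * B j1 * C j2 = A j0 * B j1 * ∑' j, C j := fun j0 j1 => ENNReal.tsum_mul_left
  have e2 : ∀ j0, ∑' j1, A j0 * B j1 * ∑' j, C j = A j0 * (∑' j, B j) * ∑' j, C j := fun j0 => by
    rw [ENNReal.tsum_mul_right, ENNReal.tsum_mul_left]
  simp only [e1, e2]
  rw [ENNReal.tsum_mul_right, ENNReal.tsum_mul_right]

/-- **LEAF L-256-TRI-SUPERPOSE: abstract superposition.**
PLAN.  `(∑' j, b j)^{1/2} ≤ ∑' j, (b j)^{1/2}` (sup over finsets, `ENNReal.rpow_add_le_add_rpow`/`ENNReal.rpow_finsetSum_le_finsetSum_rpow`-type);  `(α S)^{1/2} = α^{1/2} S^{1/2}` (`ENNReal.mul_rpow_of_nonneg`);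
`Fin.prod_univ_three`, expand the product of three `tsum`s (`ENNReal.tsum_mul_left/right`), exchange with `∑' z` (`ENNReal.tsum_comm`), apply `h` to `![j₀, j₁, j₂]`. -/
theorem tri_superpose {J Z : Type*} (α : J → ℝ≥0∞) (S : Fin 3 → J → Z → ℝ≥0∞) (B : ℝ≥0∞)
    (h : ∀ j : Fin 3 → J, ∑' z, ∏ i, (S i (j i) z) ^ (1 / 2 : ℝ) ≤ B) :
    ∑' z, ∏ i, (∑' j, α j * S i j z) ^ (1 / 2 : ℝ) ≤ (∑' j, (α j) ^ (1 / 2 : ℝ)) ^ 3 * B := by
  have h1 : ∀ i z, (∑' j, α j * S i j z) ^ (1 / 2 : ℝ) ≤ ∑' j, (α j) ^ (1 / 2 : ℝ) * (S i j z) ^ (1 / 2 : ℝ) := by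
    intro i z
    refine (tri_sqrt_tsum_le _).trans (le_of_eq ?_)
    refine tsum_congr fun j => ?_
    rw [ENNReal.mul_rpow_of_nonneg _ _ (by norm_num)]
  obtain ⟨β, hβ⟩ : ∃ β : J → ℝ≥0∞, β = fun j => (α j) ^ (1 / 2 : ℝ) := ⟨_, rfl⟩
  obtain ⟨σ, hσ⟩ : ∃ σ : Fin 3 → J → Z → ℝ≥0∞, σ = fun i j z => (S i j z) ^ (1 / 2 : ℝ) := ⟨_, rfl⟩
  have h1' : ∀ i z, (∑' j, α j * S i j z) ^ (1 / 2 : ℝ) ≤ ∑' j, β j * σ i j z := by
    intro i z; simpa [hβ, hσ] using h1 i z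
  have h' : ∀ j0 j1 j2 : J, ∑' z, σ 0 j0 z * σ 1 j1 z * σ 2 j2 z ≤ B := by
    intro j0 j1 j2
    have := h ![j0, j1, j2]
    simpa [Fin.prod_univ_three, hσ] using this
  have hβ' : (∑' j, (α j) ^ (1 / 2 : ℝ)) = ∑' j, β j := by simp [hβ]
  rw [hβ']
  calc ∑' z, ∏ i, (∑' j, α j * S i j z) ^ (1 / 2 : ℝ)
      ≤ ∑' z, (∑' j, β j * σ 0 j z) * (∑' j, β j * σ 1 j z) * (∑' j, β j * σ 2 j z) := by
        refine ENNReal.tsum_le_tsum fun z => ?_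
        rw [Fin.prod_univ_three]
        gcongr <;> exact h1' _ _
    _ = ∑' z, ∑' j0, ∑' j1, ∑' j2, (β j0 * β j1 * β j2) * (σ 0 j0 z * σ 1 j1 z * σ 2 j2 z) := by
        refine tsum_congr fun z => ?_
        rw [tri_tsum_mul3]
        refine tsum_congr fun j0 => tsum_congr fun j1 => tsum_congr fun j2 => ?_
        ring
    _ = ∑' j0, ∑' j1, ∑' j2, ∑' z, (β j0 * β j1 * β j2) * (σ 0 j0 z * σ 1 j1 z * σ 2 j2 z) := by
        rw [ENNReal.tsum_comm]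
        refine tsum_congr fun j0 => ?_
        rw [ENNReal.tsum_comm]
        refine tsum_congr fun j1 => ?_
        rw [ENNReal.tsum_comm]
    _ ≤ ∑' j0, ∑' j1, ∑' j2, (β j0 * β j1 * β j2) * B := by
        refine ENNReal.tsum_le_tsum fun j0 => ENNReal.tsum_le_tsum fun j1 => ENNReal.tsum_le_tsum fun j2 => ?_
        rw [ENNReal.tsum_mul_left]
        gcongr
        exact h' j0 j1 j2
    _ = (∑' j, β j) ^ 3 * B := by
        simp only [ENNReal.tsum_mul_right, ENNReal.tsum_mul_left]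
        ring

/-- comparison of negative powers -/
theorem tri_rpow_m4 (a b : ℝ) (ha : 0 < a) (h : a ≤ 2 * b) : b ^ (-4 : ℝ) ≤ 2 ^ 4 * a ^ (-4 : ℝ) := by
  have h1 : b ^ (-4 : ℝ) ≤ (a / 2) ^ (-4 : ℝ) :=
    Real.rpow_le_rpow_of_nonpos (by positivity) (by linarith) (by norm_num)
  have h2 : (a / 2) ^ (-4 : ℝ) = 2 ^ 4 * a ^ (-4 : ℝ) := by
    rw [Real.div_rpow ha.le (by norm_num)]
    have : (2 : ℝ) ^ (-4 : ℝ) = (2 ^ 4)⁻¹ := by
      rw [show (-4 : ℝ) = -((4 : ℕ) : ℝ) by norm_num, Real.rpow_neg (by norm_num), Real.rpow_natCast]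
    rw [this]
    field_simp
  rw [← h2]
  exact h1

/-- Euclidean norm against sup norm on the lattice -/
theorem tri_tlat_norm_le (m : Fin 3 → ℤ) : ‖tlat 1 m‖ ≤ 2 * ‖m‖ := by
  have hi : ∀ i, ‖tlat 1 m i‖ ^ 2 ≤ ‖m‖ ^ 2 := by
    intro i
    rw [tri_tlat_apply, one_mul]
    have h1 := norm_le_pi_norm m i
    rw [Int.norm_eq_abs] at h1
    rw [Real.norm_eq_abs]
    exact pow_le_pow_left₀ (abs_nonneg _) h1 2
  rw [EuclideanSpace.norm_eq, Fin.sum_univ_three]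
  rw [show 2 * ‖m‖ = √((2 * ‖m‖) ^ 2) by rw [Real.sqrt_sq (by positivity)]]
  apply Real.sqrt_le_sqrt
  have := hi 0
  have := hi 1
  have := hi 2
  nlinarith [sq_nonneg ‖m‖]

/-- the one-factor sum -/
theorem tri_alpha_sum1 : ∃ C : ℝ, 0 ≤ C ∧ ∑' m : Fin 3 → ℤ, ENNReal.ofReal ((1 + ‖m‖) ^ (-4 : ℝ)) ≤ ENNReal.ofReal C := by
  obtain ⟨C, hC, h⟩ := tri_lat_sum_unit
  refine ⟨2 ^ 4 * C, by positivity, ?_⟩
  rw [ENNReal.ofReal_mul (by positivity)]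
  refine le_trans ?_ (mul_le_mul_right (h 0) _)
  rw [← ENNReal.tsum_mul_left]
  refine ENNReal.tsum_le_tsum fun m => ?_
  rw [← ENNReal.ofReal_mul (by positivity)]
  apply ENNReal.ofReal_le_ofReal
  rw [zero_sub, norm_neg]
  refine tri_rpow_m4 _ _ (by positivity) ?_
  have := tri_tlat_norm_le m
  linarith [norm_nonneg m]

theorem tri_alpha_sqrt (j : (Fin 3 → ℤ) × (Fin 3 → ℤ)) :
    (talpha j) ^ (1 / 2 : ℝ) = ENNReal.ofReal ((1 + ‖j.1‖) ^ (-4 : ℝ)) * ENNReal.ofReal ((1 + ‖j.2‖) ^ (-4 : ℝ)) := by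
  unfold talpha
  rw [ENNReal.ofReal_rpow_of_nonneg (by positivity) (by norm_num), ← ENNReal.ofReal_mul (by positivity),
    Real.mul_rpow (by positivity) (by positivity), ← Real.rpow_mul (by positivity), ← Real.rpow_mul (by positivity)]
  norm_num

/-- **LEAF L-256-TRI-ALPHASUM.**  `talpha j ^ (1/2) = (1+‖j.1‖)^{-4} (1+‖j.2‖)^{-4}`, `ENNReal.tsum_prod`, so the sum is `(∑_{m ∈ ℤ³} (1+‖m‖_∞)^{-4})²`.
`∑_m (1+‖m‖_∞)^{-4} ≤ 9 ∑_m tWt 4 1 (tlat 1 m) 0 ≤ 9 C` by `tri_lat_sum` (`‖tlat 1 m‖₂ ≤ √3 ‖m‖_∞`, `1 + t ≤ √3 (1 + t/√3)`). -/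
theorem tri_alpha_sum : ∃ C : ℝ, 0 ≤ C ∧ ∑' j, (talpha j) ^ (1 / 2 : ℝ) ≤ ENNReal.ofReal C := by
  obtain ⟨C, hC, h⟩ := tri_alpha_sum1
  refine ⟨C * C, by positivity, ?_⟩
  simp_rw [tri_alpha_sqrt]
  rw [ENNReal.tsum_prod (f := fun a b : Fin 3 → ℤ => ENNReal.ofReal ((1 + ‖a‖) ^ (-4 : ℝ)) * ENNReal.ofReal ((1 + ‖b‖) ^ (-4 : ℝ)))]
  simp_rw [ENNReal.tsum_mul_left]
  rw [ENNReal.tsum_mul_right, ENNReal.ofReal_mul hC]
  exact mul_le_mul' h h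

/-- **LEAF L-256-TRI-MKCONV (glue): multilinear Kakeya on the lattice, tubes of length `L` with tails.**
PLAN.  `Lp = ⌈L⌉₊`, `1 ≤ Lp`, `(Lp : ℝ) ≤ 2 L`.   `tri_gam_dom` in each factor (monotonicity of `rpow`, `ENNReal.mul_rpow_of_nonneg`), `tri_superpose` with `α = talpha`, `S i j k = tS Lp (X i) (w i) j k`, `B` from `tri_mk_shift`, `tri_alpha_sum`.
Constant `(2^16)^{3/2} C_α³ C_shift 2^ε`. -/
theorem tri_mkconv (ν ε : ℝ) (hν : 0 < ν) (hν1 : ν ≤ 1) (hε : 0 < ε) : ∃ C : ℝ, 0 ≤ C ∧ ∀ L : ℝ, 1 ≤ L →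
    ∀ X : Fin 3 → Finset ℝ, (∀ i, ∀ x ∈ X i, |x| ≤ 1) → TSep ν X →
    ∀ w : Fin 3 → ℝ → (Fin 3 → ℤ) → ℝ≥0∞, (∀ i, ∀ x ∈ X i, ∀ c, w i x c ≠ ∞) →
    ∑' k : Fin 3 → ℤ, ∏ i, (∑ x ∈ X i, ∑' c : Fin 3 → ℤ, w i x c * tgam L x (c - k)) ^ (1 / 2 : ℝ)
      ≤ ENNReal.ofReal (C * L ^ ε) * ∏ i, (∑ x ∈ X i, ∑' c : Fin 3 → ℤ, w i x c) ^ (1 / 2 : ℝ) := by
  obtain ⟨C1, hC1, h1⟩ := tri_mk_shift ν ε hν hν1 hε
  obtain ⟨Ca, hCa, ha⟩ := tri_alpha_sum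
  refine ⟨(2 ^ 8) ^ 3 * (Ca ^ 3 * (C1 * 2 ^ ε)), by positivity, fun L hL X hX hsep w hw => ?_⟩
  have hL0 : 0 < L := by linarith
  have hLp1 : 1 ≤ ⌈L⌉₊ := Nat.one_le_ceil_iff.2 hL0
  have hLp2 : (⌈L⌉₊ : ℝ) ≤ 2 * L := by
    have := Nat.ceil_lt_add_one hL0.le
    linarith
  have hs : (ENNReal.ofReal (2 ^ 16)) ^ (1 / 2 : ℝ) = ENNReal.ofReal (2 ^ 8) := by
    rw [ENNReal.ofReal_rpow_of_nonneg (by positivity) (by norm_num), ← Real.sqrt_eq_rpow,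
      show (2 ^ 16 : ℝ) = (2 ^ 8) ^ 2 by norm_num, Real.sqrt_sq (by positivity)]
  obtain ⟨P, hP⟩ : ∃ P : ℝ≥0∞, P = ∏ i, (∑ x ∈ X i, ∑' c : Fin 3 → ℤ, w i x c) ^ (1 / 2 : ℝ) := ⟨_, rfl⟩
  rw [← hP]
  have hsup := tri_superpose talpha (fun i j k => tS ⌈L⌉₊ (X i) (w i) j k) (ENNReal.ofReal (C1 * (⌈L⌉₊ : ℝ) ^ ε) * P)
    (fun j => by rw [hP]; exact h1 ⌈L⌉₊ hLp1 X hX hsep w hw j)
  have hpow : C1 * (⌈L⌉₊ : ℝ) ^ ε ≤ C1 * 2 ^ ε * L ^ ε := by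
    rw [mul_assoc, ← Real.mul_rpow (by norm_num) hL0.le]
    exact mul_le_mul_of_nonneg_left (Real.rpow_le_rpow (by positivity) hLp2 hε.le) hC1
  calc ∑' k : Fin 3 → ℤ, ∏ i, (∑ x ∈ X i, ∑' c : Fin 3 → ℤ, w i x c * tgam L x (c - k)) ^ (1 / 2 : ℝ)
      ≤ ∑' k : Fin 3 → ℤ, ∏ i, (ENNReal.ofReal (2 ^ 8) * (∑' j, talpha j * tS ⌈L⌉₊ (X i) (w i) j k) ^ (1 / 2 : ℝ)) := by
        refine ENNReal.tsum_le_tsum fun k => Finset.prod_le_prod' fun i _ => ?_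
        rw [← hs, ← ENNReal.mul_rpow_of_nonneg _ _ (by norm_num)]
        exact ENNReal.rpow_le_rpow (tri_gam_dom L hL (X i) (w i) k) (by norm_num)
    _ = ENNReal.ofReal (2 ^ 8) ^ 3 * ∑' k : Fin 3 → ℤ, ∏ i, (∑' j, talpha j * tS ⌈L⌉₊ (X i) (w i) j k) ^ (1 / 2 : ℝ) := by
        rw [← ENNReal.tsum_mul_left]
        refine tsum_congr fun k => ?_
        rw [Finset.prod_mul_distrib, Finset.prod_const, Finset.card_univ, Fintype.card_fin]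
    _ ≤ ENNReal.ofReal (2 ^ 8) ^ 3 * ((∑' j, (talpha j) ^ (1 / 2 : ℝ)) ^ 3 * (ENNReal.ofReal (C1 * (⌈L⌉₊ : ℝ) ^ ε) * P)) := by
        gcongr
    _ ≤ ENNReal.ofReal (2 ^ 8) ^ 3 * ((ENNReal.ofReal Ca) ^ 3 * (ENNReal.ofReal (C1 * 2 ^ ε * L ^ ε) * P)) := by
        gcongr
    _ = _ := by
        rw [← ENNReal.ofReal_pow (by positivity), ← ENNReal.ofReal_pow hCa, ← mul_assoc, ← mul_assoc, ← ENNReal.ofReal_mul (by positivity),
          ← ENNReal.ofReal_mul (by positivity)]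
        congr 2
        ring

theorem tri_rpow_neg_nat (X : ℝ) (hX : 0 < X) (n : ℕ) : X ^ (-(n : ℝ)) = (X ^ n)⁻¹ := by
  rw [Real.rpow_neg hX.le, Real.rpow_natCast]

theorem tri_phi_alg (A D U P V N : ℝ) (hA : 1 ≤ A) (hD : 1 ≤ D) (hU : 1 ≤ U) (hP : 1 ≤ P) (hV : 1 ≤ V) (hN : 1 ≤ N)
    (h1 : D ≤ 2 * A) (h2 : U ≤ A) (h3 : V ≤ P * U) (h4 : N ≤ V * D) :
    (P ^ 10)⁻¹ * (A ^ 40)⁻¹ ≤ 2 ^ 20 * ((D ^ 8)⁻¹ * (N ^ 8)⁻¹) * (U ^ 12)⁻¹ := by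
  have hA0 : 0 < A := by linarith
  have hD0 : 0 < D := by linarith
  have hU0 : 0 < U := by linarith
  have hP0 : 0 < P := by linarith
  have hV0 : 0 < V := by linarith
  have hN0 : 0 < N := by linarith
  have key : D ^ 8 * N ^ 8 * U ^ 12 ≤ 2 ^ 20 * (P ^ 10 * A ^ 40) := by
    have hN' : N ≤ P * U * D := h4.trans (mul_le_mul_of_nonneg_right h3 hD0.le)
    calc D ^ 8 * N ^ 8 * U ^ 12 ≤ D ^ 8 * (P * U * D) ^ 8 * U ^ 12 := by gcongr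
      _ = D ^ 16 * U ^ 20 * P ^ 8 := by ring
      _ ≤ (2 * A) ^ 16 * A ^ 20 * P ^ 8 := by gcongr
      _ = 2 ^ 16 * (P ^ 8 * A ^ 36) := by ring
      _ ≤ 2 ^ 20 * (P ^ 10 * A ^ 40) := by
        have a1 : P ^ 8 ≤ P ^ 10 := pow_le_pow_right₀ hP (by norm_num)
        have a2 : A ^ 36 ≤ A ^ 40 := pow_le_pow_right₀ hA (by norm_num)
        gcongr
        · norm_num
        · norm_num
  rw [← mul_inv, ← mul_inv, ← div_eq_mul_inv, ← div_eq_mul_inv, div_div, inv_eq_one_div,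
    div_le_div_iff₀ (by positivity) (by positivity)]
  linarith

theorem tri_phi_int (ρ a : ℝ) (hρ : 0 < ρ) :
    Integrable (fun s : ℝ => ((1 + |a - s| / ρ) ^ 12)⁻¹) ∧
      ∫ s : ℝ, ((1 + |a - s| / ρ) ^ 12)⁻¹ = ρ * ∫ t : ℝ, (1 + ‖t‖) ^ (-(12 : ℝ)) := by
  have hint : Integrable (fun t : ℝ => (1 + ‖t‖) ^ (-(12 : ℝ))) := by
    apply integrable_one_add_norm
    simp
  have e : (fun s : ℝ => ((1 + |a - s| / ρ) ^ 12)⁻¹) = fun s : ℝ => (fun u : ℝ => (fun t : ℝ => (1 + ‖t‖) ^ (-(12 : ℝ))) (u / ρ)) (a - s) := by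
    funext s
    have h0 : 0 < 1 + |a - s| / ρ := by positivity
    have := tri_rpow_neg_nat _ h0 12
    simp only [Real.norm_eq_abs, abs_div, abs_of_pos hρ]
    rw [← this]
    norm_num
  constructor
  · rw [e]
    exact (hint.comp_div hρ.ne').comp_sub_left a
  · rw [e, integral_sub_left_eq_self (fun u : ℝ => (fun t : ℝ => (1 + ‖t‖) ^ (-(12 : ℝ))) (u / ρ)) volume a,
      Measure.integral_comp_div (fun t : ℝ => (1 + ‖t‖) ^ (-(12 : ℝ))) ρ, abs_of_pos hρ, smul_eq_mul]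

/-- **LEAF L-256-TRI-PHI: the smeared weight is a tube.**   (`ρ = √r ≤ r`, `e = tdir x`, `d = tdx x v`.)
PLAN.  `a = v - s e`:  `|v 0 - s| = |a 0| ≤ ‖a‖`, `v 1 - x v 0 = a 1 - x a 0`, `v 2 - x² v 0 = a 2 - x² a 0`, so `d ≤ 2 ‖a‖`.   `(1+‖a‖/ρ)^{-40} ≤ 2^20 (1+d/ρ)^{-20} (1+|v 0 - s|/ρ)^{-20}`.
`1 + |v 0|/r ≤ (1+|s|/r)(1+|v 0 - s|/ρ)`, so `(1+|s|/r)^{-10} ≤ (1+|v 0|/r)^{-8} (1+|v 0 - s|/ρ)^8`.   `∫ (1+|v 0 - s|/ρ)^{-12} ds = 2ρ/11` (any bound `≤ C ρ`; `integrable_rpow_neg_one_add_norm_sq`-free: substitute, `integral_rpow`/`integrableOn_Ioi_rpow_of_lt`).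
`‖v‖_∞ ≤ |v 0| + d`, `1 + ‖v‖_∞/r ≤ (1+|v 0|/r)(1+d/ρ)`, so `(1+d/ρ)^{-20} (1+|v 0|/r)^{-8} ≤ (1+d/ρ)^{-12} (1+‖v‖_∞/r)^{-8}`. -/
theorem tri_phi : ∃ C : ℝ, 0 ≤ C ∧ ∀ r : ℝ, 1 ≤ r → ∀ x : ℝ, |x| ≤ 1 → ∀ v : TV,
    ∫⁻ s : ℝ, ENNReal.ofReal ((1 + |s| / r) ^ (-10 : ℝ)) * ENNReal.ofReal ((1 + ‖v - s • tdir x‖ / √r) ^ (-40 : ℝ))
      ≤ ENNReal.ofReal (C * √r * ((1 + tdx x (fun i => v i) / √r) ^ (-8 : ℝ) * (1 + ‖(fun i => v i : Fin 3 → ℝ)‖ / r) ^ (-8 : ℝ))) := by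
  have hI : 0 ≤ ∫ t : ℝ, (1 + ‖t‖) ^ (-(12 : ℝ)) := integral_nonneg fun t => by positivity
  refine ⟨2 ^ 20 * ∫ t : ℝ, (1 + ‖t‖) ^ (-(12 : ℝ)), by positivity, fun r hr x hx v => ?_⟩
  have hr0 : 0 < r := by linarith
  have hρ1 : 1 ≤ √r := Real.one_le_sqrt.2 hr
  have hρ0 : 0 < √r := by linarith
  have hρr : √r ≤ r := by
    have := Real.mul_self_sqrt hr0.le
    nlinarith
  obtain ⟨ρ, hρ⟩ : ∃ ρ, ρ = √r := ⟨_, rfl⟩
  rw [← hρ] at hρ1 hρ0 hρr ⊢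
  obtain ⟨d, hd⟩ : ∃ d, d = tdx x (fun i => v i) := ⟨_, rfl⟩
  obtain ⟨n, hn⟩ : ∃ n, n = ‖(fun i => v i : Fin 3 → ℝ)‖ := ⟨_, rfl⟩
  rw [← hd, ← hn]
  have hd0 : 0 ≤ d := by
    rw [hd]; exact le_max_of_le_left (abs_nonneg _)
  have hn0 : 0 ≤ n := by rw [hn]; exact norm_nonneg _
  have hx2 : |x ^ 2| ≤ 1 := by
    rw [abs_pow]; exact pow_le_one₀ (abs_nonneg _) hx
  -- `n ≤ |v 0| + d`
  have hnd : n ≤ |v 0| + d := by
    rw [hn, pi_norm_le_iff_of_nonneg (by positivity)]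
    have d1 : |v 1 - x * v 0| ≤ d := by rw [hd]; exact le_max_left _ _
    have d2 : |v 2 - x ^ 2 * v 0| ≤ d := by rw [hd]; exact le_max_right _ _
    have m1 : |x * v 0| ≤ |v 0| := by
      rw [abs_mul]; exact mul_le_of_le_one_left (abs_nonneg _) hx
    have m2 : |x ^ 2 * v 0| ≤ |v 0| := by
      rw [abs_mul]; exact mul_le_of_le_one_left (abs_nonneg _) hx2
    intro i
    rw [Real.norm_eq_abs]
    fin_cases i
    · simpa using hd0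
    · have : |v 1| ≤ |v 1 - x * v 0| + |x * v 0| := by
        have := abs_add_le (v 1 - x * v 0) (x * v 0)
        simpa using this
      simp only [Fin.mk_one]
      linarith
    · have : |v 2| ≤ |v 2 - x ^ 2 * v 0| + |x ^ 2 * v 0| := by
        have := abs_add_le (v 2 - x ^ 2 * v 0) (x ^ 2 * v 0)
        simpa using this
      simp only [Fin.reduceFinMk]
      linarith
  have hD : (1 + d / ρ) ^ (-8 : ℝ) = ((1 + d / ρ) ^ 8)⁻¹ := by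
    rw [← tri_rpow_neg_nat _ (by positivity) 8]; norm_num
  have hN : (1 + n / r) ^ (-8 : ℝ) = ((1 + n / r) ^ 8)⁻¹ := by
    rw [← tri_rpow_neg_nat _ (by positivity) 8]; norm_num
  rw [hD, hN]
  obtain ⟨hint, hval⟩ := tri_phi_int ρ (v 0) hρ0
  have hpt : ∀ s : ℝ, ENNReal.ofReal ((1 + |s| / r) ^ (-10 : ℝ)) * ENNReal.ofReal ((1 + ‖v - s • tdir x‖ / ρ) ^ (-40 : ℝ))
      ≤ ENNReal.ofReal (2 ^ 20 * (((1 + d / ρ) ^ 8)⁻¹ * ((1 + n / r) ^ 8)⁻¹) * ((1 + |v 0 - s| / ρ) ^ 12)⁻¹) := by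
    intro s
    rw [← ENNReal.ofReal_mul (by positivity)]
    apply ENNReal.ofReal_le_ofReal
    have hP : (1 + |s| / r) ^ (-10 : ℝ) = ((1 + |s| / r) ^ 10)⁻¹ := by
      rw [← tri_rpow_neg_nat _ (by positivity) 10]; norm_num
    have hA : (1 + ‖v - s • tdir x‖ / ρ) ^ (-40 : ℝ) = ((1 + ‖v - s • tdir x‖ / ρ) ^ 40)⁻¹ := by
      rw [← tri_rpow_neg_nat _ (by positivity) 40]; norm_num
    rw [hP, hA]
    obtain ⟨a, ha⟩ : ∃ a : TV, a = v - s • tdir x := ⟨_, rfl⟩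
    rw [← ha]
    obtain ⟨t0, t1, t2⟩ := tri_tvec_apply 1 x (x ^ 2)
    have a0 : a 0 = v 0 - s := by
      rw [ha]; simp [tdir, t0]
    have a1 : a 1 = v 1 - s * x := by
      rw [ha]; simp [tdir, t1]
    have a2 : a 2 = v 2 - s * x ^ 2 := by
      rw [ha]; simp [tdir, t2]
    have n0 := tri_abs_le_norm a 0
    have n1 := tri_abs_le_norm a 1
    have n2 := tri_abs_le_norm a 2
    have hda : d ≤ 2 * ‖a‖ := by
      rw [hd]
      refine max_le ?_ ?_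
      · have e : v 1 - x * v 0 = a 1 - x * a 0 := by rw [a0, a1]; ring
        rw [e]
        have m : |x * a 0| ≤ |a 0| := by
          rw [abs_mul]; exact mul_le_of_le_one_left (abs_nonneg _) hx
        have := abs_sub (a 1) (x * a 0)
        linarith
      · have e : v 2 - x ^ 2 * v 0 = a 2 - x ^ 2 * a 0 := by rw [a0, a2]; ring
        rw [e]
        have m : |x ^ 2 * a 0| ≤ |a 0| := by
          rw [abs_mul]; exact mul_le_of_le_one_left (abs_nonneg _) hx2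
        have := abs_sub (a 2) (x ^ 2 * a 0)
        linarith
    have hua : |v 0 - s| ≤ ‖a‖ := by rw [← a0]; exact n0
    refine tri_phi_alg _ _ _ _ (1 + |v 0| / r) _ ?_ ?_ ?_ ?_ ?_ ?_ ?_ ?_ ?_ ?_
    · have : 0 ≤ ‖a‖ / ρ := by positivity
      linarith
    · have : 0 ≤ d / ρ := by positivity
      linarith
    · have : 0 ≤ |v 0 - s| / ρ := by positivity
      linarith
    · have : 0 ≤ |s| / r := by positivity
      linarith
    · have : 0 ≤ |v 0| / r := by positivity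
      linarith
    · have : 0 ≤ n / r := by positivity
      linarith
    · have : d / ρ ≤ 2 * ‖a‖ / ρ := by gcongr
      have e : 2 * ‖a‖ / ρ = 2 * (‖a‖ / ρ) := by ring
      linarith
    · have : |v 0 - s| / ρ ≤ ‖a‖ / ρ := by gcongr
      linarith
    · have h1 : |v 0| ≤ |s| + |v 0 - s| := by
        have := abs_add_le s (v 0 - s)
        simpa using this
      have h2 : |v 0| / r ≤ |s| / r + |v 0 - s| / r := by
        rw [← add_div]; gcongr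
      have h3 : |v 0 - s| / r ≤ |v 0 - s| / ρ := by gcongr
      have h4 : 0 ≤ |s| / r * (|v 0 - s| / ρ) := by positivity
      nlinarith
    · have h2 : n / r ≤ |v 0| / r + d / r := by
        rw [← add_div]; gcongr
      have h3 : d / r ≤ d / ρ := by gcongr
      have h4 : 0 ≤ |v 0| / r * (d / ρ) := by positivity
      nlinarith
  refine (lintegral_mono hpt).trans ?_
  rw [← ofReal_integral_eq_lintegral_ofReal (hint.const_mul _) (Filter.Eventually.of_forall fun s => by positivity),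
    integral_const_mul, hval]
  apply ENNReal.ofReal_le_ofReal
  apply le_of_eq
  ring

/-- **LEAF L-256-TRI-CUBES (1).**  Finite intersection of preimages of `Ico` under the (continuous) coordinates. -/
theorem tri_cube_meas (ρ : ℝ) (c : Fin 3 → ℤ) : MeasurableSet (tcube ρ c) := by
  have e : tcube ρ c = ⋂ i : Fin 3, (fun q : TV => q i) ⁻¹' Set.Ico (ρ * c i) (ρ * (c i + 1)) := by
    ext q
    simp [tcube]
  rw [e]
  refine MeasurableSet.iInter fun i => measurableSet_Ico.preimage ?_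
  fun_prop

/-- **LEAF L-256-TRI-CUBES (2).**  Bounded set (`‖q‖ ≤ ∑ |q i|`), `Bornology.IsBounded.measure_lt_top`. -/
theorem tri_cube_finite (ρ : ℝ) (c : Fin 3 → ℤ) : volume (tcube ρ c) ≠ ∞ := by
  have hb : Bornology.IsBounded (tcube ρ c) := by
    refine (Metric.isBounded_closedBall (x := (0 : TV)) (r := √(∑ i, (|ρ| * (|(c i : ℝ)| + 1)) ^ 2))).subset ?_
    intro q hq
    rw [mem_closedBall_zero_iff, EuclideanSpace.norm_eq]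
    refine Real.sqrt_le_sqrt (Finset.sum_le_sum fun i _ => ?_)
    have h := hq i
    rw [Real.norm_eq_abs]
    refine pow_le_pow_left₀ (abs_nonneg _) ?_ 2
    have h1 : |ρ * (c i : ℝ)| ≤ |ρ| * (|(c i : ℝ)| + 1) := by
      rw [abs_mul]
      exact mul_le_mul_of_nonneg_left (by linarith) (abs_nonneg _)
    have h2 : |ρ * ((c i : ℝ) + 1)| ≤ |ρ| * (|(c i : ℝ)| + 1) := by
      rw [abs_mul]
      refine mul_le_mul_of_nonneg_left ?_ (abs_nonneg _)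
      exact (abs_add_le _ _).trans (by simp)
    rw [abs_le] at h1 h2 ⊢
    constructor <;> linarith [h.1, h.2]
  exact hb.measure_lt_top.ne

theorem tri_mem_cube_iff (ρ : ℝ) (hρ : 0 < ρ) (c : Fin 3 → ℤ) (q : TV) : q ∈ tcube ρ c ↔ ∀ i, ⌊q i / ρ⌋ = c i := by
  refine forall_congr' fun i => ?_
  rw [Int.floor_eq_iff, le_div_iff₀ hρ, div_lt_iff₀ hρ, mul_comm ρ, mul_comm ρ]

/-- **LEAF L-256-TRI-CUBES (3).**  `lintegral_iUnion` (pairwise disjoint, union `= univ`: `c i = ⌊q i / ρ⌋`). -/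
theorem tri_cube_partition (ρ : ℝ) (hρ : 0 < ρ) (H : TV → ℝ≥0∞) : ∫⁻ p, H p = ∑' c : Fin 3 → ℤ, ∫⁻ p in tcube ρ c, H p := by
  rw [← lintegral_iUnion (fun c => tri_cube_meas ρ c)]
  · have : (⋃ c : Fin 3 → ℤ, tcube ρ c) = Set.univ := by
      refine Set.eq_univ_of_forall fun q => Set.mem_iUnion.2 ⟨fun i => ⌊q i / ρ⌋, ?_⟩
      exact (tri_mem_cube_iff ρ hρ _ q).2 fun i => rfl
    rw [this, Measure.restrict_univ]
  · intro c c' hcc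
    refine Set.disjoint_left.2 fun q hq hq' => hcc ?_
    funext i
    rw [← (tri_mem_cube_iff ρ hρ _ q).1 hq i, ← (tri_mem_cube_iff ρ hρ _ q).1 hq' i]

theorem tri_rpow_neg8 (a b c : ℝ) (ha : 0 < a) (hc : 0 < c) (h : a ≤ c * b) : b ^ (-8 : ℝ) ≤ c ^ 8 * a ^ (-8 : ℝ) := by
  have hb : 0 < b := by
    by_contra hcon
    push Not at hcon
    nlinarith
  have e : ∀ y : ℝ, 0 < y → y ^ (-8 : ℝ) = (y ^ 8)⁻¹ := by
    intro y hy
    rw [Real.rpow_neg hy.le]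
    congr 1
    exact_mod_cast Real.rpow_natCast y 8
  rw [e a ha, e b hb, ← div_eq_mul_inv, le_div_iff₀ (by positivity), inv_mul_le_iff₀ (by positivity), ← mul_pow, mul_comm b c]
  exact pow_le_pow_left₀ ha.le h 8

theorem tri_disc_pt (r : ℝ) (hr : 1 ≤ r) (x : ℝ) (hx : |x| ≤ 1) (c k : Fin 3 → ℤ) (q : TV) (hq : q ∈ tcube (√r) c) :
    (1 + tdx x (fun i => (q - tlat (√r) k) i) / √r) ^ (-8 : ℝ) * (1 + ‖(fun i => (q - tlat (√r) k) i : Fin 3 → ℝ)‖ / r) ^ (-8 : ℝ)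
      ≤ 6 ^ 8 * ((1 + tdx x (fun i => ((c - k) i : ℝ))) ^ (-8 : ℝ) * (1 + ‖(fun i => ((c - k) i : ℝ))‖ / √r) ^ (-8 : ℝ)) := by
  set ρ : ℝ := √r with hρ
  have hρ1 : 1 ≤ ρ := by rw [hρ]; exact Real.one_le_sqrt.mpr hr
  have hρ0 : 0 < ρ := by linarith
  have hρ2 : ρ * ρ = r := Real.mul_self_sqrt (by linarith)
  have hr0 : 0 < r := by linarith
  obtain ⟨hx1, hx2⟩ := abs_le.1 hx
  set v : Fin 3 → ℝ := fun i => (q - tlat ρ k) i with hv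
  set u : Fin 3 → ℝ := fun i => ((c - k) i : ℝ) with hu
  have hvi : ∀ i, v i = q i - ρ * k i := by
    intro i
    simp only [hv, PiLp.sub_apply, tri_tlat_apply]
  have hui : ∀ i, u i = (c i : ℝ) - k i := by
    intro i
    simp [hu]
  -- fractional parts
  have hθ : ∀ i, ∃ θ : ℝ, 0 ≤ θ ∧ θ < 1 ∧ v i = ρ * (u i + θ) := by
    intro i
    have h1 := (hq i).1
    have h2 := (hq i).2
    refine ⟨v i / ρ - u i, ?_, ?_, by field_simp; ring⟩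
    · rw [sub_nonneg, le_div_iff₀ hρ0, hvi, hui]
      nlinarith
    · rw [sub_lt_iff_lt_add, div_lt_iff₀ hρ0, hvi, hui]
      nlinarith
  obtain ⟨θ0, h00, h01, hv0⟩ := hθ 0
  obtain ⟨θ1, h10, h11, hv1⟩ := hθ 1
  obtain ⟨θ2, h20, h21, hv2⟩ := hθ 2
  have hD0 : 0 ≤ tdx x v / ρ := div_nonneg (le_max_of_le_left (abs_nonneg _)) hρ0.le
  have hT0 : 0 ≤ tdx x u := le_max_of_le_left (abs_nonneg _)
  have hT : tdx x u ≤ tdx x v / ρ + 2 := by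
    have hxx : x ^ 2 ≤ 1 := by nlinarith
    have hxx0 : 0 ≤ x ^ 2 := sq_nonneg x
    apply max_le
    · have hA : |v 1 - x * v 0| / ρ ≤ tdx x v / ρ := by
        apply div_le_div_of_nonneg_right (le_max_left _ _) hρ0.le
      have hB : |v 1 - x * v 0| / ρ = |u 1 + θ1 - x * (u 0 + θ0)| := by
        rw [hv1, hv0, show ρ * (u 1 + θ1) - x * (ρ * (u 0 + θ0)) = ρ * (u 1 + θ1 - x * (u 0 + θ0)) by ring, abs_mul,
          abs_of_pos hρ0]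
        field_simp
      have hC : |u 1 - x * u 0| ≤ |u 1 + θ1 - x * (u 0 + θ0)| + |θ1 - x * θ0| := by
        have : u 1 - x * u 0 = (u 1 + θ1 - x * (u 0 + θ0)) - (θ1 - x * θ0) := by ring
        rw [this]
        exact abs_sub _ _
      have hE : |θ1 - x * θ0| ≤ 2 := by
        rw [abs_le]
        constructor <;> nlinarith
      linarith
    · have hA : |v 2 - x ^ 2 * v 0| / ρ ≤ tdx x v / ρ := by
        apply div_le_div_of_nonneg_right (le_max_right _ _) hρ0.le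
      have hB : |v 2 - x ^ 2 * v 0| / ρ = |u 2 + θ2 - x ^ 2 * (u 0 + θ0)| := by
        rw [hv2, hv0, show ρ * (u 2 + θ2) - x ^ 2 * (ρ * (u 0 + θ0)) = ρ * (u 2 + θ2 - x ^ 2 * (u 0 + θ0)) by ring, abs_mul,
          abs_of_pos hρ0]
        field_simp
      have hC : |u 2 - x ^ 2 * u 0| ≤ |u 2 + θ2 - x ^ 2 * (u 0 + θ0)| + |θ2 - x ^ 2 * θ0| := by
        have : u 2 - x ^ 2 * u 0 = (u 2 + θ2 - x ^ 2 * (u 0 + θ0)) - (θ2 - x ^ 2 * θ0) := by ring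
        rw [this]
        exact abs_sub _ _
      have hE : |θ2 - x ^ 2 * θ0| ≤ 2 := by
        rw [abs_le]
        constructor <;> nlinarith
      linarith
  have hN : ‖u‖ ≤ ‖v‖ / ρ + 1 := by
    rw [pi_norm_le_iff_of_nonneg (by positivity)]
    intro i
    obtain ⟨θ, ht0, ht1, hvv⟩ := hθ i
    have h1 : ‖v i‖ ≤ ‖v‖ := norm_le_pi_norm v i
    have h2 : ‖v i‖ / ρ ≤ ‖v‖ / ρ := div_le_div_of_nonneg_right h1 hρ0.le
    have h3 : ‖v i‖ / ρ = |u i + θ| := by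
      rw [hvv, Real.norm_eq_abs, abs_mul, abs_of_pos hρ0]
      field_simp
    have h4 : |u i| ≤ |u i + θ| + |θ| := by
      have : u i = (u i + θ) - θ := by ring
      conv_lhs => rw [this]
      exact abs_sub _ _
    rw [abs_of_nonneg ht0] at h4
    rw [Real.norm_eq_abs]
    linarith
  have hF1 : (1 + tdx x v / ρ) ^ (-8 : ℝ) ≤ 3 ^ 8 * (1 + tdx x u) ^ (-8 : ℝ) :=
    tri_rpow_neg8 _ _ 3 (by positivity) (by norm_num) (by linarith)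
  have hF2 : (1 + ‖v‖ / r) ^ (-8 : ℝ) ≤ 2 ^ 8 * (1 + ‖u‖ / ρ) ^ (-8 : ℝ) := by
    refine tri_rpow_neg8 _ _ 2 (by positivity) (by norm_num) ?_
    have h1 : ‖u‖ / ρ ≤ (‖v‖ / ρ + 1) / ρ := div_le_div_of_nonneg_right hN hρ0.le
    have h2 : (‖v‖ / ρ + 1) / ρ = ‖v‖ / r + 1 / ρ := by
      rw [← hρ2]
      field_simp
    have h3 : 1 / ρ ≤ 1 := by
      rw [div_le_one hρ0]
      exact hρ1
    have h4 : 0 ≤ ‖v‖ / r := by positivity
    linarith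
  calc (1 + tdx x v / ρ) ^ (-8 : ℝ) * (1 + ‖v‖ / r) ^ (-8 : ℝ)
      ≤ (3 ^ 8 * (1 + tdx x u) ^ (-8 : ℝ)) * (2 ^ 8 * (1 + ‖u‖ / ρ) ^ (-8 : ℝ)) := by
        apply mul_le_mul hF1 hF2 (by positivity) (by positivity)
    _ = 6 ^ 8 * ((1 + tdx x u) ^ (-8 : ℝ) * (1 + ‖u‖ / ρ) ^ (-8 : ℝ)) := by
        ring

/-- **LEAF L-256-TRI-DISC: discretisation at scale `ρ = √r`.**
PLAN.  Insert `LD`, Tonelli (`lintegral_lintegral_swap`, `H` measurable), translation `q = p + s e` (`lintegral_add_right_eq_self`):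
`∫ H W_k ≤ (A/r) ∫ H q Φ (q - ρ k) dq`, `Φ v = ∫ (1+|s|/r)^{-10} (1+‖v - s e‖/ρ)^{-40} ds ≤ C ρ (1+tdx x v/ρ)^{-8} (1+‖v‖_∞/r)^{-8}` (`tri_phi`).   Split `∫ dq` with `tri_cube_partition`.
For `q ∈ tcube ρ c`: `v = q - ρ k = ρ (c - k + θ)`, `θ ∈ [0,1)³`:  `tdx x v/ρ ≥ tdx x (c-k) - 2`, so `1 + tdx x v/ρ ≥ (1 + tdx x (c-k))/3`;  `‖v‖_∞/r = ‖c-k+θ‖_∞/ρ`, `1 + ‖v‖_∞/r ≥ (1 + ‖c-k‖_∞/ρ)/2` (`‖c-k‖_∞ = 0` or `≥ 1`, `ρ ≥ 1`).
Constant `6^8 C_Φ`;  `ρ/r = 1/√r`. -/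
theorem tri_disc : ∃ C : ℝ, 0 ≤ C ∧ ∀ r : ℝ, 1 ≤ r → ∀ A : ℝ, 0 ≤ A → ∀ x : ℝ, |x| ≤ 1 → ∀ H : TV → ℝ≥0∞, Measurable H →
    (∀ p, H p ≤ ENNReal.ofReal (A / r) * ∫⁻ s : ℝ, H (p + s • tdir x) * ENNReal.ofReal ((1 + |s| / r) ^ (-10 : ℝ))) →
    ∀ k : Fin 3 → ℤ, ∫⁻ p, H p * tWt 40 (√r) (tlat (√r) k) p
      ≤ ENNReal.ofReal (C * A / √r) * ∑' c : Fin 3 → ℤ, (∫⁻ p in tcube (√r) c, H p) * tgam (√r) x (c - k) := by
  obtain ⟨Cφ, hCφ, hphi⟩ := tri_phi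
  refine ⟨6 ^ 8 * Cφ, by positivity, ?_⟩
  intro r hr A hA x hx H hH hLD k
  set ρ : ℝ := √r with hρ
  have hρ1 : 1 ≤ ρ := by rw [hρ]; exact Real.one_le_sqrt.mpr hr
  have hρ0 : 0 < ρ := by linarith
  have hρ2 : ρ * ρ = r := Real.mul_self_sqrt (by linarith)
  have hr0 : 0 < r := by linarith
  set z : TV := tlat ρ k with hz
  set e : TV := tdir x with he
  set a : ℝ → ℝ≥0∞ := fun s => ENNReal.ofReal ((1 + |s| / r) ^ (-10 : ℝ)) with ha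
  set W : TV → ℝ≥0∞ := fun p => tWt 40 ρ z p with hW
  have ham : Measurable a := by
    apply ENNReal.measurable_ofReal.comp
    fun_prop
  have hWm : Measurable W := by
    apply ENNReal.measurable_ofReal.comp
    fun_prop
  set cA : ℝ≥0∞ := ENNReal.ofReal (A / r) with hcA
  have hF1m : Measurable (fun y : TV × ℝ => H (y.1 + y.2 • e) * a y.2 * W y.1) := by
    have h1 : Measurable (fun y : TV × ℝ => H (y.1 + y.2 • e)) := hH.comp (by fun_prop)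
    exact (h1.mul (ham.comp measurable_snd)).mul (hWm.comp measurable_fst)
  have hF2m : Measurable (fun y : ℝ × TV => H y.2 * a y.1 * W (y.2 - y.1 • e)) := by
    have h1 : Measurable (fun y : ℝ × TV => W (y.2 - y.1 • e)) := hWm.comp (by fun_prop)
    exact ((hH.comp measurable_snd).mul (ham.comp measurable_fst)).mul h1
  -- step 1-2
  have s1 : ∫⁻ p, H p * W p ≤ cA * ∫⁻ p, ∫⁻ s, H (p + s • e) * a s * W p := by
    calc ∫⁻ p, H p * W p ≤ ∫⁻ p, (cA * ∫⁻ s, H (p + s • e) * a s) * W p :=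
          lintegral_mono fun p => by gcongr; exact hLD p
      _ = ∫⁻ p, cA * ∫⁻ s, H (p + s • e) * a s * W p := by
          congr 1
          funext p
          rw [mul_assoc, lintegral_mul_const]
          exact (hH.comp (by fun_prop)).mul ham
      _ = cA * ∫⁻ p, ∫⁻ s, H (p + s • e) * a s * W p := by
          rw [lintegral_const_mul]
          exact hF1m.lintegral_prod_right'
  have s3 : ∫⁻ p, ∫⁻ s, H (p + s • e) * a s * W p = ∫⁻ s, ∫⁻ p, H (p + s • e) * a s * W p :=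
    lintegral_lintegral_swap hF1m.aemeasurable
  have s4 : ∀ s, ∫⁻ p, H (p + s • e) * a s * W p = ∫⁻ q, H q * a s * W (q - s • e) := by
    intro s
    have := lintegral_add_right_eq_self (μ := (volume : Measure TV)) (fun q => H q * a s * W (q - s • e)) (s • e)
    rw [← this]
    simp only [add_sub_cancel_right]
  have s5 : ∫⁻ s, ∫⁻ q, H q * a s * W (q - s • e) = ∫⁻ q, ∫⁻ s, H q * a s * W (q - s • e) :=
    lintegral_lintegral_swap hF2m.aemeasurable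
  set Φ : TV → ℝ≥0∞ := fun q => ENNReal.ofReal (Cφ * ρ * ((1 + tdx x (fun i => (q - z) i) / ρ) ^ (-8 : ℝ)
    * (1 + ‖(fun i => (q - z) i : Fin 3 → ℝ)‖ / r) ^ (-8 : ℝ))) with hΦ
  have s6 : ∀ q, ∫⁻ s, H q * a s * W (q - s • e) ≤ H q * Φ q := by
    intro q
    have h1 : ∫⁻ s, H q * a s * W (q - s • e) = H q * ∫⁻ s, a s * W (q - s • e) := by
      rw [← lintegral_const_mul]
      · simp only [mul_assoc]
      · exact ham.mul (hWm.comp (by fun_prop))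
    rw [h1]
    gcongr
    have h2 := hphi r hr x hx (q - z)
    refine le_trans (le_of_eq ?_) h2
    congr 1
    funext s
    simp only [ha, hW, tWt]
    congr 3
    · rw [sub_right_comm]
  have s9 : ∀ c : Fin 3 → ℤ, ∫⁻ q in tcube ρ c, H q * Φ q
      ≤ ENNReal.ofReal (Cφ * ρ * 6 ^ 8) * ((∫⁻ q in tcube ρ c, H q) * tgam ρ x (c - k)) := by
    intro c
    calc ∫⁻ q in tcube ρ c, H q * Φ q
        ≤ ∫⁻ q in tcube ρ c, H q * (ENNReal.ofReal (Cφ * ρ * 6 ^ 8) * tgam ρ x (c - k)) := by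
          refine setLIntegral_mono' (tri_cube_meas ρ c) fun q hq => ?_
          gcongr
          simp only [hΦ, tgam]
          rw [← ENNReal.ofReal_mul (by positivity)]
          apply ENNReal.ofReal_le_ofReal
          have := tri_disc_pt r hr x hx c k q hq
          calc Cφ * ρ * ((1 + tdx x (fun i => (q - z) i) / ρ) ^ (-8 : ℝ) * (1 + ‖(fun i => (q - z) i : Fin 3 → ℝ)‖ / r) ^ (-8 : ℝ))
              ≤ Cφ * ρ * (6 ^ 8 * ((1 + tdx x (fun i => ((c - k) i : ℝ))) ^ (-8 : ℝ) * (1 + ‖(fun i => ((c - k) i : ℝ))‖ / ρ) ^ (-8 : ℝ))) := by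
                gcongr
            _ = _ := by ring
      _ = (∫⁻ q in tcube ρ c, H q) * (ENNReal.ofReal (Cφ * ρ * 6 ^ 8) * tgam ρ x (c - k)) := by
          rw [lintegral_mul_const _ hH]
      _ = _ := by ring
  calc ∫⁻ p, H p * W p ≤ cA * ∫⁻ p, ∫⁻ s, H (p + s • e) * a s * W p := s1
    _ = cA * ∫⁻ q, ∫⁻ s, H q * a s * W (q - s • e) := by
        rw [s3, ← s5]
        congr 2
        funext s
        exact s4 s
    _ ≤ cA * ∫⁻ q, H q * Φ q := by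
        gcongr with q
        exact s6 q
    _ = cA * ∑' c : Fin 3 → ℤ, ∫⁻ q in tcube ρ c, H q * Φ q := by
        rw [tri_cube_partition ρ hρ0]
    _ ≤ cA * ∑' c : Fin 3 → ℤ, ENNReal.ofReal (Cφ * ρ * 6 ^ 8) * ((∫⁻ q in tcube ρ c, H q) * tgam ρ x (c - k)) := by
        gcongr with c
        exact s9 c
    _ = ENNReal.ofReal (6 ^ 8 * Cφ * A / ρ) * ∑' c : Fin 3 → ℤ, (∫⁻ p in tcube ρ c, H p) * tgam ρ x (c - k) := by
        rw [ENNReal.tsum_mul_left, ← mul_assoc, hcA, ← ENNReal.ofReal_mul (by positivity)]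
        congr 2
        rw [← hρ2]
        field_simp

theorem tri_kak_const (Cd Cm A r ε : ℝ) (hCd : 0 ≤ Cd) (hCm : 0 ≤ Cm) (hA : 0 ≤ A) (hr : 1 ≤ r) (hε : 0 < ε) :
    (ENNReal.ofReal (Cd * A / √r) ^ (1 / 2 : ℝ)) ^ 3 * ENNReal.ofReal (Cm * √r ^ ε)
      ≤ ENNReal.ofReal (Cd ^ (3 / 2 : ℝ) * Cm * A ^ (3 / 2 : ℝ) * r ^ ε * r ^ (-(3 / 4) : ℝ)) := by
  have hr0 : 0 < r := by linarith
  have hρ1 : 1 ≤ √r := Real.one_le_sqrt.2 hr
  have hρ0 : 0 < √r := by linarith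
  have hρr : √r ≤ r := by
    have := Real.mul_self_sqrt hr0.le
    nlinarith
  have h0 : 0 ≤ Cd * A / √r := by positivity
  rw [ENNReal.ofReal_rpow_of_nonneg h0 (by norm_num), ← ENNReal.ofReal_pow (by positivity),
    ← ENNReal.ofReal_mul (by positivity)]
  apply ENNReal.ofReal_le_ofReal
  have e1 : ((Cd * A / √r) ^ (1 / 2 : ℝ)) ^ 3 = Cd ^ (3 / 2 : ℝ) * A ^ (3 / 2 : ℝ) * r ^ (-(3 / 4) : ℝ) := by
    rw [← Real.rpow_natCast, ← Real.rpow_mul h0, Real.div_rpow (by positivity) hρ0.le, Real.mul_rpow hCd hA,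
      Real.sqrt_eq_rpow, ← Real.rpow_mul hr0.le, Real.rpow_neg hr0.le, div_eq_mul_inv]
    norm_num
  have e2 : √r ^ ε ≤ r ^ ε := Real.rpow_le_rpow hρ0.le hρr hε.le
  rw [e1]
  calc Cd ^ (3 / 2 : ℝ) * A ^ (3 / 2 : ℝ) * r ^ (-(3 / 4) : ℝ) * (Cm * √r ^ ε)
      ≤ Cd ^ (3 / 2 : ℝ) * A ^ (3 / 2 : ℝ) * r ^ (-(3 / 4) : ℝ) * (Cm * r ^ ε) := by gcongr
    _ = _ := by ring

/-- **LEAF L-256-TRI-KAK (glue): the Kakeya input of the induction on scales.**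
PLAN.  `w i x c = ∫⁻ p in tcube (√r) c, H i x p` (finite: `H ≤ B`, `tri_cube_finite`).   `tri_disc` in each factor, `Finset.mul_sum`, `ENNReal.mul_rpow_of_nonneg`: factor `(C_d A/√r)^{3/2} = C_d^{3/2} A^{3/2} r^{-3/4}`.
`tri_mkconv ν ε` with `L = √r`, `L^ε ≤ r^ε`.   `∑' c w i x c = ∫⁻ H i x` (`tri_cube_partition`). -/
theorem tri_kak (ν ε : ℝ) (hν : 0 < ν) (hν1 : ν ≤ 1) (hε : 0 < ε) : ∃ C : ℝ, 0 ≤ C ∧ ∀ r : ℝ, 1 ≤ r → ∀ A : ℝ, 0 ≤ A →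
    ∀ X : Fin 3 → Finset ℝ, (∀ i, ∀ x ∈ X i, |x| ≤ 1) → TSep ν X →
    ∀ H : Fin 3 → ℝ → TV → ℝ≥0∞, (∀ i, ∀ x ∈ X i, Measurable (H i x)) → (∀ i, ∀ x ∈ X i, ∃ B : ℝ, ∀ p, H i x p ≤ ENNReal.ofReal B) →
    (∀ i, ∀ x ∈ X i, ∀ p, H i x p ≤ ENNReal.ofReal (A / r) * ∫⁻ s : ℝ, H i x (p + s • tdir x) * ENNReal.ofReal ((1 + |s| / r) ^ (-10 : ℝ))) →
    ∑' k : Fin 3 → ℤ, ∏ i, (∑ x ∈ X i, ∫⁻ p, H i x p * tWt 40 (√r) (tlat (√r) k) p) ^ (1 / 2 : ℝ)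
      ≤ ENNReal.ofReal (C * A ^ (3 / 2 : ℝ) * r ^ ε * r ^ (-(3 / 4) : ℝ)) * ∏ i, (∑ x ∈ X i, ∫⁻ p, H i x p) ^ (1 / 2 : ℝ) := by
  obtain ⟨Cd, hCd, hd⟩ := tri_disc
  obtain ⟨Cm, hCm, hm⟩ := tri_mkconv ν ε hν hν1 hε
  refine ⟨Cd ^ (3 / 2 : ℝ) * Cm, by positivity, fun r hr A hA X hX hS H hHm hHb hLD => ?_⟩
  have hr0 : 0 < r := by linarith
  have hρ1 : 1 ≤ √r := Real.one_le_sqrt.2 hr
  have hρ0 : 0 < √r := by linarith
  obtain ⟨w, hw⟩ : ∃ w : Fin 3 → ℝ → (Fin 3 → ℤ) → ℝ≥0∞, w = fun i x c => ∫⁻ p in tcube (√r) c, H i x p := ⟨_, rfl⟩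
  have hwfin : ∀ i, ∀ x ∈ X i, ∀ c, w i x c ≠ ∞ := by
    intro i x hx c
    obtain ⟨B, hB⟩ := hHb i x hx
    have : w i x c ≤ ENNReal.ofReal B * volume (tcube (√r) c) := by
      rw [hw]
      refine (lintegral_mono (fun p => hB p)).trans ?_
      simp
    exact ne_top_of_le_ne_top (ENNReal.mul_ne_top ENNReal.ofReal_ne_top (tri_cube_finite _ _)) this
  have hwsum : ∀ i x, ∑' c, w i x c = ∫⁻ p, H i x p := by
    intro i x
    rw [hw]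
    exact (tri_cube_partition (√r) hρ0 (H i x)).symm
  have hmk := hm (√r) hρ1 X hX hS w hwfin
  simp only [hwsum] at hmk
  obtain ⟨K, hK⟩ : ∃ K : ℝ≥0∞, K = ENNReal.ofReal (Cd * A / √r) := ⟨_, rfl⟩
  have h1 : ∀ (k : Fin 3 → ℤ) (i : Fin 3), (∑ x ∈ X i, ∫⁻ p, H i x p * tWt 40 (√r) (tlat (√r) k) p) ^ (1 / 2 : ℝ)
      ≤ K ^ (1 / 2 : ℝ) * (∑ x ∈ X i, ∑' c : Fin 3 → ℤ, w i x c * tgam (√r) x (c - k)) ^ (1 / 2 : ℝ) := by
    intro k i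
    rw [← ENNReal.mul_rpow_of_nonneg _ _ (by norm_num), Finset.mul_sum]
    refine ENNReal.rpow_le_rpow (Finset.sum_le_sum fun x hx => ?_) (by norm_num)
    have := hd r hr A hA x (hX i x hx) (H i x) (hHm i x hx) (hLD i x hx) k
    rw [hK, hw]
    exact this
  calc ∑' k : Fin 3 → ℤ, ∏ i, (∑ x ∈ X i, ∫⁻ p, H i x p * tWt 40 (√r) (tlat (√r) k) p) ^ (1 / 2 : ℝ)
      ≤ ∑' k : Fin 3 → ℤ, (K ^ (1 / 2 : ℝ)) ^ 3 * ∏ i, (∑ x ∈ X i, ∑' c : Fin 3 → ℤ, w i x c * tgam (√r) x (c - k)) ^ (1 / 2 : ℝ) := by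
        refine ENNReal.tsum_le_tsum fun k => ?_
        refine (Finset.prod_le_prod' fun i _ => h1 k i).trans (le_of_eq ?_)
        rw [Finset.prod_mul_distrib]
        simp
    _ = (K ^ (1 / 2 : ℝ)) ^ 3 * ∑' k : Fin 3 → ℤ, ∏ i, (∑ x ∈ X i, ∑' c : Fin 3 → ℤ, w i x c * tgam (√r) x (c - k)) ^ (1 / 2 : ℝ) :=
        ENNReal.tsum_mul_left
    _ ≤ (K ^ (1 / 2 : ℝ)) ^ 3 * (ENNReal.ofReal (Cm * √r ^ ε) * ∏ i, (∑ x ∈ X i, ∫⁻ p, H i x p) ^ (1 / 2 : ℝ)) := by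
        gcongr
    _ = ((K ^ (1 / 2 : ℝ)) ^ 3 * ENNReal.ofReal (Cm * √r ^ ε)) * ∏ i, (∑ x ∈ X i, ∫⁻ p, H i x p) ^ (1 / 2 : ℝ) := by
        rw [mul_assoc]
    _ ≤ _ := by
        rw [hK]
        gcongr
        exact tri_kak_const Cd Cm A r ε hCd hCm hA hr hε

end Claimed.Agent.R256
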