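-- KEEP
import Mathlib

/-!
# Row 256, BOX E3 (replaces Guth-Wang-Zhang Thm 1.3), file 1: DEFINITIONS            (architect helper213; prefix `tri_`, defs `t..`/`T..`)
PAPER-FREE, Mathlib + `R252/Mlk` only.   What 08-round-entropy.tex l.440-523 consumes is the `L^3` sup-density estimate `tri_env` (file `Env.lean`):
   `∫ |∑_x F_x|^3 ≤ C r^ε K^{1/2} ∑_x ∫ |F_x|^2`,   `K` = largest density of `∑_{|x-x0| ≤ R} |F_x|^2` on the wave-envelope tiles `r × rR × rR²`.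
CHAIN:   multilinear Kakeya (`R252.mlk_main`, proved)  →  `tri_mkconv` (lattice form with tails)  →  `tri_kak`  →  `tri_step : TRc ν (√r) 5 M → TRc ν r m (C r^ε M)`  →  `tri_TR` (trilinear restriction)
         →  `tri_env_step` (pointwise broad/narrow + exact Lorentz rescaling)  →  `tri_env`.
NORMALISATION: frequency `~ 1`, thickness `1/r`, physical scale `r`.   `TV = ℝ³`: physical points `p = (t, b, y)`, frequencies `ω = (τ, ξ, ζ)`.
The cone is `τ = ξ²/(4ζ)`; the ray of angular parameter `x = -ξ/(2ζ)` has direction `tdir x = (1, x, x²)`;   `tl0 x ω = ⟪tdir x, ω⟫`, `tl1 x ω = ξ + 2xζ`;  on the cone `tl0 = tl1²/(4ζ)`.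
NO FOURIER PROJECTION IS EVER APPLIED: the pieces `F x` are GIVEN (family form).   `TFS S F` : `F` is the inverse Fourier integral of an integrable function vanishing off `S` (only Fubini is ever needed).
All definitions are FROZEN.
-/

set_option autoImplicit false

namespace Claimed.Agent.R256

open MeasureTheory
open scoped FourierTransform ENNReal BigOperators

/-- `ℝ³` -/
abbrev TV : Type := EuclideanSpace ℝ (Fin 3)

/-- the vector with the given coordinates -/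
noncomputable def tvec (a b c : ℝ) : TV := !₂[a, b, c]

/-- direction of the light ray with angular parameter `x` -/
noncomputable def tdir (x : ℝ) : TV := tvec 1 x (x ^ 2)

/-- `⟪tdir x, ω⟫` -/
def tl0 (x : ℝ) (ω : TV) : ℝ := ω 0 + x * ω 1 + x ^ 2 * ω 2

/-- the angular functional -/
def tl1 (x : ℝ) (ω : TV) : ℝ := ω 1 + 2 * x * ω 2

/-- plank with explicit widths -/
def tPl (x a b z0 z1 : ℝ) : Set TV := {ω | |tl0 x ω| ≤ a ∧ |tl1 x ω| ≤ b ∧ z0 ≤ ω 2 ∧ ω 2 ≤ z1}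

/-- the plank of angular parameter `x` at scale `r` -/
noncomputable def tPlank (x r : ℝ) : Set TV := tPl x (2 / r) (4 / √r) (1 - 1 / √r) (2 + 1 / √r)

/-- Fourier support in `S` -/
def TFS (S : Set TV) (F : TV → ℂ) : Prop := ∃ g : TV → ℂ, Integrable g ∧ (∀ ω, ω ∉ S → g ω = 0) ∧ F = 𝓕⁻ g

/-- energy -/
noncomputable def tE (F : TV → ℂ) : ℝ≥0∞ := ∫⁻ p, ‖F p‖ₑ ^ 2

/-- a family of pieces at scale `r` with multiplicity `m` -/
structure TFam (r : ℝ) (m : ℕ) (X : Finset ℝ) (G : ℝ → TV → ℂ) : Prop where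
  bd : ∀ x ∈ X, |x| ≤ 1
  mult : ∀ y : ℝ, (X.filter fun x => |x - y| ≤ 1 / √r).card ≤ m
  fs : ∀ x ∈ X, TFS (tPlank x r) (G x)

/-- pairwise `ν`-separated triple of parameter sets -/
def TSep (ν : ℝ) (X : Fin 3 → Finset ℝ) : Prop := ∀ i j, i ≠ j → ∀ x ∈ X i, ∀ x' ∈ X j, ν ≤ |x - x'|

/-- **trilinear restriction at scale `r` with constant `M`** (global, family form) -/
def TRc (ν r : ℝ) (m : ℕ) (M : ℝ) : Prop :=
  ∀ (X : Fin 3 → Finset ℝ) (G : Fin 3 → ℝ → TV → ℂ), (∀ i, TFam r m (X i) (G i)) → TSep ν X →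
    ∫⁻ p, ∏ i, ‖∑ x ∈ X i, G i x p‖ₑ
      ≤ ENNReal.ofReal (M * r ^ (-(3 / 2) : ℝ)) * ∏ i, (∑ x ∈ X i, tE (G i x)) ^ (1 / 2 : ℝ)

/-- normalised coordinates of the tile `r × rR × rR²` of direction `x0` -/
noncomputable def tcoord (x0 r R : ℝ) (p : TV) : TV :=
  tvec (p 0 / r) ((p 1 - x0 * p 0) / (r * R)) ((p 2 - 2 * x0 * p 1 + x0 ^ 2 * p 0) / (r * R ^ 2))

/-- tile weight of order `N`, centre `c` -/
noncomputable def tW (N : ℕ) (x0 r R : ℝ) (c p : TV) : ℝ≥0∞ := ENNReal.ofReal ((1 + ‖tcoord x0 r R (p - c)‖) ^ (-(N : ℝ)))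

/-- the largest tile density -/
noncomputable def tK (N : ℕ) (r : ℝ) (X : Finset ℝ) (F : ℝ → TV → ℂ) : ℝ≥0∞ :=
  ⨆ (R : ℝ) (_ : 1 / √r ≤ R ∧ R ≤ 1) (x0 : ℝ) (c : TV),
    ENNReal.ofReal ((r ^ 3 * R ^ 3)⁻¹) * ∫⁻ p, tW N x0 r R c p * ∑ x ∈ X.filter (fun x => |x - x0| ≤ R), ‖F x p‖ₑ ^ 2

/-- **the `L^3` envelope estimate at scale `r` with constant `M`** -/
def ENVc (N : ℕ) (r : ℝ) (m : ℕ) (M : ℝ) : Prop :=
  ∀ (X : Finset ℝ) (F : ℝ → TV → ℂ), TFam r m X F →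
    ∫⁻ p, ‖∑ x ∈ X, F x p‖ₑ ^ 3 ≤ ENNReal.ofReal M * (tK N r X F) ^ (1 / 2 : ℝ) * ∑ x ∈ X, tE (F x)

/-- lattice point `ρ k` -/
noncomputable def tlat (ρ : ℝ) (k : Fin 3 → ℤ) : TV := tvec (ρ * k 0) (ρ * k 1) (ρ * k 2)

/-- isotropic weight of order `N` at scale `ρ`, centre `z` -/
noncomputable def tWt (N : ℕ) (ρ : ℝ) (z p : TV) : ℝ≥0∞ := ENNReal.ofReal ((1 + ‖p - z‖ / ρ) ^ (-(N : ℝ)))

/-- half-open cube of side `ρ` with corner `ρ c` -/
def tcube (ρ : ℝ) (c : Fin 3 → ℤ) : Set TV := {q | ∀ i, ρ * c i ≤ q i ∧ q i < ρ * (c i + 1)}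

/-- transverse distance to the line `ℝ (1, x, x²)` -/
def tdx (x : ℝ) (u : Fin 3 → ℝ) : ℝ := max |u 1 - x * u 0| |u 2 - x ^ 2 * u 0|

/-- the tube kernel on the lattice: decay `8` transversally (unit scale) and `8` at scale `L` -/
noncomputable def tgam (L x : ℝ) (u : Fin 3 → ℤ) : ℝ≥0∞ :=
  ENNReal.ofReal ((1 + tdx x (fun i => (u i : ℝ))) ^ (-8 : ℝ) * (1 + ‖(fun i => (u i : ℝ))‖ / L) ^ (-8 : ℝ))

/-- physical side of the Lorentz rescaling of the sector `[x0, x0 + 1/K]` -/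
noncomputable def tLorP (K x0 : ℝ) (p : TV) : TV :=
  tvec (K ^ 2 * p 0) (K ^ 2 * x0 * p 0 + K * p 1) (K ^ 2 * x0 ^ 2 * p 0 + 2 * x0 * K * p 1 + p 2)

/-- frequency side of the Lorentz rescaling: `⟪tLorP K x0 p, ω⟫ = ⟪p, tLorF K x0 ω⟫` -/
noncomputable def tLorF (K x0 : ℝ) (ω : TV) : TV := tvec (K ^ 2 * tl0 x0 ω) (K * tl1 x0 ω) (ω 2)

theorem tri_defs_eqns_cite : True := by
  have := @tvec.eq_1
  have := @tdir.eq_1
  have := @tl0.eq_1
  have := @tl1.eq_1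
  have := @tPl.eq_1
  have := @tPlank.eq_1
  have := @TFS.eq_1
  have := @tE.eq_1
  have := @TSep.eq_1
  have := @TRc.eq_1
  have := @tcoord.eq_1
  have := @tW.eq_1
  have := @tK.eq_1
  have := @ENVc.eq_1
  have := @tlat.eq_1
  have := @tWt.eq_1
  have := @tcube.eq_1
  have := @tdx.eq_1
  have := @tgam.eq_1
  have := @tLorP.eq_1
  have := @tLorF.eq_1
  trivial

end Claimed.Agent.R256
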