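import Claimed.Agent.R256.Tri.Step

/-!
# Row 256, BOX E3, file 6: THE `L^3` ENVELOPE ESTIMATE (broad/narrow + exact Lorentz rescaling)            (architect helper213)            CONTRACT
PAPER-FREE.   **EXIT: `tri_env (N m ε) : ∃ C, ∀ r ≥ 1, ENVc N r m (C r^ε)`.**
  `tri_bn`       : pointwise `(∑_{k<n} b_k)³ ≤ n⁶ ∑_{k₁+2 ≤ k₂, k₂+2 ≤ k₃} b b b + 128 ∑ b_k³`;
  `tri_broad`    : `TRc ν (r/2) (2m) MT` on the cubes of side `r` + the tile `R = 1` of `tK`;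
  `tri_narrow`   : a sector `[x0, x0 + 1/K]` is mapped by `tLorP K x0` onto a family at scale `r/K²`: planks to planks (`tri_lor_plank`), tiles `(x0', R')` to tiles `(x0 + x0'/K, R'/K)` (`tri_lor_coord`), all integrals scale by the SAME Jacobian `K³`;
  `tri_env_step` : `ENVc N (r/K0²) m M → TRc (1/K0) (r/2) (2m) MT → ENVc N r m (C K0⁹ MT + 128 M)`;
  `tri_env`      : choose `K0` with `128 K0^{-2ε} ≤ 1/2`; the recursion closes without accumulating constants.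
Every `sorry` is a leaf `L-256-TRI-*`.   Statements FROZEN; auxiliary lemmas directly above your theorem, prefix `tri_`; edit only your block.
-/

set_option autoImplicit false

namespace Claimed.Agent.R256

open MeasureTheory
open scoped ENNReal BigOperators InnerProductSpace

/-- **LEAF L-256-TRI-ENVAPI (1).** -/
theorem ENVc.mono {N : ℕ} {r : ℝ} {m : ℕ} {M M' : ℝ} (h : ENVc N r m M) (hM : M ≤ M') : ENVc N r m M' := by
  intro X F hF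
  refine (h X F hF).trans ?_
  gcongr

/-- **LEAF L-256-TRI-ENVAPI (2).**  `iSup` monotone, `Finset.sum_le_sum_of_subset` (`Finset.filter_subset_filter`). -/
theorem tri_K_mono (N : ℕ) (r : ℝ) {X Y : Finset ℝ} (h : Y ⊆ X) (F : ℝ → TV → ℂ) : tK N r Y F ≤ tK N r X F := by
  unfold tK
  refine iSup_mono fun R => iSup_mono fun hR => iSup_mono fun x0 => iSup_mono fun c => ?_
  gcongr with p

theorem tri_coord_ball (r : ℝ) (q : TV) : tcoord 0 r 1 q = r⁻¹ • q := by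
  unfold tcoord tvec
  ext i
  fin_cases i <;> simp [div_eq_inv_mul]

theorem tri_W_ball (N : ℕ) (r : ℝ) (hr : 0 < r) (c p : TV) : tW N 0 r 1 c p = tWt N r c p := by
  unfold tW tWt
  rw [tri_coord_ball, norm_smul, Real.norm_eq_abs, abs_of_pos (inv_pos.mpr hr), div_eq_inv_mul]

/-- **LEAF L-256-TRI-ENVAPI (3): the tile `R = 1`, `x0 = 0` is the ball of radius `r`.**  `tcoord 0 r 1 q = r⁻¹ • q`, so `tW N 0 r 1 c p = tWt N r c p`;  `le_iSup` four times;  the filter `|x - 0| ≤ 1` is everything (`hF.bd`). -/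
theorem tri_K_ball (N : ℕ) (r : ℝ) (hr : 1 ≤ r) (m : ℕ) (X : Finset ℝ) (F : ℝ → TV → ℂ) (hF : TFam r m X F) (c : TV) :
    ∑ x ∈ X, ∫⁻ p, ‖F x p‖ₑ ^ 2 * tWt N r c p ≤ ENNReal.ofReal (r ^ 3) * tK N r X F := by
  have hr0 : 0 < r := by linarith
  have hs : 1 / √r ≤ 1 := by
    rw [div_le_one (Real.sqrt_pos.mpr hr0)]
    exact Real.one_le_sqrt.mpr hr
  have h1 : ENNReal.ofReal ((r ^ 3 * (1 : ℝ) ^ 3)⁻¹) * ∫⁻ p, tW N 0 r 1 c p * ∑ x ∈ X.filter (fun x => |x - 0| ≤ 1), ‖F x p‖ₑ ^ 2 ≤ tK N r X F := by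
    unfold tK
    exact le_iSup_of_le 1 (le_iSup_of_le ⟨hs, le_rfl⟩ (le_iSup_of_le 0 (le_iSup_of_le c le_rfl)))
  have hfil : X.filter (fun x => |x - 0| ≤ 1) = X := by
    apply Finset.filter_true_of_mem
    intro x hx
    simpa using hF.bd x hx
  rw [hfil] at h1
  have h2 : ∑ x ∈ X, ∫⁻ p, ‖F x p‖ₑ ^ 2 * tWt N r c p = ∫⁻ p, tW N 0 r 1 c p * ∑ x ∈ X, ‖F x p‖ₑ ^ 2 := by
    rw [← lintegral_finsetSum']
    · refine lintegral_congr fun p => ?_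
      rw [Finset.mul_sum, tri_W_ball N r hr0]
      exact Finset.sum_congr rfl fun x _ => mul_comm _ _
    · intro x hx
      have hc : Continuous (F x) := (hF.fs x hx).continuous
      have hw : Continuous fun p : TV => (1 + ‖p - c‖ / r) ^ (-(N : ℝ)) := by
        refine Continuous.rpow_const (by fun_prop) fun p => Or.inl ?_
        have : 0 ≤ ‖p - c‖ / r := by positivity
        linarith
      unfold tWt
      exact ((hc.enorm.measurable.pow_const 2).mul (ENNReal.continuous_ofReal.comp hw).measurable).aemeasurable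
  rw [h2]
  calc ∫⁻ p, tW N 0 r 1 c p * ∑ x ∈ X, ‖F x p‖ₑ ^ 2
      = ENNReal.ofReal (r ^ 3) * (ENNReal.ofReal ((r ^ 3 * (1 : ℝ) ^ 3)⁻¹) * ∫⁻ p, tW N 0 r 1 c p * ∑ x ∈ X, ‖F x p‖ₑ ^ 2) := by
        rw [← mul_assoc, ← ENNReal.ofReal_mul (by positivity)]
        have : r ^ 3 * (r ^ 3 * (1 : ℝ) ^ 3)⁻¹ = 1 := by field_simp
        rw [this, ENNReal.ofReal_one, one_mul]
    _ ≤ ENNReal.ofReal (r ^ 3) * tK N r X F := by gcongr

theorem tri_bn_card (S : Finset ℕ) (h : ∀ k1 ∈ S, ∀ k2 ∈ S, ∀ k3 ∈ S, k1 + 2 ≤ k2 → k2 + 2 ≤ k3 → False) : S.card ≤ 4 := by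
  by_cases h1 : S.Nonempty
  · obtain ⟨k1, hk1, hmin1⟩ : ∃ k1 ∈ S, ∀ k ∈ S, k1 ≤ k := ⟨S.min' h1, S.min'_mem h1, fun k hk => S.min'_le k hk⟩
    by_cases h2 : (S.filter fun k => k1 + 2 ≤ k).Nonempty
    · obtain ⟨k2, hk2, hmin2⟩ : ∃ k2 ∈ S.filter (fun k => k1 + 2 ≤ k), ∀ k ∈ S.filter (fun k => k1 + 2 ≤ k), k2 ≤ k :=
        ⟨_, Finset.min'_mem _ h2, fun k hk => Finset.min'_le _ k hk⟩
      rw [Finset.mem_filter] at hk2
      have hsub : S ⊆ {k1, k1 + 1, k2, k2 + 1} := by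
        intro k hk
        have h3 := hmin1 k hk
        simp only [Finset.mem_insert, Finset.mem_singleton]
        by_cases h4 : k1 + 2 ≤ k
        · have h5 := hmin2 k (Finset.mem_filter.2 ⟨hk, h4⟩)
          by_cases h6 : k2 + 2 ≤ k
          · exact (h k1 hk1 k2 hk2.1 k hk hk2.2 h6).elim
          · omega
        · omega
      exact (Finset.card_le_card hsub).trans Finset.card_le_four
    · have hsub : S ⊆ {k1, k1 + 1} := by
        intro k hk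
        have h3 := hmin1 k hk
        simp only [Finset.mem_insert, Finset.mem_singleton]
        by_cases h4 : k1 + 2 ≤ k
        · exact (h2 ⟨k, Finset.mem_filter.2 ⟨hk, h4⟩⟩).elim
        · omega
      exact (Finset.card_le_card hsub).trans (Finset.card_le_two.trans (by norm_num))
  · rw [Finset.not_nonempty_iff_eq_empty] at h1
    simp [h1]

/-- **LEAF L-256-TRI-BN: broad/narrow, pointwise.**
PLAN.  Some `b k = ∞`: RHS `= ∞`.   Else real numbers.  `n ≤ 1` trivial.  `T = ∑ b`, `Sig = {k < n : T / n² ≤ b k}`.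
(i) `Sig` contains `k₁ + 2 ≤ k₂`, `k₂ + 2 ≤ k₃`: `T³ ≤ n⁶ b k₁ b k₂ b k₃` (`Finset.single_le_sum`).
(ii) otherwise `Sig ⊆ {k₁, k₁+1, k₂, k₂+1}` (`k₁ = min Sig`, `k₂ = min {k ∈ Sig : k₁ + 2 ≤ k}`), `T ≤ ∑_{Sig} b + n · T/n²`, so `T ≤ 2 ∑_{Sig} b` (`n ≥ 2`), `(∑ of ≤ 4 terms)³ ≤ 16 ∑ b³` (`inner_le_nnorm_mul_nnorm`-free: `pow_arith_mean_le_arith_mean_pow` / `Finset.sum_pow_le..` `inner_le..`; or by hand), `T³ ≤ 128 ∑ b³`. -/
theorem tri_bn (n : ℕ) (b : ℕ → ℝ≥0∞) :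
    (∑ k ∈ Finset.range n, b k) ^ 3
      ≤ (n : ℝ≥0∞) ^ 6 * ∑ t ∈ (Finset.range n ×ˢ Finset.range n ×ˢ Finset.range n).filter (fun t => t.1 + 2 ≤ t.2.1 ∧ t.2.1 + 2 ≤ t.2.2),
          b t.1 * b t.2.1 * b t.2.2
        + 128 * ∑ k ∈ Finset.range n, b k ^ 3 := by
  obtain ⟨T, hT⟩ : ∃ T : ℝ≥0∞, T = ∑ k ∈ Finset.range n, b k := ⟨_, rfl⟩
  rw [← hT]
  -- small `n`
  rcases Nat.lt_or_ge n 2 with hn | hn
  · refine le_trans ?_ le_add_self
    interval_cases n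
    · simp [hT]
    · simp only [Finset.range_one, Finset.sum_singleton] at hT ⊢
      rw [hT]
      calc b 0 ^ 3 = 1 * b 0 ^ 3 := (one_mul _).symm
        _ ≤ 128 * b 0 ^ 3 := by gcongr; norm_num
  -- `T = ∞`
  by_cases hTtop : T = ∞
  · rw [hT, ENNReal.sum_eq_top] at hTtop
    obtain ⟨k, hk, hbk⟩ := hTtop
    refine le_trans le_top (le_trans (le_of_eq ?_) le_add_self)
    symm
    refine ENNReal.mul_eq_top.2 (Or.inl ⟨by norm_num, ?_⟩)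
    rw [ENNReal.sum_eq_top]
    exact ⟨k, hk, by rw [hbk]; simp⟩
  have hn0 : (n : ℝ≥0∞) ≠ 0 := by
    have : n ≠ 0 := by omega
    exact_mod_cast this
  have hntop : (n : ℝ≥0∞) ≠ ∞ := ENNReal.natCast_ne_top n
  obtain ⟨S, hS⟩ : ∃ S : Finset ℕ, S = (Finset.range n).filter fun k => T ≤ (n : ℝ≥0∞) ^ 2 * b k := ⟨_, rfl⟩
  have hSmem : ∀ k, k ∈ S ↔ k < n ∧ T ≤ (n : ℝ≥0∞) ^ 2 * b k := fun k => by rw [hS, Finset.mem_filter, Finset.mem_range]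
  by_cases hcase : ∃ k1 ∈ S, ∃ k2 ∈ S, ∃ k3 ∈ S, k1 + 2 ≤ k2 ∧ k2 + 2 ≤ k3
  · obtain ⟨k1, h1, k2, h2, k3, h3, h12, h23⟩ := hcase
    rw [hSmem] at h1 h2 h3
    refine le_trans ?_ le_self_add
    calc T ^ 3 = T * T * T := by ring
      _ ≤ ((n : ℝ≥0∞) ^ 2 * b k1) * ((n : ℝ≥0∞) ^ 2 * b k2) * ((n : ℝ≥0∞) ^ 2 * b k3) := mul_le_mul' (mul_le_mul' h1.2 h2.2) h3.2
      _ = (n : ℝ≥0∞) ^ 6 * (b k1 * b k2 * b k3) := by ring
      _ ≤ _ := by
        refine mul_le_mul' le_rfl ?_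
        refine Finset.single_le_sum (f := fun t : ℕ × ℕ × ℕ => b t.1 * b t.2.1 * b t.2.2) (fun _ _ => zero_le) (a := (k1, k2, k3)) ?_
        simp only [Finset.mem_filter, Finset.mem_product, Finset.mem_range]
        exact ⟨⟨h1.1, h2.1, h3.1⟩, h12, h23⟩
  · have hcard : S.card ≤ 4 := tri_bn_card S fun k1 h1 k2 h2 k3 h3 h12 h23 => hcase ⟨k1, h1, k2, h2, k3, h3, h12, h23⟩
    refine le_trans ?_ le_add_self
    obtain ⟨S1, hS1⟩ : ∃ S1 : ℝ≥0∞, S1 = ∑ k ∈ S, b k := ⟨_, rfl⟩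
    obtain ⟨S2, hS2⟩ : ∃ S2 : ℝ≥0∞, S2 = ∑ k ∈ (Finset.range n).filter (fun k => ¬ T ≤ (n : ℝ≥0∞) ^ 2 * b k), b k := ⟨_, rfl⟩
    have hsplit : T = S1 + S2 := by
      rw [hS1, hS2, hS, Finset.sum_filter_add_sum_filter_not]
      exact hT
    have h2 : (n : ℝ≥0∞) ^ 2 * S2 ≤ n * T := by
      rw [hS2, Finset.mul_sum]
      calc ∑ k ∈ (Finset.range n).filter (fun k => ¬ T ≤ (n : ℝ≥0∞) ^ 2 * b k), (n : ℝ≥0∞) ^ 2 * b k
          ≤ ∑ _k ∈ (Finset.range n).filter (fun k => ¬ T ≤ (n : ℝ≥0∞) ^ 2 * b k), T :=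
            Finset.sum_le_sum fun k hk => (not_le.1 (Finset.mem_filter.1 hk).2).le
        _ = (((Finset.range n).filter (fun k => ¬ T ≤ (n : ℝ≥0∞) ^ 2 * b k)).card : ℝ≥0∞) * T := by rw [Finset.sum_const, nsmul_eq_mul]
        _ ≤ n * T := by
            refine mul_le_mul' ?_ le_rfl
            have := Finset.card_filter_le (Finset.range n) (fun k => ¬ T ≤ (n : ℝ≥0∞) ^ 2 * b k)
            rw [Finset.card_range] at this
            exact_mod_cast this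
    have h3 : (n : ℝ≥0∞) * S2 ≤ T := by
      have h4 : (n : ℝ≥0∞) * (n * S2) ≤ n * T := by
        rw [← mul_assoc, ← sq]
        exact h2
      exact (ENNReal.mul_le_mul_iff_right hn0 hntop).1 h4
    have h5 : 2 * S2 ≤ S1 + S2 := by
      rw [← hsplit]
      refine le_trans (mul_le_mul' ?_ le_rfl) h3
      exact_mod_cast hn
    have hS2top : S2 ≠ ∞ := fun h => hTtop (by rw [hsplit, h]; simp)
    have h6 : S2 ≤ S1 := by
      rw [two_mul] at h5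
      exact (ENNReal.add_le_add_iff_right hS2top).1 h5
    have h7 : T ≤ 2 * S1 := by
      rw [hsplit, two_mul]
      gcongr
    have h8 : S1 ^ 3 ≤ 16 * ∑ k ∈ Finset.range n, b k ^ 3 := by
      have h9 := ENNReal.rpow_sum_le_const_mul_sum_rpow S b (p := 3) (by norm_num)
      have e1 : ((3 : ℝ) - 1) = ((2 : ℕ) : ℝ) := by norm_num
      have e2 : (3 : ℝ) = ((3 : ℕ) : ℝ) := by norm_num
      rw [e1, ENNReal.rpow_natCast] at h9
      simp only [e2, ENNReal.rpow_natCast] at h9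
      rw [hS1]
      refine h9.trans (mul_le_mul' ?_ ?_)
      · calc (S.card : ℝ≥0∞) ^ 2 ≤ (4 : ℝ≥0∞) ^ 2 := by
              gcongr
              exact_mod_cast hcard
          _ = 16 := by norm_num
      · refine Finset.sum_le_sum_of_subset ?_
        rw [hS]
        exact Finset.filter_subset _ _
    calc T ^ 3 ≤ (2 * S1) ^ 3 := by gcongr
      _ = 8 * S1 ^ 3 := by ring
      _ ≤ 8 * (16 * ∑ k ∈ Finset.range n, b k ^ 3) := by gcongr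
      _ = _ := by
          rw [← mul_assoc]
          norm_num

/-- extensionality in coordinates -/
theorem tri_ext3 (p q : TV) (h0 : p 0 = q 0) (h1 : p 1 = q 1) (h2 : p 2 = q 2) : p = q := by
  ext i
  fin_cases i
  · exact h0
  · exact h1
  · exact h2

theorem tri_lorP_apply (K x0 : ℝ) (p : TV) : tLorP K x0 p 0 = K ^ 2 * p 0 ∧ tLorP K x0 p 1 = K ^ 2 * x0 * p 0 + K * p 1 ∧
    tLorP K x0 p 2 = K ^ 2 * x0 ^ 2 * p 0 + 2 * x0 * K * p 1 + p 2 := tri_tvec_apply _ _ _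

theorem tri_lorF_apply (K x0 : ℝ) (ω : TV) : tLorF K x0 ω 0 = K ^ 2 * tl0 x0 ω ∧ tLorF K x0 ω 1 = K * tl1 x0 ω ∧
    tLorF K x0 ω 2 = ω 2 := tri_tvec_apply _ _ _

/-- the physical Lorentz map as an equivalence -/
theorem tri_lorP_equiv (K x0 : ℝ) (hK : 0 < K) : ∃ A : TV ≃L[ℝ] TV, ∀ p, A p = tLorP K x0 p := by
  have hK' : K ≠ 0 := hK.ne'
  refine ⟨LinearEquiv.toContinuousLinearEquiv
    { toFun := tLorP K x0
      map_add' := ?_
      map_smul' := ?_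
      invFun := fun q => tvec (q 0 / K ^ 2) ((q 1 - x0 * q 0) / K) (q 2 - 2 * x0 * q 1 + x0 ^ 2 * q 0)
      left_inv := ?_
      right_inv := ?_ }, fun p => rfl⟩
  · intro p q
    obtain ⟨a0, a1, a2⟩ := tri_lorP_apply K x0 (p + q)
    obtain ⟨b0, b1, b2⟩ := tri_lorP_apply K x0 p
    obtain ⟨c0, c1, c2⟩ := tri_lorP_apply K x0 q
    apply tri_ext3
    · rw [PiLp.add_apply, a0, b0, c0, PiLp.add_apply]; ring
    · rw [PiLp.add_apply, a1, b1, c1, PiLp.add_apply, PiLp.add_apply]; ring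
    · rw [PiLp.add_apply, a2, b2, c2, PiLp.add_apply, PiLp.add_apply, PiLp.add_apply]; ring
  · intro s p
    obtain ⟨a0, a1, a2⟩ := tri_lorP_apply K x0 (s • p)
    obtain ⟨b0, b1, b2⟩ := tri_lorP_apply K x0 p
    apply tri_ext3
    · rw [RingHom.id_apply, PiLp.smul_apply, a0, b0, PiLp.smul_apply, smul_eq_mul, smul_eq_mul]; ring
    · rw [RingHom.id_apply, PiLp.smul_apply, a1, b1, PiLp.smul_apply, PiLp.smul_apply, smul_eq_mul, smul_eq_mul, smul_eq_mul]; ring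
    · rw [RingHom.id_apply, PiLp.smul_apply, a2, b2, PiLp.smul_apply, PiLp.smul_apply, PiLp.smul_apply, smul_eq_mul, smul_eq_mul,
        smul_eq_mul, smul_eq_mul]; ring
  · intro p
    obtain ⟨b0, b1, b2⟩ := tri_lorP_apply K x0 p
    obtain ⟨t0, t1, t2⟩ := tri_tvec_apply (tLorP K x0 p 0 / K ^ 2) ((tLorP K x0 p 1 - x0 * tLorP K x0 p 0) / K)
      (tLorP K x0 p 2 - 2 * x0 * tLorP K x0 p 1 + x0 ^ 2 * tLorP K x0 p 0)
    apply tri_ext3
    · rw [t0, b0]; field_simp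
    · rw [t1, b0, b1]; field_simp; ring
    · rw [t2, b0, b1, b2]; ring
  · intro q
    obtain ⟨b0, b1, b2⟩ := tri_lorP_apply K x0 (tvec (q 0 / K ^ 2) ((q 1 - x0 * q 0) / K) (q 2 - 2 * x0 * q 1 + x0 ^ 2 * q 0))
    obtain ⟨t0, t1, t2⟩ := tri_tvec_apply (q 0 / K ^ 2) ((q 1 - x0 * q 0) / K) (q 2 - 2 * x0 * q 1 + x0 ^ 2 * q 0)
    apply tri_ext3
    · rw [b0, t0]; field_simp
    · rw [b1, t0, t1]; field_simp; ring
    · rw [b2, t0, t1, t2]; field_simp; ring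

/-- the frequency Lorentz map as an equivalence -/
theorem tri_lorF_equiv (K x0 : ℝ) (hK : 0 < K) : ∃ L : TV ≃L[ℝ] TV, ∀ ω, L ω = tLorF K x0 ω := by
  have hK' : K ≠ 0 := hK.ne'
  refine ⟨LinearEquiv.toContinuousLinearEquiv
    { toFun := tLorF K x0
      map_add' := ?_
      map_smul' := ?_
      invFun := fun σ => tvec (σ 0 / K ^ 2 - x0 * (σ 1 / K - 2 * x0 * σ 2) - x0 ^ 2 * σ 2) (σ 1 / K - 2 * x0 * σ 2) (σ 2)
      left_inv := ?_
      right_inv := ?_ }, fun p => rfl⟩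
  · intro p q
    obtain ⟨a0, a1, a2⟩ := tri_lorF_apply K x0 (p + q)
    obtain ⟨b0, b1, b2⟩ := tri_lorF_apply K x0 p
    obtain ⟨c0, c1, c2⟩ := tri_lorF_apply K x0 q
    apply tri_ext3
    · rw [PiLp.add_apply, a0, b0, c0, tri_l0_add]; ring
    · rw [PiLp.add_apply, a1, b1, c1, tri_l1_add]; ring
    · rw [PiLp.add_apply, a2, b2, c2, PiLp.add_apply]
  · intro s p
    obtain ⟨a0, a1, a2⟩ := tri_lorF_apply K x0 (s • p)
    obtain ⟨b0, b1, b2⟩ := tri_lorF_apply K x0 p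
    apply tri_ext3
    · rw [RingHom.id_apply, PiLp.smul_apply, a0, b0, smul_eq_mul]
      unfold tl0
      rw [PiLp.smul_apply, PiLp.smul_apply, PiLp.smul_apply, smul_eq_mul, smul_eq_mul, smul_eq_mul]; ring
    · rw [RingHom.id_apply, PiLp.smul_apply, a1, b1, smul_eq_mul]
      unfold tl1
      rw [PiLp.smul_apply, PiLp.smul_apply, smul_eq_mul, smul_eq_mul]; ring
    · rw [RingHom.id_apply, PiLp.smul_apply, a2, b2, PiLp.smul_apply]
  · intro p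
    obtain ⟨b0, b1, b2⟩ := tri_lorF_apply K x0 p
    obtain ⟨t0, t1, t2⟩ := tri_tvec_apply (tLorF K x0 p 0 / K ^ 2 - x0 * (tLorF K x0 p 1 / K - 2 * x0 * tLorF K x0 p 2) - x0 ^ 2 * tLorF K x0 p 2)
      (tLorF K x0 p 1 / K - 2 * x0 * tLorF K x0 p 2) (tLorF K x0 p 2)
    apply tri_ext3
    · rw [t0, b0, b1, b2]; unfold tl0 tl1; field_simp; ring
    · rw [t1, b1, b2]; unfold tl1; field_simp; ring
    · rw [t2, b2]
  · intro σ
    obtain ⟨b0, b1, b2⟩ := tri_lorF_apply K x0 (tvec (σ 0 / K ^ 2 - x0 * (σ 1 / K - 2 * x0 * σ 2) - x0 ^ 2 * σ 2) (σ 1 / K - 2 * x0 * σ 2) (σ 2))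
    obtain ⟨t0, t1, t2⟩ := tri_tvec_apply (σ 0 / K ^ 2 - x0 * (σ 1 / K - 2 * x0 * σ 2) - x0 ^ 2 * σ 2) (σ 1 / K - 2 * x0 * σ 2) (σ 2)
    apply tri_ext3
    · rw [b0]; unfold tl0; rw [t0, t1, t2]; field_simp; ring
    · rw [b1]; unfold tl1; rw [t1, t2]; field_simp; ring
    · rw [b2, t2]

theorem tri_lor_dual (K x0 : ℝ) (p ω : TV) : ⟪tLorP K x0 p, ω⟫_ℝ = ⟪p, tLorF K x0 ω⟫_ℝ := by
  obtain ⟨a0, a1, a2⟩ := tri_lorP_apply K x0 p
  obtain ⟨b0, b1, b2⟩ := tri_lorF_apply K x0 ω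
  rw [PiLp.inner_apply, PiLp.inner_apply, Fin.sum_univ_three, Fin.sum_univ_three, a0, a1, a2, b0, b1, b2]
  unfold tl0 tl1
  simp only [RCLike.inner_apply, conj_trivial]
  ring

/-- **LEAF L-256-TRI-LOR1: the Lorentz maps as continuous linear equivalences, duality.**
PLAN.  Build `A` with `LinearEquiv.toContinuousLinearEquiv` from explicit `toFun`/`invFun` (triangular, `K ≠ 0`):  inverse of `tLorP`: `p 0 = q 0/K²`, `p 1 = (q 1 - x0 q 0)/K`, `p 2 = q 2 - 2 x0 q 1 + x0² q 0`;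
inverse of `tLorF`: `ω 2 = σ 2`, `ω 1 = σ 1/K - 2 x0 σ 2`, `ω 0 = σ 0/K² - x0 ω 1 - x0² ω 2`.   Duality: `PiLp.inner_apply`, `Fin.sum_univ_three`, `tri_tvec_apply`, `ring`. -/
theorem tri_lor_equiv (K x0 : ℝ) (hK : 0 < K) : ∃ A L : TV ≃L[ℝ] TV, (∀ p, A p = tLorP K x0 p) ∧ (∀ ω, L ω = tLorF K x0 ω) ∧
    ∀ p ω : TV, ⟪A p, ω⟫_ℝ = ⟪p, L ω⟫_ℝ := by
  obtain ⟨A, hA⟩ := tri_lorP_equiv K x0 hK
  obtain ⟨L, hL⟩ := tri_lorF_equiv K x0 hK
  refine ⟨A, L, hA, hL, fun p ω => ?_⟩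
  rw [hA, hL]
  exact tri_lor_dual K x0 p ω

/-- the determinant -/
theorem tri_lor_det (K x0 : ℝ) (A : TV ≃L[ℝ] TV) (hA : ∀ p, A p = tLorP K x0 p) : LinearMap.det (A : TV →ₗ[ℝ] TV) = K ^ 3 := by
  rw [← LinearMap.det_toMatrix (EuclideanSpace.basisFun (Fin 3) ℝ).toBasis, Matrix.det_fin_three]
  have he : ∀ i j : Fin 3, LinearMap.toMatrix (EuclideanSpace.basisFun (Fin 3) ℝ).toBasis (EuclideanSpace.basisFun (Fin 3) ℝ).toBasis
      (A : TV →ₗ[ℝ] TV) i j = tLorP K x0 (EuclideanSpace.single j 1) i := by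
    intro i j
    rw [LinearMap.toMatrix_apply]
    simp [hA]
  simp only [he]
  obtain ⟨a0, a1, a2⟩ := tri_lorP_apply K x0 (EuclideanSpace.single 0 1)
  obtain ⟨b0, b1, b2⟩ := tri_lorP_apply K x0 (EuclideanSpace.single 1 1)
  obtain ⟨c0, c1, c2⟩ := tri_lorP_apply K x0 (EuclideanSpace.single 2 1)
  rw [a0, a1, a2, b0, b1, b2, c0, c1, c2]
  simp
  ring

/-- **LEAF L-256-TRI-LOR2: Jacobian `K³`.**  `A` from `tri_lor_equiv`;  `Measure.map_linearMap_addHaar_eq_smul_addHaar` (`det = K³`: `LinearMap.det_toLin'`/`Matrix.det_fin_three` in the standard basis, or `Matrix.det_of_lowerTriangular`), `lintegral_map_equiv` (`A.toHomeomorph.toMeasurableEquiv`; no measurability of `f`).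
ALTERNATIVE without determinants: compose three maps (shear, shear, diagonal) / Tonelli coordinate by coordinate via `EuclideanSpace.volume_preserving_measurableEquiv`. -/
theorem tri_lor_lint (K x0 : ℝ) (hK : 0 < K) (f : TV → ℝ≥0∞) : ∫⁻ p, f (tLorP K x0 p) = ENNReal.ofReal ((K ^ 3)⁻¹) * ∫⁻ p, f p := by
  obtain ⟨A, hA⟩ := tri_lorP_equiv K x0 hK
  have hdet := tri_lor_det K x0 A hA
  have hdet0 : LinearMap.det (A : TV →ₗ[ℝ] TV) ≠ 0 := by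
    rw [hdet]; positivity
  have hmap := Measure.map_linearMap_addHaar_eq_smul_addHaar (volume : Measure TV) hdet0
  have h1 : ∫⁻ ω, f ω ∂(Measure.map (A : TV →ₗ[ℝ] TV) volume) = ∫⁻ ω, f (A ω) :=
    A.toHomeomorph.measurableEmbedding.lintegral_map f
  simp_rw [← hA]
  rw [← h1, hmap, lintegral_smul_measure, hdet, abs_of_pos (by positivity), smul_eq_mul]

/-- **LEAF L-256-TRI-LOR3 (1).**  `TFS.comp_lin` with `tri_lor_equiv`, `TFS.mono` (image `⊆` plank by `tri_lor_plank`). -/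
theorem tri_lor_fs (K x0 x r : ℝ) (hK : 1 ≤ K) (hr : 0 < r) (F : TV → ℂ) (hF : TFS (tPlank x r) F) :
    TFS (tPlank (K * (x - x0)) (r / K ^ 2)) (fun p => F (tLorP K x0 p)) := by
  obtain ⟨A, L, hA, hL, hd⟩ := tri_lor_equiv K x0 (by linarith)
  have h1 := hF.comp_lin A L hd
  simp_rw [hA] at h1
  refine TFS.mono ?_ h1
  rintro _ ⟨ω, hω, rfl⟩
  rw [hL]
  exact tri_lor_plank K x0 x r hK hr ω hω

/-- **LEAF L-256-TRI-LOR3 (2): tiles to tiles** (exact).  `tri_tvec_apply`, `field_simp`, `ring`. -/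
theorem tri_lor_coord (K x0 x1 r R : ℝ) (hK : 0 < K) (hr : 0 < r) (hR : 0 < R) (p : TV) :
    tcoord x1 (r / K ^ 2) R p = tcoord (x0 + x1 / K) r (R / K) (tLorP K x0 p) := by
  obtain ⟨a0, a1, a2⟩ := tri_lorP_apply K x0 p
  unfold tcoord
  rw [a0, a1, a2]
  congr 1
  · field_simp
  · field_simp
    ring
  · field_simp
    ring

theorem tri_lorP_sub (K x0 : ℝ) (hK : 0 < K) (p q : TV) : tLorP K x0 (p - q) = tLorP K x0 p - tLorP K x0 q := by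
  obtain ⟨A, hA⟩ := tri_lorP_equiv K x0 hK
  rw [← hA, ← hA, ← hA, map_sub]

/-- the reparametrisation `x ↦ K (x - x0)` -/
theorem tri_lor_par (K x0 : ℝ) (hK : 0 < K) : Function.Injective (fun x : ℝ => K * (x - x0)) ∧ (∀ x : ℝ, x0 + K * (x - x0) / K = x) ∧
    ∀ x y R : ℝ, |K * (x - x0) - y| ≤ R ↔ |x - (x0 + y / K)| ≤ R / K := by
  refine ⟨fun a b h => ?_, fun x => ?_, fun x y R => ?_⟩
  · have h' : K * (a - x0) = K * (b - x0) := h
    have := mul_left_cancel₀ hK.ne' h'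
    linarith
  · field_simp
    ring
  · have e : K * (x - x0) - y = K * (x - (x0 + y / K)) := by
      field_simp
      ring
    rw [e, abs_mul, abs_of_pos hK, le_div_iff₀ hK, mul_comm]

/-- sums over the reparametrised filtered family -/
theorem tri_lor_sum {β : Type*} [AddCommMonoid β] (K x0 : ℝ) (hK : 0 < K) (X : Finset ℝ) (y R : ℝ) (h : ℝ → β) :
    ∑ z ∈ (X.image fun x => K * (x - x0)).filter (fun z => |z - y| ≤ R), h (x0 + z / K)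
      = ∑ x ∈ X.filter (fun x => |x - (x0 + y / K)| ≤ R / K), h x := by
  obtain ⟨hinj, hid, hiff⟩ := tri_lor_par K x0 hK
  rw [Finset.sum_filter, Finset.sum_image fun a _ b _ hab => hinj hab, Finset.sum_filter]
  refine Finset.sum_congr rfl fun x _ => ?_
  simp only [hiff, hid]

/-- **LEAF L-256-TRI-LORK: the tile densities of the rescaled family are tile densities of the family.**
PLAN.  `iSup_le` four times: `R' ∈ [K/√r, 1]`, `x1`, `c'`.   `tLorP` is additive (`tri_lor_equiv`), `tri_lor_coord`: `tW N x1 (r/K²) R' c' p = tW N (x0 + x1/K) r (R'/K) (tLorP c') (tLorP p)`.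
Filter: `x ↦ K (x - x0)` is injective (`Finset.sum_image`, `Finset.filter_image`), `|K (x - x0) - x1| ≤ R' ↔ |x - (x0 + x1/K)| ≤ R'/K`, `x0 + K (x - x0)/K = x`.
`tri_lor_lint`: factor `K⁻³`;  `((r/K²)³ R'³)⁻¹ K⁻³ = (r³ (R'/K)³)⁻¹`.   `R'/K ∈ [1/√r, 1]`.   `le_iSup`. -/
theorem tri_lor_K (N : ℕ) (K x0 r : ℝ) (hK : 1 ≤ K) (hr : 0 < r) (X : Finset ℝ) (F : ℝ → TV → ℂ) :
    tK N (r / K ^ 2) (X.image fun x => K * (x - x0)) (fun y p => F (x0 + y / K) (tLorP K x0 p)) ≤ tK N r X F := by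
  have hK0 : 0 < K := by linarith
  have hs0 : 0 < √r := Real.sqrt_pos.2 hr
  have es : √(r / K ^ 2) = √r / K := by
    rw [Real.sqrt_div hr.le, Real.sqrt_sq hK0.le]
  unfold tK
  refine iSup_le fun R' => iSup_le fun hR' => iSup_le fun x1 => iSup_le fun c' => ?_
  obtain ⟨hR1, hR2⟩ := hR'
  rw [es] at hR1
  have hR0 : 0 < R' := lt_of_lt_of_le (by positivity) hR1
  have hRK : 1 / √r ≤ R' / K ∧ R' / K ≤ 1 := by
    constructor
    · rw [le_div_iff₀ hK0]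
      have : 1 / (√r / K) = 1 / √r * K := by field_simp
      rwa [this] at hR1
    · rw [div_le_one hK0]
      linarith
  refine le_trans (le_of_eq ?_) (le_iSup_of_le (R' / K) (le_iSup_of_le hRK (le_iSup_of_le (x0 + x1 / K) (le_iSup_of_le (tLorP K x0 c') le_rfl))))
  have hpt : ∀ p : TV, tW N x1 (r / K ^ 2) R' c' p *
      ∑ x ∈ (X.image fun x => K * (x - x0)).filter (fun x => |x - x1| ≤ R'), ‖F (x0 + x / K) (tLorP K x0 p)‖ₑ ^ 2
      = (fun q => tW N (x0 + x1 / K) r (R' / K) (tLorP K x0 c') q * ∑ x ∈ X.filter (fun x => |x - (x0 + x1 / K)| ≤ R' / K), ‖F x q‖ₑ ^ 2)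
          (tLorP K x0 p) := by
    intro p
    have e1 : tW N x1 (r / K ^ 2) R' c' p = tW N (x0 + x1 / K) r (R' / K) (tLorP K x0 c') (tLorP K x0 p) := by
      unfold tW
      rw [tri_lor_coord K x0 x1 r R' hK0 hr hR0, tri_lorP_sub K x0 hK0]
    rw [e1, tri_lor_sum K x0 hK0 X x1 R' (fun x => ‖F x (tLorP K x0 p)‖ₑ ^ 2)]
  rw [lintegral_congr hpt, tri_lor_lint K x0 hK0 (fun q => tW N (x0 + x1 / K) r (R' / K) (tLorP K x0 c') q *
    ∑ x ∈ X.filter (fun x => |x - (x0 + x1 / K)| ≤ R' / K), ‖F x q‖ₑ ^ 2), ← mul_assoc, ← ENNReal.ofReal_mul (by positivity)]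
  congr 2
  field_simp

/-- the rescaled family -/
theorem tri_lor_fam (m : ℕ) (K r x0 : ℝ) (hK : 1 ≤ K) (hr : 0 < r) (X : Finset ℝ) (F : ℝ → TV → ℂ)
    (hF : TFam r m X F) (hX : ∀ x ∈ X, x0 ≤ x ∧ x ≤ x0 + 1 / K) :
    TFam (r / K ^ 2) m (X.image fun x => K * (x - x0)) (fun y p => F (x0 + y / K) (tLorP K x0 p)) := by
  have hK0 : 0 < K := by linarith
  have hs0 : 0 < √r := Real.sqrt_pos.2 hr
  have es : √(r / K ^ 2) = √r / K := by
    rw [Real.sqrt_div hr.le, Real.sqrt_sq hK0.le]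
  obtain ⟨hinj, hid, hiff⟩ := tri_lor_par K x0 hK0
  refine ⟨fun y hy => ?_, fun y => ?_, fun y hy => ?_⟩
  · obtain ⟨x, hx, rfl⟩ := Finset.mem_image.1 hy
    obtain ⟨h1, h2⟩ := hX x hx
    have h3 : K * (x - x0) ≤ 1 := by
      have : x - x0 ≤ 1 / K := by linarith
      calc K * (x - x0) ≤ K * (1 / K) := mul_le_mul_of_nonneg_left this hK0.le
        _ = 1 := by field_simp
    have h4 : 0 ≤ K * (x - x0) := mul_nonneg hK0.le (by linarith)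
    rw [abs_of_nonneg h4]
    exact h3
  · have e := tri_lor_sum K x0 hK0 X y (1 / √(r / K ^ 2)) (fun _ => (1 : ℕ))
    rw [← Finset.card_eq_sum_ones, ← Finset.card_eq_sum_ones] at e
    rw [e]
    have : 1 / √(r / K ^ 2) / K = 1 / √r := by
      rw [es]; field_simp
    rw [this]
    exact hF.mult _
  · obtain ⟨x, hx, rfl⟩ := Finset.mem_image.1 hy
    simp only [hid]
    exact tri_lor_fs K x0 x r hK hr (F x) (hF.fs x hx)

/-- **LEAF L-256-TRI-NARROW: one sector.**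
PLAN.  `X' = X.image (x ↦ K (x - x0))`, `F' y p = F (x0 + y/K) (tLorP K x0 p)`.   `TFam (r/K²) m X' F'`:  `bd`: `0 ≤ K (x - x0) ≤ 1`;  `mult`: `1/√(r/K²) = K/√r`, `|K(x-x0) - y| ≤ K/√r ↔ |x - (x0 + y/K)| ≤ 1/√r` (`Finset.card_image_of_injective`, `Finset.filter_image`);  `fs`: `tri_lor_fs`.
Apply `h`.   `tri_lor_lint` on the three integrals (`∫ ‖∑ F'‖³ = K⁻³ ∫ ‖∑ F‖³`, `tE (F' y) = K⁻³ tE (F x)`), `tri_lor_K`, cancel `K⁻³` (`ENNReal.mul_le_mul_left`-type, `≠ 0`, `≠ ∞`). -/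
theorem tri_narrow (N m : ℕ) (K r M x0 : ℝ) (hK : 1 ≤ K) (hr : 0 < r) (h : ENVc N (r / K ^ 2) m M) (X : Finset ℝ) (F : ℝ → TV → ℂ)
    (hF : TFam r m X F) (hX : ∀ x ∈ X, x0 ≤ x ∧ x ≤ x0 + 1 / K) :
    ∫⁻ p, ‖∑ x ∈ X, F x p‖ₑ ^ 3 ≤ ENNReal.ofReal M * (tK N r X F) ^ (1 / 2 : ℝ) * ∑ x ∈ X, tE (F x) := by
  have hK0 : 0 < K := by linarith
  obtain ⟨hinj, hid, hiff⟩ := tri_lor_par K x0 hK0
  have key := h _ _ (tri_lor_fam m K r x0 hK hr X F hF hX)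
  have e1 : ∫⁻ p, ‖∑ y ∈ X.image fun x => K * (x - x0), F (x0 + y / K) (tLorP K x0 p)‖ₑ ^ 3
      = ENNReal.ofReal ((K ^ 3)⁻¹) * ∫⁻ p, ‖∑ x ∈ X, F x p‖ₑ ^ 3 := by
    rw [← tri_lor_lint K x0 hK0 (fun q => ‖∑ x ∈ X, F x q‖ₑ ^ 3)]
    refine lintegral_congr fun p => ?_
    rw [Finset.sum_image fun a _ b _ hab => hinj hab]
    simp only [hid]
  have e2 : ∑ y ∈ X.image fun x => K * (x - x0), tE (fun p => F (x0 + y / K) (tLorP K x0 p))
      = ENNReal.ofReal ((K ^ 3)⁻¹) * ∑ x ∈ X, tE (F x) := by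
    rw [Finset.sum_image fun a _ b _ hab => hinj hab, Finset.mul_sum]
    refine Finset.sum_congr rfl fun x _ => ?_
    simp only [hid]
    unfold tE
    exact tri_lor_lint K x0 hK0 (fun q => ‖F x q‖ₑ ^ 2)
  rw [e1, e2] at key
  have hk0 : ENNReal.ofReal ((K ^ 3)⁻¹) ≠ 0 := by
    rw [Ne, ENNReal.ofReal_eq_zero, not_le]
    positivity
  rw [← ENNReal.mul_le_mul_iff_right hk0 ENNReal.ofReal_ne_top]
  refine key.trans ?_
  calc ENNReal.ofReal M * tK N (r / K ^ 2) (X.image fun x => K * (x - x0)) (fun y p => F (x0 + y / K) (tLorP K x0 p)) ^ (1 / 2 : ℝ) *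
        (ENNReal.ofReal ((K ^ 3)⁻¹) * ∑ x ∈ X, tE (F x))
      ≤ ENNReal.ofReal M * tK N r X F ^ (1 / 2 : ℝ) * (ENNReal.ofReal ((K ^ 3)⁻¹) * ∑ x ∈ X, tE (F x)) := by
        gcongr
        exact tri_lor_K N K x0 r hK hr X F
    _ = _ := by ring

theorem tri_wt_meas (N : ℕ) (ρ : ℝ) (z : TV) : Measurable (tWt N ρ z) := by
  unfold tWt
  exact ENNReal.measurable_ofReal.comp ((measurable_const.add ((measurable_norm.comp (measurable_id.sub_const z)).div_const ρ)).pow_const _)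

theorem tri_broad_const (r CN : ℝ) (hr : 0 < r) (hCN : 0 ≤ CN) :
    (r / 2) ^ (-(3 / 2) : ℝ) * (CN * r ^ 3) ^ (1 / 2 : ℝ) = 2 ^ (3 / 2 : ℝ) * CN ^ (1 / 2 : ℝ) := by
  have h1 : (r ^ 3) ^ (1 / 2 : ℝ) = r ^ (3 / 2 : ℝ) := by
    rw [← Real.rpow_natCast, ← Real.rpow_mul hr.le]
    norm_num
  have h2 : 0 < r ^ (3 / 2 : ℝ) := Real.rpow_pos_of_pos hr _
  rw [Real.rpow_neg (by positivity), Real.div_rpow hr.le (by norm_num), Real.mul_rpow hCN (by positivity), h1]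
  field_simp

/-- **LEAF L-256-TRI-BROAD: transversal triples.**
PLAN.  `η_k = teta r (tlat r k)`.   `tri_cover r`.   For fixed `k`: `G i x p = F x p * η_k p`, `TFam (r/2) (2m) (Y i) (G i)`:  `fs` by `TFS.mul`, `tri_eta_fs`, `tri_plank_half`;  `mult`: `1/√(r/2) ≤ 2/√r`, `tri_mult_scale` with `j = 2`.
`TRc`:  `∫ ∏ ‖∑_{Y i} F‖ ‖η_k‖³ ≤ MT (r/2)^{-3/2} ∏_i (∑_{Y i} ∫ ‖F x‖² ‖η_k‖²)^{1/2} ≤ MT 2^{3/2} r^{-3/2} D_k^{3/2}`, `D_k = ∑_{x ∈ X} ∫ ‖F x‖² ‖η_k‖²`.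
`D_k ≤ C_N r³ tK` (`tri_eta_decay N`, `tri_K_ball`), so `D_k^{3/2} ≤ (C_N r³ tK)^{1/2} D_k`;   `∑' k D_k ≤ C₄ C_lat ∑ tE (F x)` (`tri_eta_decay 4`, `lintegral_tsum`, `tri_lat_sum`).   Constant `2^{3/2} C_N^{1/2} C₄ C_lat`. -/
theorem tri_broad (N m : ℕ) : ∃ C : ℝ, 0 ≤ C ∧ ∀ ν r MT : ℝ, 2 ≤ r → 0 ≤ MT → TRc ν (r / 2) (2 * m) MT →
    ∀ (X : Finset ℝ) (F : ℝ → TV → ℂ), TFam r m X F → ∀ Y : Fin 3 → Finset ℝ, (∀ i, Y i ⊆ X) → TSep ν Y →
    ∫⁻ p, ∏ i, ‖∑ x ∈ Y i, F x p‖ₑ ≤ ENNReal.ofReal (C * MT) * (tK N r X F) ^ (1 / 2 : ℝ) * ∑ x ∈ X, tE (F x) := by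
  obtain ⟨CN, hCN, hdN⟩ := tri_eta_decay N
  obtain ⟨C4, hC4, hd4⟩ := tri_eta_decay 4
  obtain ⟨CL, hCL, hlat⟩ := tri_lat_sum
  refine ⟨2 ^ (3 / 2 : ℝ) * CN ^ (1 / 2 : ℝ) * (C4 * CL), by positivity, fun ν r MT hr hMT hTR X F hF Y hY hsep => ?_⟩
  have hr0 : 0 < r := by linarith
  have hFc : ∀ x ∈ X, Continuous (F x) := fun x hx => (hF.fs x hx).continuous
  have hfm : Measurable fun p => ∏ i, ‖∑ x ∈ Y i, F x p‖ₑ := by
    refine Finset.measurable_prod _ fun i _ => ?_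
    exact (continuous_finsetSum _ fun x hx => hFc x (hY i hx)).measurable.enorm
  obtain ⟨Kt, hKt⟩ : ∃ Kt : ℝ≥0∞, Kt = tK N r X F := ⟨_, rfl⟩
  rw [← hKt]
  obtain ⟨D, hD⟩ : ∃ D : (Fin 3 → ℤ) → ℝ≥0∞, D = fun k => ∑ x ∈ X, ∫⁻ p, ‖F x p‖ₑ ^ 2 * ‖teta r (tlat r k) p‖ₑ ^ 2 := ⟨_, rfl⟩
  have hD1 : ∀ k, D k ≤ ENNReal.ofReal (CN * r ^ 3) * Kt := by
    intro k
    rw [hD, ENNReal.ofReal_mul hCN, mul_assoc, hKt]
    refine le_trans ?_ (mul_le_mul' le_rfl (tri_K_ball N r (by linarith) m X F hF (tlat r k)))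
    rw [Finset.mul_sum]
    refine Finset.sum_le_sum fun x _ => ?_
    rw [← lintegral_const_mul' _ _ ENNReal.ofReal_ne_top]
    refine lintegral_mono fun p => ?_
    calc ‖F x p‖ₑ ^ 2 * ‖teta r (tlat r k) p‖ₑ ^ 2 ≤ ‖F x p‖ₑ ^ 2 * (ENNReal.ofReal CN * tWt N r (tlat r k) p) :=
          mul_le_mul' le_rfl (hdN r hr0 _ p)
      _ = _ := by ring
  have hDsum : ∑' k, D k ≤ ENNReal.ofReal (C4 * CL) * ∑ x ∈ X, tE (F x) := by
    rw [hD, Summable.tsum_finsetSum fun _ _ => ENNReal.summable, Finset.mul_sum]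
    refine Finset.sum_le_sum fun x hx => ?_
    have hFm : Measurable fun p => ‖F x p‖ₑ ^ 2 := (hFc x hx).measurable.enorm.pow_const 2
    calc ∑' k : Fin 3 → ℤ, ∫⁻ p, ‖F x p‖ₑ ^ 2 * ‖teta r (tlat r k) p‖ₑ ^ 2
        ≤ ∑' k : Fin 3 → ℤ, ∫⁻ p, ‖F x p‖ₑ ^ 2 * (ENNReal.ofReal C4 * tWt 4 r (tlat r k) p) :=
          ENNReal.tsum_le_tsum fun k => lintegral_mono fun p => mul_le_mul' le_rfl (hd4 r hr0 _ p)
      _ = ∫⁻ p, ∑' k : Fin 3 → ℤ, ‖F x p‖ₑ ^ 2 * (ENNReal.ofReal C4 * tWt 4 r (tlat r k) p) :=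
          (lintegral_tsum fun k => (hFm.mul ((tri_wt_meas 4 r _).const_mul _)).aemeasurable).symm
      _ ≤ ∫⁻ p, ENNReal.ofReal (C4 * CL) * ‖F x p‖ₑ ^ 2 := by
          refine lintegral_mono fun p => ?_
          show ∑' k : Fin 3 → ℤ, ‖F x p‖ₑ ^ 2 * (ENNReal.ofReal C4 * tWt 4 r (tlat r k) p) ≤ _
          rw [ENNReal.tsum_mul_left, ENNReal.tsum_mul_left, ENNReal.ofReal_mul hC4]
          calc ‖F x p‖ₑ ^ 2 * (ENNReal.ofReal C4 * ∑' k : Fin 3 → ℤ, tWt 4 r (tlat r k) p)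
              ≤ ‖F x p‖ₑ ^ 2 * (ENNReal.ofReal C4 * ENNReal.ofReal CL) := mul_le_mul' le_rfl (mul_le_mul' le_rfl (hlat r hr0 p))
            _ = _ := by ring
      _ = _ := by
          rw [lintegral_const_mul' _ _ ENNReal.ofReal_ne_top]
          rfl
  have hone : ∀ k, ∫⁻ p, (∏ i, ‖∑ x ∈ Y i, F x p‖ₑ) * ‖teta r (tlat r k) p‖ₑ ^ 3
      ≤ ENNReal.ofReal (MT * (r / 2) ^ (-(3 / 2) : ℝ)) * ((ENNReal.ofReal (CN * r ^ 3) * Kt) ^ (1 / 2 : ℝ) * D k) := by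
    intro k
    obtain ⟨η, hη⟩ : ∃ η : TV → ℂ, η = teta r (tlat r k) := ⟨_, rfl⟩
    have hηfs : TFS (Metric.closedBall 0 (1 / (16 * r))) η := hη ▸ tri_eta_fs r hr0 _
    have hfam : ∀ i, TFam (r / 2) (2 * m) (Y i) (fun x p => F x p * η p) := by
      intro i
      refine ⟨fun x hx => hF.bd x (hY i hx), fun y => ?_, fun x hx => ?_⟩
      · have h1 := tri_mult_scale r hr0 m X hF.mult 2 (by norm_num) y
        refine le_trans (Finset.card_le_card ?_) h1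
        intro x hx
        rw [Finset.mem_filter] at hx ⊢
        refine ⟨hY i hx.1, hx.2.trans ?_⟩
        have hs0 : 0 < √r := Real.sqrt_pos.2 hr0
        have h2 : √r / 2 ≤ √(r / 2) := by
          refine Real.le_sqrt_of_sq_le ?_
          rw [div_pow, Real.sq_sqrt hr0.le]
          linarith
        calc 1 / √(r / 2) ≤ 1 / (√r / 2) := one_div_le_one_div_of_le (by positivity) h2
          _ = ((2 : ℕ) : ℝ) / √r := by
              push_cast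
              field_simp
      · exact TFS.mono (tri_plank_half r (by linarith) x (hF.bd x (hY i hx))) (TFS.mul (hF.fs x (hY i hx)) hηfs)
    have hmain := hTR Y (fun _ x p => F x p * η p) hfam hsep
    have hL : ∀ p, (∏ i, ‖∑ x ∈ Y i, F x p‖ₑ) * ‖η p‖ₑ ^ 3 = ∏ i, ‖∑ x ∈ Y i, F x p * η p‖ₑ := by
      intro p
      simp only [← Finset.sum_mul, enorm_mul]
      rw [Finset.prod_mul_distrib, Finset.prod_const]
      simp
    have hE : ∀ i, ∑ x ∈ Y i, tE (fun p => F x p * η p) ≤ D k := by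
      intro i
      rw [hD]
      refine le_trans (le_of_eq ?_) (Finset.sum_le_sum_of_subset (hY i))
      refine Finset.sum_congr rfl fun x _ => ?_
      unfold tE
      simp only [enorm_mul, mul_pow, hη]
    rw [← hη]
    simp only [hL]
    refine hmain.trans (mul_le_mul' le_rfl ?_)
    calc ∏ i : Fin 3, (∑ x ∈ Y i, tE (fun p => F x p * η p)) ^ (1 / 2 : ℝ) ≤ ∏ _i : Fin 3, (D k) ^ (1 / 2 : ℝ) :=
          Finset.prod_le_prod' fun i _ => ENNReal.rpow_le_rpow (hE i) (by norm_num)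
      _ = (D k) ^ (1 / 2 : ℝ) * D k := by
          rw [Finset.prod_const]
          simp only [Finset.card_univ, Fintype.card_fin]
          have e : (D k) ^ (1 / 2 : ℝ) * (D k) ^ (1 / 2 : ℝ) = D k := by
            rw [← ENNReal.rpow_add_of_nonneg _ _ (by norm_num) (by norm_num)]
            norm_num
          calc ((D k) ^ (1 / 2 : ℝ)) ^ 3 = (D k) ^ (1 / 2 : ℝ) * ((D k) ^ (1 / 2 : ℝ) * (D k) ^ (1 / 2 : ℝ)) := by ring
            _ = _ := by rw [e]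
      _ ≤ _ := mul_le_mul' (ENNReal.rpow_le_rpow (hD1 k) (by norm_num)) le_rfl
  calc ∫⁻ p, ∏ i, ‖∑ x ∈ Y i, F x p‖ₑ
      ≤ ∑' k : Fin 3 → ℤ, ∫⁻ p, (∏ i, ‖∑ x ∈ Y i, F x p‖ₑ) * ‖teta r (tlat r k) p‖ₑ ^ 3 := tri_cover r hr0 _ hfm
    _ ≤ ∑' k : Fin 3 → ℤ, ENNReal.ofReal (MT * (r / 2) ^ (-(3 / 2) : ℝ)) * ((ENNReal.ofReal (CN * r ^ 3) * Kt) ^ (1 / 2 : ℝ) * D k) :=
        ENNReal.tsum_le_tsum hone
    _ = ENNReal.ofReal (MT * (r / 2) ^ (-(3 / 2) : ℝ)) * ((ENNReal.ofReal (CN * r ^ 3) * Kt) ^ (1 / 2 : ℝ) * ∑' k, D k) := by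
        rw [ENNReal.tsum_mul_left, ENNReal.tsum_mul_left]
    _ ≤ ENNReal.ofReal (MT * (r / 2) ^ (-(3 / 2) : ℝ)) * ((ENNReal.ofReal (CN * r ^ 3) * Kt) ^ (1 / 2 : ℝ)
          * (ENNReal.ofReal (C4 * CL) * ∑ x ∈ X, tE (F x))) := mul_le_mul' le_rfl (mul_le_mul' le_rfl hDsum)
    _ = _ := by
        have hc := tri_broad_const r CN hr0 hCN
        have e1 : 2 ^ (3 / 2 : ℝ) * CN ^ (1 / 2 : ℝ) * (C4 * CL) * MT = MT * (r / 2) ^ (-(3 / 2) : ℝ) * (CN * r ^ 3) ^ (1 / 2 : ℝ) * (C4 * CL) := by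
          rw [← hc]
          ring
        rw [e1, ENNReal.mul_rpow_of_nonneg _ _ (by norm_num), ENNReal.ofReal_rpow_of_nonneg (by positivity) (by norm_num)]
        have ha : 0 ≤ MT * (r / 2) ^ (-(3 / 2) : ℝ) := by positivity
        have hb : 0 ≤ (CN * r ^ 3) ^ (1 / 2 : ℝ) := by positivity
        generalize MT * (r / 2) ^ (-(3 / 2) : ℝ) = a at ha ⊢
        generalize (CN * r ^ 3) ^ (1 / 2 : ℝ) = b at hb ⊢
        generalize C4 * CL = c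
        rw [ENNReal.ofReal_mul (by positivity), ENNReal.ofReal_mul ha]
        ring

/-- **LEAF L-256-TRI-ENVSTEP (glue): one step of the broad/narrow recursion.**
PLAN.  `n = 2 K0 + 1`, `κ x = ⌊(x + 1) K0⌋₊ < n` on `X`, `X_k = X.filter (κ · = k)`, `F_k = ∑_{X_k} F x`, `∑_X F = ∑_{k<n} F_k` (`Finset.sum_fiberwise_of_maps_to`).   `‖∑_k F_k‖ₑ ≤ ∑ ‖F_k‖ₑ`, `tri_bn` pointwise, integrate (`lintegral_add_left`, `lintegral_finset_sum`, `lintegral_const_mul`; continuity by `TFS.continuous`).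
Triples `k₁ + 2 ≤ k₂`, `k₂ + 2 ≤ k₃`: `TSep (1/K0) ![X_k₁, X_k₂, X_k₃]` (`x ∈ X_k → -1 + k/K0 ≤ x < -1 + (k+1)/K0`), `tri_broad`; at most `n³` triples.
Sectors: `tri_narrow` with `K = K0`, `x0 = -1 + k/K0`, `TFam.subset`, `tri_K_mono`;  `∑_k ∑_{X_k} tE = ∑_X tE`.   `n⁹ ≤ 3⁹ K0⁹`.   Constant `3⁹ C_broad`. -/
theorem tri_env_step (N m : ℕ) : ∃ C : ℝ, 0 ≤ C ∧ ∀ (K0 : ℕ) (r M MT : ℝ), 1 ≤ K0 → 2 ≤ r → 0 ≤ M → 0 ≤ MT →
    ENVc N (r / (K0 : ℝ) ^ 2) m M → TRc (1 / (K0 : ℝ)) (r / 2) (2 * m) MT → ENVc N r m (C * (K0 : ℝ) ^ 9 * MT + 128 * M) := by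
  classical
  obtain ⟨Cb, hCb, hbroad⟩ := tri_broad N m
  refine ⟨3 ^ 9 * Cb, by positivity, ?_⟩
  intro K0 r M MT hK0 hr hM hMT hENV hTR X F hF
  have hr0 : 0 < r := by linarith
  have hK1 : (1 : ℝ) ≤ (K0 : ℝ) := by exact_mod_cast hK0
  have hKpos : (0 : ℝ) < (K0 : ℝ) := by linarith
  set n : ℕ := 2 * K0 + 1 with hn
  let κ : ℝ → ℕ := fun x => ⌊(x + 1) * K0⌋₊
  have hκ0 : ∀ x ∈ X, 0 ≤ (x + 1) * (K0 : ℝ) := by
    intro x hx
    have := abs_le.1 (hF.bd x hx)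
    exact mul_nonneg (by linarith [this.1]) hKpos.le
  have hκ : ∀ x ∈ X, κ x ∈ Finset.range n := by
    intro x hx
    have hb := abs_le.1 (hF.bd x hx)
    rw [Finset.mem_range, hn]
    have h1 : (x + 1) * (K0 : ℝ) ≤ ((2 * K0 : ℕ) : ℝ) := by
      push_cast
      nlinarith [hb.2]
    have h2 : κ x ≤ 2 * K0 := Nat.floor_le_of_le h1
    omega
  let Xk : ℕ → Finset ℝ := fun k => X.filter (fun x => κ x = k)
  have hXk : ∀ k, Xk k ⊆ X := fun k => Finset.filter_subset _ _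
  have hXkb : ∀ k, ∀ x ∈ Xk k, (k : ℝ) ≤ (x + 1) * K0 ∧ (x + 1) * K0 < k + 1 := by
    intro k x hx
    obtain ⟨hxX, hxk⟩ := Finset.mem_filter.1 hx
    rw [← hxk]
    exact ⟨Nat.floor_le (hκ0 x hxX), Nat.lt_floor_add_one _⟩
  have hcont : ∀ x ∈ X, Continuous (F x) := fun x hx => (hF.fs x hx).continuous
  let b : TV → ℕ → ℝ≥0∞ := fun p k => ‖∑ x ∈ Xk k, F x p‖ₑ
  have hbm : ∀ k, Measurable (fun p => b p k) := by
    intro k
    have : Continuous (fun p => ∑ x ∈ Xk k, F x p) := continuous_finsetSum _ fun x hx => hcont x (hXk k hx)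
    exact this.enorm.measurable
  set E : ℝ≥0∞ := ∑ x ∈ X, tE (F x) with hE
  set Kt : ℝ≥0∞ := (tK N r X F) ^ (1 / 2 : ℝ) with hKt
  set T : Finset (ℕ × ℕ × ℕ) := (Finset.range n ×ˢ Finset.range n ×ˢ Finset.range n).filter
    (fun t => t.1 + 2 ≤ t.2.1 ∧ t.2.1 + 2 ≤ t.2.2) with hT
  -- pointwise
  have hpt : ∀ p, ‖∑ x ∈ X, F x p‖ₑ ^ 3 ≤ (n : ℝ≥0∞) ^ 6 * ∑ t ∈ T, b p t.1 * b p t.2.1 * b p t.2.2
      + 128 * ∑ k ∈ Finset.range n, b p k ^ 3 := by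
    intro p
    have h1 : ∑ x ∈ X, F x p = ∑ k ∈ Finset.range n, ∑ x ∈ Xk k, F x p :=
      (Finset.sum_fiberwise_of_maps_to hκ _).symm
    have h2 : ‖∑ x ∈ X, F x p‖ₑ ≤ ∑ k ∈ Finset.range n, b p k := by
      rw [h1]
      exact enorm_sum_le _ _
    calc ‖∑ x ∈ X, F x p‖ₑ ^ 3 ≤ (∑ k ∈ Finset.range n, b p k) ^ 3 := by gcongr
      _ ≤ _ := tri_bn n (b p)
  -- separation
  have hsepk : ∀ k k' : ℕ, k + 2 ≤ k' → ∀ x ∈ Xk k, ∀ x' ∈ Xk k', 1 / (K0 : ℝ) ≤ x' - x := by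
    intro k k' hkk x hx x' hx'
    have h1 := (hXkb k x hx).2
    have h2 := (hXkb k' x' hx').1
    have h3 : (k : ℝ) + 2 ≤ k' := by exact_mod_cast hkk
    rw [div_le_iff₀ hKpos]
    nlinarith
  -- broad part
  have hB : ∀ t ∈ T, ∫⁻ p, b p t.1 * b p t.2.1 * b p t.2.2 ≤ ENNReal.ofReal (Cb * MT) * Kt * E := by
    intro t ht
    obtain ⟨-, h12, h23⟩ := Finset.mem_filter.1 ht
    have h13 : t.1 + 2 ≤ t.2.2 := by omega
    let Y : Fin 3 → Finset ℝ := ![Xk t.1, Xk t.2.1, Xk t.2.2]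
    have hY : ∀ i, Y i ⊆ X := by
      intro i
      fin_cases i
      · exact hXk _
      · exact hXk _
      · exact hXk _
    have hsep : TSep (1 / (K0 : ℝ)) Y := by
      intro i j hij x hx x' hx'
      fin_cases i <;> fin_cases j
      · exact absurd rfl hij
      · rw [abs_sub_comm]; exact (hsepk _ _ h12 x hx x' hx').trans (le_abs_self _)
      · rw [abs_sub_comm]; exact (hsepk _ _ h13 x hx x' hx').trans (le_abs_self _)
      · exact (hsepk _ _ h12 x' hx' x hx).trans (le_abs_self _)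
      · exact absurd rfl hij
      · rw [abs_sub_comm]; exact (hsepk _ _ h23 x hx x' hx').trans (le_abs_self _)
      · exact (hsepk _ _ h13 x' hx' x hx).trans (le_abs_self _)
      · exact (hsepk _ _ h23 x' hx' x hx).trans (le_abs_self _)
      · exact absurd rfl hij
    have := hbroad (1 / (K0 : ℝ)) r MT hr hMT hTR X F hF Y hY hsep
    refine le_trans (le_of_eq ?_) this
    congr 1
    funext p
    rw [Fin.prod_univ_three]
    rfl
  have hTcard : (T.card : ℝ≥0∞) ≤ (n : ℝ≥0∞) ^ 3 := by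
    have h1 : T.card ≤ n ^ 3 := by
      calc T.card ≤ (Finset.range n ×ˢ Finset.range n ×ˢ Finset.range n).card := Finset.card_filter_le _ _
        _ = n ^ 3 := by
          simp only [Finset.card_product, Finset.card_range]
          ring
    exact_mod_cast h1
  -- narrow part
  have hNar : ∀ k, ∫⁻ p, b p k ^ 3 ≤ ENNReal.ofReal M * Kt * ∑ x ∈ Xk k, tE (F x) := by
    intro k
    have h1 := tri_narrow N m K0 r M (-1 + k / (K0 : ℝ)) hK1 hr0 hENV (Xk k) F (hF.subset (hXk k)) (by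
      intro x hx
      obtain ⟨h1, h2⟩ := hXkb k x hx
      constructor
      · have : (k : ℝ) / K0 ≤ x + 1 := by rw [div_le_iff₀ hKpos]; exact h1
        linarith
      · have : x + 1 ≤ ((k : ℝ) + 1) / K0 := by rw [le_div_iff₀ hKpos]; exact h2.le
        have e : ((k : ℝ) + 1) / K0 = k / K0 + 1 / K0 := by ring
        linarith)
    refine h1.trans ?_
    gcongr
    exact ENNReal.rpow_le_rpow (tri_K_mono N r (hXk k) F) (by norm_num)
  have hsumE : ∑ k ∈ Finset.range n, ∑ x ∈ Xk k, tE (F x) = E := Finset.sum_fiberwise_of_maps_to hκ _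
  have hn3 : (n : ℝ) ≤ 3 * K0 := by
    rw [hn]
    push_cast
    linarith
  calc ∫⁻ p, ‖∑ x ∈ X, F x p‖ₑ ^ 3
      ≤ ∫⁻ p, ((n : ℝ≥0∞) ^ 6 * ∑ t ∈ T, b p t.1 * b p t.2.1 * b p t.2.2 + 128 * ∑ k ∈ Finset.range n, b p k ^ 3) :=
        lintegral_mono hpt
    _ = (n : ℝ≥0∞) ^ 6 * (∑ t ∈ T, ∫⁻ p, b p t.1 * b p t.2.1 * b p t.2.2) + 128 * ∑ k ∈ Finset.range n, ∫⁻ p, b p k ^ 3 := by
        have hm1 : ∀ t ∈ T, Measurable fun p => b p t.1 * b p t.2.1 * b p t.2.2 :=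
          fun t _ => ((hbm _).mul (hbm _)).mul (hbm _)
        have hm2 : ∀ k ∈ Finset.range n, Measurable fun p => b p k ^ 3 := fun k _ => (hbm k).pow_const 3
        rw [lintegral_add_left ((Finset.measurable_sum _ hm1).const_mul _),
          lintegral_const_mul _ (Finset.measurable_sum _ hm1), lintegral_const_mul _ (Finset.measurable_sum _ hm2),
          lintegral_finsetSum _ hm1, lintegral_finsetSum _ hm2]
    _ ≤ (n : ℝ≥0∞) ^ 6 * (∑ _t ∈ T, ENNReal.ofReal (Cb * MT) * Kt * E)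
          + 128 * ∑ k ∈ Finset.range n, ENNReal.ofReal M * Kt * ∑ x ∈ Xk k, tE (F x) := by
        exact add_le_add (mul_le_mul_right (Finset.sum_le_sum hB) _)
          (mul_le_mul_right (Finset.sum_le_sum fun k _ => hNar k) _)
    _ = ((n : ℝ≥0∞) ^ 6 * (T.card : ℝ≥0∞) * ENNReal.ofReal (Cb * MT) + 128 * ENNReal.ofReal M) * Kt * E := by
        rw [Finset.sum_const, nsmul_eq_mul, ← Finset.mul_sum, hsumE]
        ring
    _ ≤ ((n : ℝ≥0∞) ^ 6 * (n : ℝ≥0∞) ^ 3 * ENNReal.ofReal (Cb * MT) + 128 * ENNReal.ofReal M) * Kt * E := by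
        gcongr
    _ ≤ ENNReal.ofReal (3 ^ 9 * Cb * (K0 : ℝ) ^ 9 * MT + 128 * M) * Kt * E := by
        gcongr
        rw [ENNReal.ofReal_add (by positivity) (by positivity), ENNReal.ofReal_mul (by norm_num : (0 : ℝ) ≤ 128)]
        gcongr
        · rw [← pow_add, ← ENNReal.ofReal_natCast, ← ENNReal.ofReal_pow (by positivity), ← ENNReal.ofReal_mul (by positivity)]
          apply ENNReal.ofReal_le_ofReal
          have h9 : (n : ℝ) ^ (6 + 3) ≤ (3 * (K0 : ℝ)) ^ 9 := pow_le_pow_left₀ (by positivity) hn3 9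
          calc (n : ℝ) ^ (6 + 3) * (Cb * MT) ≤ (3 * (K0 : ℝ)) ^ 9 * (Cb * MT) := by gcongr
            _ = _ := by ring
        · norm_num

theorem tri_cs_pt {α : Type*} (Y : Finset α) (a : α → ℂ) : ‖∑ x ∈ Y, a x‖ₑ ^ 2 ≤ (Y.card : ℝ≥0∞) * ∑ x ∈ Y, ‖a x‖ₑ ^ 2 := by
  have e : ∀ c : ℂ, ‖c‖ₑ ^ 2 = ENNReal.ofReal (‖c‖ ^ 2) := by
    intro c
    rw [ENNReal.ofReal_pow (norm_nonneg _), ofReal_norm]
  simp only [e]
  rw [← ENNReal.ofReal_sum_of_nonneg (fun x _ => by positivity), ← ENNReal.ofReal_natCast,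
    ← ENNReal.ofReal_mul (by positivity)]
  apply ENNReal.ofReal_le_ofReal
  calc ‖∑ x ∈ Y, a x‖ ^ 2 ≤ (∑ x ∈ Y, ‖a x‖) ^ 2 := by
        gcongr
        exact norm_sum_le _ _
    _ ≤ _ := sq_sum_le_card_mul_sum_sq

theorem tri_Wt_mono_scale (N : ℕ) (r : ℝ) (hr : 1 ≤ r) (z p : TV) : tWt N 1 z p ≤ tWt N r z p := by
  unfold tWt
  apply ENNReal.ofReal_le_ofReal
  apply Real.rpow_le_rpow_of_nonpos (by positivity) _ (by simp)
  have : ‖p - z‖ / r ≤ ‖p - z‖ / 1 := div_le_div_of_nonneg_left (norm_nonneg _) (by norm_num) hr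
  linarith

/-- **LEAF L-256-TRI-ENVBASE: bounded scales.**
PLAN.  `S = ∑_X F x`.   `‖S p‖² ≤ card ∑ ‖F x p‖² ≤ card C_N ∑ ∫ ‖F x q‖² tWt N 1 p q dq` (`tri_sup N`, `tri_plank_ball`) `≤ card C_N ∑ ∫ ‖F x‖² tWt N r p` (`r ≥ 1`) `≤ card C_N r³ tK` (`tri_K_ball`).
`∫ ‖S‖³ ≤ (sup ‖S‖) ∫ ‖S‖² ≤ (card C_N r1³ tK)^{1/2} card ∑ tE` (`tri_energy_sum`).   `card ≤ (√r1 + 1) m` (`TFam.card_le`). -/
theorem tri_env_base (N m : ℕ) (r1 : ℝ) : ∃ M : ℝ, 0 ≤ M ∧ ∀ r : ℝ, 1 ≤ r → r ≤ r1 → ENVc N r m M := by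
  obtain ⟨CN, hCN, hsup⟩ := tri_sup N
  obtain ⟨cb, hcb⟩ : ∃ cb : ℝ, cb = (√r1 + 1) * m := ⟨_, rfl⟩
  have hcb0 : 0 ≤ cb := by rw [hcb]; positivity
  obtain ⟨R1, hR1⟩ : ∃ R1 : ℝ, R1 = max r1 1 := ⟨_, rfl⟩
  have hR10 : 0 < R1 := by rw [hR1]; exact lt_of_lt_of_le one_pos (le_max_right _ _)
  refine ⟨(cb * CN * R1 ^ 3) ^ (1 / 2 : ℝ) * cb, by positivity, ?_⟩
  intro r hr hr1 X F hF
  have hr0 : 0 < r := by linarith
  have hcard : (X.card : ℝ) ≤ cb := by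
    have h1 : X.card ≤ ⌈√r⌉₊ * m := hF.card_le hr0
    have h2 : (X.card : ℝ) ≤ (⌈√r⌉₊ : ℝ) * m := by exact_mod_cast h1
    have h3 : (⌈√r⌉₊ : ℝ) ≤ √r + 1 := (Nat.ceil_lt_add_one (Real.sqrt_nonneg r)).le
    have h4 : √r ≤ √r1 := Real.sqrt_le_sqrt hr1
    calc (X.card : ℝ) ≤ (⌈√r⌉₊ : ℝ) * m := h2
      _ ≤ (√r1 + 1) * m := by gcongr; linarith
      _ = cb := hcb.symm
  have hcardE : (X.card : ℝ≥0∞) ≤ ENNReal.ofReal cb := by
    rw [← ENNReal.ofReal_natCast]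
    exact ENNReal.ofReal_le_ofReal hcard
  have hcont : ∀ x ∈ X, Continuous (F x) := fun x hx => (hF.fs x hx).continuous
  set D : ℝ≥0∞ := ENNReal.ofReal (cb * CN * R1 ^ 3) * tK N r X F with hD
  have hpt : ∀ p, ‖∑ x ∈ X, F x p‖ₑ ^ 2 ≤ D := by
    intro p
    calc ‖∑ x ∈ X, F x p‖ₑ ^ 2 ≤ (X.card : ℝ≥0∞) * ∑ x ∈ X, ‖F x p‖ₑ ^ 2 := tri_cs_pt X _
      _ ≤ ENNReal.ofReal cb * ∑ x ∈ X, ENNReal.ofReal CN * ∫⁻ q, ‖F x q‖ₑ ^ 2 * tWt N r p q := by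
          gcongr with x hx
          refine (hsup (F x) (TFS.mono (tri_plank_ball x r hr (hF.bd x hx)) (hF.fs x hx)) p).trans ?_
          gcongr with q
          exact tri_Wt_mono_scale N r hr p q
      _ = ENNReal.ofReal cb * ENNReal.ofReal CN * ∑ x ∈ X, ∫⁻ q, ‖F x q‖ₑ ^ 2 * tWt N r p q := by
          rw [← Finset.mul_sum, mul_assoc]
      _ ≤ ENNReal.ofReal cb * ENNReal.ofReal CN * (ENNReal.ofReal (r ^ 3) * tK N r X F) := by
          gcongr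
          exact tri_K_ball N r hr m X F hF p
      _ ≤ ENNReal.ofReal cb * ENNReal.ofReal CN * (ENNReal.ofReal (R1 ^ 3) * tK N r X F) := by
          gcongr
          rw [hR1]
          exact hr1.trans (le_max_left _ _)
      _ = D := by
          rw [hD, ENNReal.ofReal_mul (by positivity), ENNReal.ofReal_mul hcb0]
          ring
  have hpt1 : ∀ p, ‖∑ x ∈ X, F x p‖ₑ ≤ D ^ (1 / 2 : ℝ) := by
    intro p
    have h1 := ENNReal.rpow_le_rpow (hpt p) (by norm_num : (0 : ℝ) ≤ 1 / 2)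
    rwa [← ENNReal.rpow_natCast, ← ENNReal.rpow_mul, show ((2 : ℕ) : ℝ) * (1 / 2) = 1 by norm_num, ENNReal.rpow_one] at h1
  calc ∫⁻ p, ‖∑ x ∈ X, F x p‖ₑ ^ 3 ≤ ∫⁻ p, D ^ (1 / 2 : ℝ) * ‖∑ x ∈ X, F x p‖ₑ ^ 2 := by
        refine lintegral_mono fun p => ?_
        calc ‖∑ x ∈ X, F x p‖ₑ ^ 3 = ‖∑ x ∈ X, F x p‖ₑ * ‖∑ x ∈ X, F x p‖ₑ ^ 2 := by ring
          _ ≤ _ := by gcongr; exact hpt1 p
    _ = D ^ (1 / 2 : ℝ) * tE (fun p => ∑ x ∈ X, F x p) := by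
        rw [lintegral_const_mul]
        · rfl
        · exact (continuous_finsetSum _ fun x hx => hcont x hx).enorm.measurable.pow_const 2
    _ ≤ D ^ (1 / 2 : ℝ) * (ENNReal.ofReal cb * ∑ x ∈ X, tE (F x)) := by
        gcongr
        exact (tri_energy_sum X F hcont).trans (by gcongr)
    _ = ENNReal.ofReal ((cb * CN * R1 ^ 3) ^ (1 / 2 : ℝ) * cb) * (tK N r X F) ^ (1 / 2 : ℝ) * ∑ x ∈ X, tE (F x) := by
        rw [hD, ENNReal.mul_rpow_of_nonneg _ _ (by norm_num : (0 : ℝ) ≤ 1 / 2),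
          ENNReal.ofReal_rpow_of_nonneg (by positivity) (by norm_num), ENNReal.ofReal_mul (by positivity)]
        ring

/-- **LEAF L-256-TRI-ENV (glue) = EXIT OF THE BOX: the `L^3` envelope estimate for the cone, `ε`-loss.**
PLAN.  `K0 : ℕ` with `2 ≤ K0`, `256 ≤ (K0 : ℝ)^{2ε}` (`K0 = ⌈256^{1/(2ε)}⌉₊ + 2`).   `C_T` from `tri_TR (1/K0) ε (2m)`, `C_s` from `tri_env_step N m`, `r1 = 2 K0²`, `M₀` from `tri_env_base N m r1`, `C = max M₀ (2 C_s K0⁹ C_T)`.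
`P r := ENVc N r m (C r^ε)`, `tri_ind_div` with `q = K0²`:  base `M₀ ≤ C r^ε`;  step (`r > 2 K0²`, so `r/2 ≥ 1`): `C_s K0⁹ C_T (r/2)^ε + 128 C (r/K0²)^ε ≤ (C/2) r^ε + (C/2) r^ε` (`ENVc.mono`). -/
theorem tri_env (N m : ℕ) (ε : ℝ) (hε : 0 < ε) : ∃ C : ℝ, 0 ≤ C ∧ ∀ r : ℝ, 1 ≤ r → ENVc N r m (C * r ^ ε) := by
  obtain ⟨K0, hK0⟩ : ∃ K0 : ℕ, K0 = ⌈(256 : ℝ) ^ (1 / (2 * ε))⌉₊ + 2 := ⟨_, rfl⟩
  have hK2 : 2 ≤ K0 := by omega
  have hK2r : (2 : ℝ) ≤ K0 := by exact_mod_cast hK2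
  have hKpos : (0 : ℝ) < K0 := by linarith
  have hKr : (256 : ℝ) ^ (1 / (2 * ε)) ≤ K0 := by
    rw [hK0]
    push_cast
    have := Nat.le_ceil ((256 : ℝ) ^ (1 / (2 * ε)))
    linarith
  have hK256 : (256 : ℝ) ≤ (K0 : ℝ) ^ (2 * ε) := by
    have h := Real.rpow_le_rpow (by positivity) hKr (by positivity : 0 ≤ 2 * ε)
    rw [← Real.rpow_mul (by norm_num)] at h
    have e : 1 / (2 * ε) * (2 * ε) = 1 := by field_simp
    rwa [e, Real.rpow_one] at h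
  obtain ⟨CT, hCT, hT⟩ := tri_TR (1 / (K0 : ℝ)) ε (by positivity) (by rw [div_le_one hKpos]; linarith) hε (2 * m)
  obtain ⟨Cs, hCs, hS⟩ := tri_env_step N m
  obtain ⟨M0, hM0, hB⟩ := tri_env_base N m (2 * (K0 : ℝ) ^ 2)
  obtain ⟨C, hC⟩ : ∃ C : ℝ, C = max M0 (2 * (Cs * (K0 : ℝ) ^ 9 * CT)) := ⟨_, rfl⟩
  have hC0 : 0 ≤ C := hC ▸ le_max_of_le_left hM0
  have hC1 : M0 ≤ C := hC ▸ le_max_left _ _
  have hC2 : 2 * (Cs * (K0 : ℝ) ^ 9 * CT) ≤ C := hC ▸ le_max_right _ _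
  have hKsq : (4 : ℝ) ≤ (K0 : ℝ) ^ 2 := by nlinarith
  refine ⟨C, hC0, ?_⟩
  apply tri_ind_div (fun r => ENVc N r m (C * r ^ ε)) (2 * (K0 : ℝ) ^ 2) ((K0 : ℝ) ^ 2) (by linarith) (by linarith)
  · intro r hr h
    exact (hB r hr h).mono (hC1.trans (le_mul_of_one_le_right hC0 (Real.one_le_rpow hr hε.le)))
  · intro r hr hP
    have hr8 : 8 ≤ r := by linarith
    have hr0 : 0 < r := by linarith
    have hTr := hT (r / 2) (by linarith)
    have h := hS K0 r (C * (r / (K0 : ℝ) ^ 2) ^ ε) (CT * (r / 2) ^ ε) (by omega) (by linarith) (by positivity) (by positivity) hP hTr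
    refine h.mono ?_
    have e1 : (r / 2) ^ ε ≤ r ^ ε := Real.rpow_le_rpow (by positivity) (by linarith) hε.le
    have e2 : (r / (K0 : ℝ) ^ 2) ^ ε ≤ r ^ ε / 256 := by
      rw [Real.div_rpow hr0.le (by positivity)]
      have e3 : ((K0 : ℝ) ^ 2) ^ ε = (K0 : ℝ) ^ (2 * ε) := by
        rw [← Real.rpow_natCast, ← Real.rpow_mul hKpos.le]
        norm_num
      rw [e3]
      gcongr
    have p : 0 < r ^ ε := by positivity
    have q : 0 ≤ Cs * (K0 : ℝ) ^ 9 * CT := by positivity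
    calc Cs * (K0 : ℝ) ^ 9 * (CT * (r / 2) ^ ε) + 128 * (C * (r / (K0 : ℝ) ^ 2) ^ ε)
        ≤ Cs * (K0 : ℝ) ^ 9 * (CT * r ^ ε) + 128 * (C * (r ^ ε / 256)) := by gcongr
      _ = (Cs * (K0 : ℝ) ^ 9 * CT) * r ^ ε + C / 2 * r ^ ε := by ring
      _ ≤ C / 2 * r ^ ε + C / 2 * r ^ ε := by gcongr; linarith
      _ = C * r ^ ε := by ring

end Claimed.Agent.R256
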