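import Claimed.Agent.R256.Tri.Kit

/-!
# Row 256, BOX E3, file 3: GEOMETRY OF THE PLANKS, ORTHOGONALITY            (architect helper213)            CONTRACT
PAPER-FREE.  All plank lemmas are linear inequalities in the three functionals `tl0 x`, `tl1 x`, `ω 2`:
   `tl0 x' ω = tl0 x ω + (x'-x) tl1 x ω + (x'-x)² ω 2`,     `tl1 x' ω = tl1 x ω + 2 (x'-x) ω 2`,     `|ν i| ≤ ‖ν‖`.
Write `u = 1/√(√r) ≤ 1/4` (`r ≥ 256`), `1/√r = u²`, `1/r = u⁴` and use `nlinarith`/`positivity`.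
Every `sorry` is a leaf `L-256-TRI-*`.   Statements FROZEN; auxiliary lemmas directly above your theorem, prefix `tri_`; edit only your block.
-/

set_option autoImplicit false

namespace Claimed.Agent.R256

open MeasureTheory
open scoped FourierTransform ENNReal BigOperators InnerProductSpace Pointwise

theorem tri_l0_shift (x x' : ℝ) (ω : TV) : tl0 x' ω = tl0 x ω + (x' - x) * tl1 x ω + (x' - x) ^ 2 * ω 2 := by
  unfold tl0 tl1; ring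

theorem tri_l1_shift (x x' : ℝ) (ω : TV) : tl1 x' ω = tl1 x ω + 2 * (x' - x) * ω 2 := by
  unfold tl1; ring

/-- **LEAF L-256-TRI-GEO0 (1).**  `EuclideanSpace.inner_eq_star_dotProduct` / `PiLp.inner_apply`, `Fin.sum_univ_three`, `tvec`. -/
theorem tri_inner_dir (x : ℝ) (ω : TV) : ⟪ω, tdir x⟫_ℝ = tl0 x ω := by
  have h0 : tdir x 0 = 1 := by simp [tdir, tvec]
  have h1 : tdir x 1 = x := by simp [tdir, tvec]
  have h2 : tdir x 2 = x ^ 2 := by simp [tdir, tvec]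
  rw [PiLp.inner_apply, Fin.sum_univ_three, h0, h1, h2]
  unfold tl0
  simp only [RCLike.inner_apply, conj_trivial]
  ring

/-- **LEAF L-256-TRI-GEO0 (2).**  `PiLp.norm_apply_le`. -/
theorem tri_abs_le_norm (ω : TV) (i : Fin 3) : |ω i| ≤ ‖ω‖ := by
  have := PiLp.norm_apply_le ω i
  rwa [Real.norm_eq_abs] at this

/-- **LEAF L-256-TRI-GEO0 (3).** -/
theorem tri_tvec_apply (a b c : ℝ) : tvec a b c 0 = a ∧ tvec a b c 1 = b ∧ tvec a b c 2 = c := by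
  refine ⟨?_, ?_, ?_⟩ <;> simp [tvec]

/-- **LEAF L-256-TRI-GEO0 (4).**  `ω ∈ tPlank x r → |tl0 x ω| ≤ 2/r`. -/
theorem tri_plank_slab (x r : ℝ) (ω : TV) (h : ω ∈ tPlank x r) : |tl0 x ω| ≤ 2 / r := h.1

theorem tri_plank_ball_aux (x a b c : ℝ) (hx : |x| ≤ 1) (h0 : |a + x * b + x ^ 2 * c| ≤ 2) (h1 : |b + 2 * x * c| ≤ 4)
    (z0 : 0 ≤ c) (z3 : c ≤ 3) : a ^ 2 + b ^ 2 + c ^ 2 ≤ 400 := by
  obtain ⟨hx1, hx2⟩ := abs_le.1 hx
  obtain ⟨a1, a2⟩ := abs_le.1 h0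
  obtain ⟨b1, b2⟩ := abs_le.1 h1
  have c11 : -10 ≤ b := by nlinarith
  have c12 : b ≤ 10 := by nlinarith
  have hxx : x ^ 2 ≤ 1 := by nlinarith
  have hxb : |x * b| ≤ 10 := by
    rw [abs_mul]
    have : |b| ≤ 10 := abs_le.2 ⟨c11, c12⟩
    nlinarith [abs_nonneg x, abs_nonneg b]
  obtain ⟨d1, d2⟩ := abs_le.1 hxb
  have hxc : x ^ 2 * c ≤ 3 := by nlinarith [sq_nonneg x]
  have hxc0 : 0 ≤ x ^ 2 * c := by positivity
  have c01 : -15 ≤ a := by linarith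
  have c02 : a ≤ 15 := by linarith
  nlinarith

/-- **LEAF L-256-TRI-GEO0 (5).**  `|ξ| ≤ 4 + 2·3`, `|τ| ≤ 2 + 10 + 3`, `‖ω‖² = τ² + ξ² + ζ² ≤ 334` (`EuclideanSpace.norm_eq`, `Fin.sum_univ_three`). -/
theorem tri_plank_ball (x r : ℝ) (hr : 1 ≤ r) (hx : |x| ≤ 1) : tPlank x r ⊆ Metric.closedBall 0 20 := by
  intro ω hω
  obtain ⟨h0, h1, h2, h3⟩ := hω
  have hs : 1 ≤ √r := by
    rw [show (1:ℝ) = √1 by simp]
    exact Real.sqrt_le_sqrt hr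
  have hs0 : 0 < √r := by linarith
  have e1 : 1 / √r ≤ 1 := by
    rw [div_le_one hs0]; exact hs
  have e2 : 4 / √r ≤ 4 := by
    rw [div_le_iff₀ hs0]; linarith
  have e3 : 2 / r ≤ 2 := by
    rw [div_le_iff₀ (by linarith)]; linarith
  have key := tri_plank_ball_aux x (ω 0) (ω 1) (ω 2) hx (h0.trans e3) (h1.trans e2) (by linarith) (by linarith)
  rw [mem_closedBall_zero_iff, EuclideanSpace.norm_eq, Fin.sum_univ_three]
  rw [show (20:ℝ) = √400 by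
    rw [show (400:ℝ) = 20 ^ 2 by norm_num]; rw [Real.sqrt_sq (by norm_num)]]
  apply Real.sqrt_le_sqrt
  simp only [Real.norm_eq_abs, sq_abs]
  exact key

theorem tri_l0_add (x : ℝ) (ω ν : TV) : tl0 x (ω + ν) = tl0 x ω + tl0 x ν := by
  unfold tl0
  simp only [PiLp.add_apply]
  ring

theorem tri_l1_add (x : ℝ) (ω ν : TV) : tl1 x (ω + ν) = tl1 x ω + tl1 x ν := by
  unfold tl1
  simp only [PiLp.add_apply]
  ring

/-- the two functionals of a short vector -/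
theorem tri_l_small (x : ℝ) (hx : |x| ≤ 1) (ν : TV) (d : ℝ) (hν : ‖ν‖ ≤ d) :
    |tl0 x ν| ≤ 3 * d ∧ |tl1 x ν| ≤ 3 * d ∧ |ν 2| ≤ d := by
  have h0 := (tri_abs_le_norm ν 0).trans hν
  have h1 := (tri_abs_le_norm ν 1).trans hν
  have h2 := (tri_abs_le_norm ν 2).trans hν
  have a1 : |x * ν 1| ≤ d := by
    rw [abs_mul]
    nlinarith [abs_nonneg x, abs_nonneg (ν 1)]
  have a2 : |x ^ 2 * ν 2| ≤ d := by
    rw [abs_mul, abs_pow]
    have : |x| ^ 2 ≤ 1 := by nlinarith [abs_nonneg x]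
    nlinarith [abs_nonneg x, abs_nonneg (ν 2), sq_nonneg |x|]
  have a3 : |2 * x * ν 2| ≤ 2 * d := by
    rw [abs_mul, abs_mul, abs_two]
    nlinarith [abs_nonneg x, abs_nonneg (ν 2)]
  refine ⟨?_, ?_, h2⟩
  · unfold tl0
    calc |ν 0 + x * ν 1 + x ^ 2 * ν 2| ≤ |ν 0 + x * ν 1| + |x ^ 2 * ν 2| := abs_add_le _ _
      _ ≤ |ν 0| + |x * ν 1| + |x ^ 2 * ν 2| := by
        have := abs_add_le (ν 0) (x * ν 1)
        linarith
      _ ≤ 3 * d := by linarith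
  · unfold tl1
    calc |ν 1 + 2 * x * ν 2| ≤ |ν 1| + |2 * x * ν 2| := abs_add_le _ _
      _ ≤ 3 * d := by linarith

theorem tri_cell_aux (u L0 L1 c h n0 n1 n2 : ℝ) (hu0 : 0 < u) (hu : u ≤ 1 / 4) (hL0 : |L0| ≤ 2 * u ^ 4) (hL1 : |L1| ≤ 4 * u ^ 2)
    (hc1 : 1 - u ^ 2 ≤ c) (hc2 : c ≤ 2 + u ^ 2) (hh : |h| ≤ u / 2) (h0 : |n0| ≤ 3 * (u ^ 2 / 16)) (h1 : |n1| ≤ 3 * (u ^ 2 / 16))
    (h2 : |n2| ≤ u ^ 2 / 16) :
    |L0 + h * L1 + h ^ 2 * c + n0| ≤ 2 * u ^ 2 ∧ |L1 + 2 * h * c + n1| ≤ 4 * u ∧ 1 - u ≤ c + n2 ∧ c + n2 ≤ 2 + u := by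
  have hc0 : 0 ≤ c := by nlinarith
  have uu : u ^ 2 ≤ u / 4 := by nlinarith
  have a1 : |h * L1| ≤ u / 2 * (4 * u ^ 2) := by
    rw [abs_mul]
    exact mul_le_mul hh hL1 (abs_nonneg _) (by positivity)
  have a2 : |h ^ 2 * c| ≤ (u / 2) ^ 2 * (2 + u ^ 2) := by
    rw [abs_mul, abs_pow, abs_of_nonneg hc0]
    exact mul_le_mul (pow_le_pow_left₀ (abs_nonneg _) hh 2) hc2 hc0 (by positivity)
  have a3 : |2 * h * c| ≤ 2 * (u / 2) * (2 + u ^ 2) := by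
    rw [abs_mul, abs_mul, abs_two, abs_of_nonneg hc0]
    exact mul_le_mul (by linarith) hc2 hc0 (by positivity)
  obtain ⟨k1, k2⟩ := abs_le.1 h2
  refine ⟨?_, ?_, by nlinarith, by nlinarith⟩
  · have t1 : |L0 + h * L1 + h ^ 2 * c + n0| ≤ |L0| + |h * L1| + |h ^ 2 * c| + |n0| := by
      have e1 := abs_add_le (L0 + h * L1 + h ^ 2 * c) n0
      have e2 := abs_add_le (L0 + h * L1) (h ^ 2 * c)
      have e3 := abs_add_le L0 (h * L1)
      linarith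
    have p3 : u ^ 3 ≤ u ^ 2 / 4 := by nlinarith [sq_nonneg u]
    have p4 : u ^ 4 ≤ u ^ 2 / 16 := by nlinarith [sq_nonneg u]
    nlinarith
  · have t1 : |L1 + 2 * h * c + n1| ≤ |L1| + |2 * h * c| + |n1| := by
      have e1 := abs_add_le (L1 + 2 * h * c) n1
      have e2 := abs_add_le L1 (2 * h * c)
      linarith
    have p3 : u ^ 3 ≤ u / 16 := by nlinarith [sq_nonneg u]
    nlinarith

/-- the parameter `u = r^{-1/4}` -/
theorem tri_u_facts (r : ℝ) (hr : 256 ≤ r) :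
    ∃ u : ℝ, 0 < u ∧ u ≤ 1 / 4 ∧ 1 / √(√r) = u ∧ 1 / √r = u ^ 2 ∧ 1 / r = u ^ 4 := by
  have hr0 : 0 ≤ r := by linarith
  have h16 : 16 ≤ √r := by
    rw [show (16:ℝ) = √256 by
      rw [show (256:ℝ) = 16 ^ 2 by norm_num]; rw [Real.sqrt_sq (by norm_num)]]
    exact Real.sqrt_le_sqrt hr
  have h4 : 4 ≤ √(√r) := by
    rw [show (4:ℝ) = √16 by
      rw [show (16:ℝ) = 4 ^ 2 by norm_num]; rw [Real.sqrt_sq (by norm_num)]]
    exact Real.sqrt_le_sqrt h16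
  have e1 : √(√r) ^ 2 = √r := Real.sq_sqrt (Real.sqrt_nonneg r)
  have e2 : √r ^ 2 = r := Real.sq_sqrt hr0
  refine ⟨1 / √(√r), by positivity, ?_, rfl, ?_, ?_⟩
  · rw [div_le_div_iff₀ (by linarith) (by norm_num)]
    linarith
  · rw [div_pow, e1, one_pow]
  · rw [div_pow, show √(√r) ^ 4 = (√(√r) ^ 2) ^ 2 by ring, e1, e2, one_pow]

/-- **LEAF L-256-TRI-GEO1: a cell of planks at scale `r`, fattened by `1/(16√r)`, lies in ONE plank at scale `√r`.**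
Numbers (`u = r^{-1/4} ≤ 1/4`, `h = |x-x'| ≤ u/2`, `‖ν‖ ≤ u²/16`):   `|tl0 x' (ω+ν)| ≤ 2u⁴ + h·4u² + h²(2+u²) + 3u²/16 ≤ 1.4 u² ≤ 2u²`;   `|tl1 x' (ω+ν)| ≤ 4u² + 2h(2+u²) + 3u²/16 ≤ 3.2 u ≤ 4u`;   `1 - u ≤ 1 - u² - u²/16`. -/
theorem tri_plank_cell (r : ℝ) (hr : 256 ≤ r) (x x' : ℝ) (hx : |x| ≤ 1) (hx' : |x'| ≤ 1) (h : |x - x'| ≤ 1 / (2 * √(√r))) :
    tPlank x r + Metric.closedBall (0 : TV) (1 / (16 * √r)) ⊆ tPlank x' (√r) := by
  obtain ⟨u, hu0, hu, e1, e2, e4⟩ := tri_u_facts r hr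
  rintro _ ⟨ω, hω, ν, hν, rfl⟩
  obtain ⟨h0, h1, h2, h3⟩ := hω
  rw [mem_closedBall_zero_iff] at hν
  have d1 : 1 / (16 * √r) = u ^ 2 / 16 := by
    rw [← e2]; ring
  have d2 : 1 / (2 * √(√r)) = u / 2 := by
    rw [← e1]; ring
  have d3 : 2 / r = 2 * u ^ 4 := by
    rw [← e4]; ring
  have d4 : 4 / √r = 4 * u ^ 2 := by
    rw [← e2]; ring
  have d5 : 2 / √r = 2 * u ^ 2 := by
    rw [← e2]; ring
  have d6 : 4 / √(√r) = 4 * u := by
    rw [← e1]; ring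
  rw [d1] at hν
  rw [d2, abs_sub_comm] at h
  rw [d3] at h0
  rw [d4] at h1
  rw [e2] at h2 h3
  obtain ⟨n0, n1, n2⟩ := tri_l_small x' hx' ν _ hν
  obtain ⟨k0, k1, k2, k3⟩ := tri_cell_aux u (tl0 x ω) (tl1 x ω) (ω 2) (x' - x) (tl0 x' ν) (tl1 x' ν) (ν 2) hu0 hu h0 h1 h2 h3 h n0 n1 n2
  refine ⟨?_, ?_, ?_, ?_⟩
  · rw [tri_l0_add, tri_l0_shift x x', d5]
    exact k0
  · rw [tri_l1_add, tri_l1_shift x x', d6]
    exact k1
  · rw [e1]
    exact k2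
  · rw [e1]
    exact k3

theorem tri_far_aux (s x x' A B D c : ℝ) (hs0 : 0 < s) (hs : s ≤ 1 / 16) (hA : |A| ≤ 4 * s) (hB : |B| ≤ 4 * s) (hD : |D| ≤ 3 * (s / 8))
    (hc : 1 - s ≤ c) (e : A - B = D + 2 * (x - x') * c) : |x - x'| ≤ 5 * s := by
  have hc' : 15 / 16 ≤ c := by linarith
  have h1 : |2 * (x - x') * c| ≤ 4 * s + 4 * s + 3 * (s / 8) := by
    have : 2 * (x - x') * c = A - B - D := by linarith
    rw [this]
    have e1 := abs_sub (A - B) D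
    have e2 := abs_sub A B
    linarith
  rw [abs_mul, abs_mul, abs_two, abs_of_nonneg (by linarith : (0:ℝ) ≤ c)] at h1
  nlinarith [abs_nonneg (x - x')]

/-- **LEAF L-256-TRI-GEO2: planks that come `1/(8√r)`-close have close parameters.**
`tl1 x ω - tl1 x' ω' = (ω 1 - ω' 1) + 2x (ω 2 - ω' 2) + 2 (x - x') ω' 2`, `ω' 2 ≥ 15/16`:   `2 |x-x'| (15/16) ≤ 8/√r + 3/(8√r)`. -/
theorem tri_plank_far (r : ℝ) (hr : 256 ≤ r) (x x' : ℝ) (hx : |x| ≤ 1) (hx' : |x'| ≤ 1) (ω ω' : TV) (hω : ω ∈ tPlank x r)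
    (hω' : ω' ∈ tPlank x' r) (h : ‖ω - ω'‖ ≤ 1 / (8 * √r)) : |x - x'| ≤ 5 / √r := by
  have h16 : 16 ≤ √r := by
    rw [show (16:ℝ) = √256 by
      rw [show (256:ℝ) = 16 ^ 2 by norm_num]; rw [Real.sqrt_sq (by norm_num)]]
    exact Real.sqrt_le_sqrt hr
  have hs0 : 0 < 1 / √r := by positivity
  have hs : 1 / √r ≤ 1 / 16 := by
    rw [div_le_div_iff₀ (by linarith) (by norm_num)]
    linarith
  obtain ⟨-, h1, -, -⟩ := hω
  obtain ⟨-, h1', h2', -⟩ := hω'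
  have d1 : 1 / (8 * √r) = 1 / √r / 8 := by ring
  have d2 : 4 / √r = 4 * (1 / √r) := by ring
  have d3 : 5 / √r = 5 * (1 / √r) := by ring
  rw [d1] at h
  rw [d2] at h1 h1'
  rw [d3]
  obtain ⟨-, n1, -⟩ := tri_l_small x hx (ω - ω') _ h
  refine tri_far_aux (1 / √r) x x' (tl1 x ω) (tl1 x' ω') (tl1 x (ω - ω')) (ω' 2) hs0 hs h1 h1' n1 h2' ?_
  unfold tl1
  simp only [PiLp.sub_apply]
  ring

theorem tri_half_aux (s t L0 L1 c n0 n1 n2 : ℝ) (hs0 : 0 < s) (hs : s ≤ 1) (ht0 : 0 < t) (ht : t ^ 2 = 2 * s ^ 2)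
    (hL0 : |L0| ≤ 2 * s ^ 2) (hL1 : |L1| ≤ 4 * s) (hc1 : 1 - s ≤ c) (hc2 : c ≤ 2 + s)
    (h0 : |n0| ≤ 3 * (s ^ 2 / 16)) (h1 : |n1| ≤ 3 * (s ^ 2 / 16)) (h2 : |n2| ≤ s ^ 2 / 16) :
    |L0 + n0| ≤ 4 * s ^ 2 ∧ |L1 + n1| ≤ 4 * t ∧ 1 - t ≤ c + n2 ∧ c + n2 ≤ 2 + t := by
  have hts : 7 / 5 * s ≤ t := by
    by_contra hcon
    have := not_le.1 hcon
    nlinarith
  have ss : s ^ 2 ≤ s := by nlinarith
  obtain ⟨k1, k2⟩ := abs_le.1 h2
  refine ⟨?_, ?_, by linarith, by linarith⟩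
  · have := abs_add_le L0 n0
    nlinarith [sq_nonneg s]
  · have := abs_add_le L1 n1
    linarith

/-- **LEAF L-256-TRI-GEO3: fattening by `1/(16 r)` costs a factor `2` in the scale.**  `√(r/2) = √r/√2`, `√2 ≥ 1.4`. -/
theorem tri_plank_half (r : ℝ) (hr : 1 ≤ r) (x : ℝ) (hx : |x| ≤ 1) :
    tPlank x r + Metric.closedBall (0 : TV) (1 / (16 * r)) ⊆ tPlank x (r / 2) := by
  have hr0 : 0 < r := by linarith
  have h1 : 1 ≤ √r := by
    rw [show (1:ℝ) = √1 by simp]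
    exact Real.sqrt_le_sqrt hr
  have hs0 : 0 < 1 / √r := by positivity
  have hs : 1 / √r ≤ 1 := by
    rw [div_le_one (by linarith)]; exact h1
  have e2 : 1 / r = (1 / √r) ^ 2 := by
    rw [div_pow, Real.sq_sqrt hr0.le, one_pow]
  have ht0 : 0 < 1 / √(r / 2) := by positivity
  have ht : (1 / √(r / 2)) ^ 2 = 2 * (1 / √r) ^ 2 := by
    rw [div_pow, Real.sq_sqrt (by positivity), ← e2]
    field_simp
  rintro _ ⟨ω, hω, ν, hν, rfl⟩
  obtain ⟨h0, h1, h2, h3⟩ := hω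
  rw [mem_closedBall_zero_iff] at hν
  have d1 : 1 / (16 * r) = (1 / √r) ^ 2 / 16 := by
    rw [← e2]; ring
  have d2 : 2 / r = 2 * (1 / √r) ^ 2 := by
    rw [← e2]; ring
  have d3 : 4 / √r = 4 * (1 / √r) := by ring
  have d4 : 2 / (r / 2) = 4 * (1 / √r) ^ 2 := by
    rw [← e2]; field_simp; norm_num
  have d5 : 4 / √(r / 2) = 4 * (1 / √(r / 2)) := by ring
  rw [d1] at hν
  rw [d2] at h0
  rw [d3] at h1
  obtain ⟨n0, n1, n2⟩ := tri_l_small x hx ν _ hν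
  obtain ⟨k0, k1, k2, k3⟩ := tri_half_aux (1 / √r) (1 / √(r / 2)) (tl0 x ω) (tl1 x ω) (ω 2) (tl0 x ν) (tl1 x ν) (ν 2) hs0 hs ht0 ht
    h0 h1 h2 h3 n0 n1 n2
  refine ⟨?_, ?_, k2, k3⟩
  · rw [tri_l0_add, d4]
    exact k0
  · rw [tri_l1_add, d5]
    exact k1

/-- **LEAF L-256-TRI-GEO4: Lorentz rescaling of planks** (exact).  `tl0 (K(x-x0)) (tLorF K x0 ω) = K² tl0 x ω`, `tl1 (K(x-x0)) (tLorF K x0 ω) = K tl1 x ω`, `√(r/K²) = √r/K`. -/
theorem tri_lor_plank (K x0 x r : ℝ) (hK : 1 ≤ K) (hr : 0 < r) (ω : TV) (h : ω ∈ tPlank x r) :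
    tLorF K x0 ω ∈ tPlank (K * (x - x0)) (r / K ^ 2) := by
  have hK0 : 0 < K := by linarith
  have hs0 : 0 < √r := Real.sqrt_pos.2 hr
  obtain ⟨h0, h1, h2, h3⟩ := h
  obtain ⟨t0, t1, t2⟩ := tri_tvec_apply (K ^ 2 * tl0 x0 ω) (K * tl1 x0 ω) (ω 2)
  have e0 : tl0 (K * (x - x0)) (tLorF K x0 ω) = K ^ 2 * tl0 x ω := by
    rw [tri_l0_shift x0 x]
    unfold tLorF
    rw [tl0, t0, t1, t2]
    ring
  have e1 : tl1 (K * (x - x0)) (tLorF K x0 ω) = K * tl1 x ω := by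
    rw [tri_l1_shift x0 x]
    unfold tLorF
    rw [tl1, t1, t2]
    ring
  have e2 : tLorF K x0 ω 2 = ω 2 := t2
  have es : √(r / K ^ 2) = √r / K := by
    rw [Real.sqrt_div hr.le, Real.sqrt_sq hK0.le]
  have d1 : 1 / √(r / K ^ 2) = K * (1 / √r) := by
    rw [es]; field_simp
  have hle : 1 / √r ≤ K * (1 / √r) := by
    have : 0 < 1 / √r := by positivity
    nlinarith
  refine ⟨?_, ?_, ?_, ?_⟩
  · rw [e0, abs_mul, abs_of_nonneg (by positivity : (0:ℝ) ≤ K ^ 2)]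
    have : 2 / (r / K ^ 2) = K ^ 2 * (2 / r) := by field_simp
    rw [this]
    exact mul_le_mul_of_nonneg_left h0 (by positivity)
  · rw [e1, abs_mul, abs_of_nonneg hK0.le]
    have : 4 / √(r / K ^ 2) = K * (4 / √r) := by
      rw [es]; field_simp
    rw [this]
    exact mul_le_mul_of_nonneg_left h1 hK0.le
  · rw [e2, d1]
    linarith
  · rw [e2, d1]
    linarith

/-- **LEAF L-256-TRI-GEO5 (1): Vandermonde.**  `Matrix.det_fin_three`, `ring`. -/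
theorem tri_vdm (x : Fin 3 → ℝ) :
    Matrix.det (Matrix.of fun i : Fin 3 => (![1, x i, x i ^ 2] : Fin 3 → ℝ)) = (x 1 - x 0) * (x 2 - x 0) * (x 2 - x 1) := by
  rw [Matrix.det_fin_three]
  simp only [Matrix.of_apply, Matrix.cons_val_zero, Matrix.cons_val_one, Matrix.cons_val]
  ring

/-- choice of the covering interval -/
theorem tri_cover_aux (j : ℕ) (hj : 0 < j) (t : ℝ) (ht : |t| ≤ j) : ∃ i : ℕ, i < j ∧ |t - (2 * (i : ℝ) - j + 1)| ≤ 1 := by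
  obtain ⟨t1, t2⟩ := abs_le.1 ht
  by_cases hw : (t + j) / 2 < j
  · have hw0 : 0 ≤ (t + j) / 2 := by linarith
    refine ⟨⌊(t + j) / 2⌋₊, (Nat.floor_lt hw0).2 hw, ?_⟩
    have f1 := Nat.floor_le hw0
    have f2 := Nat.lt_floor_add_one ((t + j) / 2)
    rw [abs_le]
    constructor <;> linarith
  · refine ⟨j - 1, by omega, ?_⟩
    have hc : ((j - 1 : ℕ) : ℝ) = (j : ℝ) - 1 := by
      rw [Nat.cast_sub hj, Nat.cast_one]
    rw [hc, abs_le]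
    have := not_lt.1 hw
    constructor <;> linarith

/-- **LEAF L-256-TRI-GEO5 (2): counting.**  (AMENDED by helper135: `0 < j` added; for `j = 0`, `y ∈ X` the count is `1 > 0`.)  Cover `[y - j/√r, y + j/√r]` by the `j` intervals of half length `1/√r` centred at `y + (2i - j + 1)/√r`, `i < j`;  `Finset.card_le_card` + `Finset.card_biUnion_le`. -/
theorem tri_mult_scale (r : ℝ) (hr : 0 < r) (m : ℕ) (X : Finset ℝ) (h : ∀ y : ℝ, (X.filter fun x => |x - y| ≤ 1 / √r).card ≤ m) (j : ℕ) (hj : 0 < j) (y : ℝ) :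
    (X.filter fun x => |x - y| ≤ j / √r).card ≤ j * m := by
  have hs0 : 0 < √r := Real.sqrt_pos.2 hr
  have hsub : (X.filter fun x => |x - y| ≤ j / √r) ⊆
      (Finset.range j).biUnion fun i => X.filter fun x => |x - (y + (2 * (i : ℝ) - j + 1) / √r)| ≤ 1 / √r := by
    intro x hx
    obtain ⟨hxX, hxy⟩ := Finset.mem_filter.1 hx
    have ht : |(x - y) * √r| ≤ j := by
      rw [abs_mul, abs_of_pos hs0]
      rwa [le_div_iff₀ hs0] at hxy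
    obtain ⟨i, hi, hit⟩ := tri_cover_aux j hj _ ht
    refine Finset.mem_biUnion.2 ⟨i, Finset.mem_range.2 hi, Finset.mem_filter.2 ⟨hxX, ?_⟩⟩
    have e : x - (y + (2 * (i : ℝ) - j + 1) / √r) = ((x - y) * √r - (2 * (i : ℝ) - j + 1)) / √r := by
      field_simp
      ring
    rw [e, abs_div, abs_of_pos hs0]
    exact div_le_div_of_nonneg_right hit hs0.le
  calc (X.filter fun x => |x - y| ≤ j / √r).card
      ≤ ((Finset.range j).biUnion fun i => X.filter fun x => |x - (y + (2 * (i : ℝ) - j + 1) / √r)| ≤ 1 / √r).card :=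
        Finset.card_le_card hsub
    _ ≤ ∑ i ∈ Finset.range j, (X.filter fun x => |x - (y + (2 * (i : ℝ) - j + 1) / √r)| ≤ 1 / √r).card := Finset.card_biUnion_le
    _ ≤ ∑ _i ∈ Finset.range j, m := Finset.sum_le_sum fun i _ => h _
    _ = j * m := by rw [Finset.sum_const, Finset.card_range, smul_eq_mul]

/-- **LEAF L-256-TRI-GEO5 (3).** -/
theorem TFam.subset {r : ℝ} {m : ℕ} {X Y : Finset ℝ} {G : ℝ → TV → ℂ} (h : TFam r m X G) (hY : Y ⊆ X) : TFam r m Y G := by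
  refine ⟨fun x hx => h.bd x (hY hx), fun y => ?_, fun x hx => h.fs x (hY hx)⟩
  exact (Finset.card_le_card (Finset.filter_subset_filter _ hY)).trans (h.mult y)

/-- **LEAF L-256-TRI-GEO5 (4).**  `X ⊆ [-1,1]`:  `tri_mult_scale` with `y = 0`, `j = ⌈√r⌉₊`. -/
theorem TFam.card_le {r : ℝ} {m : ℕ} {X : Finset ℝ} {G : ℝ → TV → ℂ} (h : TFam r m X G) (hr : 0 < r) : X.card ≤ ⌈√r⌉₊ * m := by
  have hs0 : 0 < √r := Real.sqrt_pos.2 hr
  have hj : 0 < ⌈√r⌉₊ := Nat.ceil_pos.2 hs0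
  have key := tri_mult_scale r hr m X h.mult ⌈√r⌉₊ hj 0
  have e : (X.filter fun x => |x - 0| ≤ (⌈√r⌉₊ : ℝ) / √r) = X := by
    refine Finset.filter_true_of_mem fun x hx => ?_
    rw [sub_zero]
    refine (h.bd x hx).trans ?_
    rw [le_div_iff₀ hs0, one_mul]
    exact Nat.le_ceil _
  rwa [e] at key

/-- pointwise expansion of the square -/
theorem tri_orth_expand {α : Type*} (Y : Finset ℝ) (G : ℝ → α → ℂ) (v : α → ℝ) (p : α) :
    ((‖∑ x ∈ Y, G x p‖ ^ 2 * v p : ℝ) : ℂ) = ∑ x ∈ Y, ∑ x' ∈ Y, G x p * (starRingEnd ℂ) (G x' p) * ((v p : ℝ) : ℂ) := by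
  push_cast
  rw [← Complex.mul_conj', map_sum, Finset.sum_mul_sum, Finset.sum_mul]
  refine Finset.sum_congr rfl fun x _ => ?_
  rw [Finset.sum_mul]

theorem tri_orth_diag {α : Type*} (G : α → ℂ) (v : α → ℝ) (p : α) :
    (G p * (starRingEnd ℂ) (G p) * ((v p : ℝ) : ℂ)).re = ‖G p‖ ^ 2 * v p := by
  rw [Complex.mul_conj', ← Complex.ofReal_pow, ← Complex.ofReal_mul, Complex.ofReal_re]

/-- integrability of the square -/
theorem tri_orth_int {α : Type*} [MeasurableSpace α] (μ : Measure α) (Y : Finset ℝ) (G : ℝ → α → ℂ) (v : α → ℝ)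
    (hint : ∀ x ∈ Y, ∀ x' ∈ Y, Integrable (fun p => G x p * (starRingEnd ℂ) (G x' p) * ((v p : ℝ) : ℂ)) μ) :
    Integrable (fun p => ‖∑ x ∈ Y, G x p‖ ^ 2 * v p) μ := by
  have h1 : Integrable (fun p => ∑ x ∈ Y, ∑ x' ∈ Y, G x p * (starRingEnd ℂ) (G x' p) * ((v p : ℝ) : ℂ)) μ :=
    integrable_finsetSum _ fun x hx => integrable_finsetSum _ fun x' hx' => hint x hx x' hx'
  have h2 := h1.re
  refine h2.congr (Filter.Eventually.of_forall fun p => ?_)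
  show (∑ x ∈ Y, ∑ x' ∈ Y, G x p * (starRingEnd ℂ) (G x' p) * ((v p : ℝ) : ℂ)).re = _
  rw [← tri_orth_expand, Complex.ofReal_re]

/-- the combinatorial part -/
theorem tri_orth_comb (Y : Finset ℝ) (a : ℝ → ℝ) (ha : ∀ x ∈ Y, 0 ≤ a x) (δ : ℝ) (M : ℕ)
    (hcount : ∀ x ∈ Y, (Y.filter fun x' => |x' - x| ≤ δ).card ≤ M) :
    ∑ x ∈ Y, ∑ x' ∈ Y, (if |x' - x| ≤ δ then (a x + a x') / 2 else 0) ≤ M * ∑ x ∈ Y, a x := by
  have h1 : ∀ x ∈ Y, ∑ x' ∈ Y, (if |x' - x| ≤ δ then a x / 2 else 0) ≤ M * (a x / 2) := by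
    intro x hx
    rw [← Finset.sum_filter, Finset.sum_const, nsmul_eq_mul]
    have : (((Y.filter fun x' => |x' - x| ≤ δ).card : ℕ) : ℝ) ≤ M := by exact_mod_cast hcount x hx
    exact mul_le_mul_of_nonneg_right this (by linarith [ha x hx])
  have e1 : ∑ x ∈ Y, ∑ x' ∈ Y, (if |x' - x| ≤ δ then (a x + a x') / 2 else 0)
      = ∑ x ∈ Y, ∑ x' ∈ Y, (if |x' - x| ≤ δ then a x / 2 else 0) + ∑ x ∈ Y, ∑ x' ∈ Y, (if |x' - x| ≤ δ then a x' / 2 else 0) := by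
    rw [← Finset.sum_add_distrib]
    refine Finset.sum_congr rfl fun x _ => ?_
    rw [← Finset.sum_add_distrib]
    refine Finset.sum_congr rfl fun x' _ => ?_
    split_ifs <;> ring
  have e2 : ∑ x ∈ Y, ∑ x' ∈ Y, (if |x' - x| ≤ δ then a x' / 2 else 0) = ∑ x ∈ Y, ∑ x' ∈ Y, (if |x' - x| ≤ δ then a x / 2 else 0) := by
    rw [Finset.sum_comm]
    refine Finset.sum_congr rfl fun x _ => Finset.sum_congr rfl fun x' _ => ?_
    rw [abs_sub_comm]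
  rw [e1, e2]
  have h2 : ∑ x ∈ Y, ∑ x' ∈ Y, (if |x' - x| ≤ δ then a x / 2 else 0) ≤ ∑ x ∈ Y, (M : ℝ) * (a x / 2) := Finset.sum_le_sum h1
  have e3 : ∑ x ∈ Y, (M : ℝ) * (a x / 2) = M * (∑ x ∈ Y, a x) / 2 := by
    rw [Finset.mul_sum, Finset.sum_div]
    refine Finset.sum_congr rfl fun x _ => ?_
    ring
  linarith

/-- abstract almost orthogonality -/
theorem tri_orth_abs {α : Type*} [MeasurableSpace α] (μ : Measure α) (Y : Finset ℝ) (G : ℝ → α → ℂ) (v : α → ℝ) (hv0 : ∀ p, 0 ≤ v p)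
    (hint : ∀ x ∈ Y, ∀ x' ∈ Y, Integrable (fun p => G x p * (starRingEnd ℂ) (G x' p) * ((v p : ℝ) : ℂ)) μ)
    (δ : ℝ) (M : ℕ)
    (horth : ∀ x ∈ Y, ∀ x' ∈ Y, δ < |x' - x| → ∫ p, G x p * (starRingEnd ℂ) (G x' p) * ((v p : ℝ) : ℂ) ∂μ = 0)
    (hcount : ∀ x ∈ Y, (Y.filter fun x' => |x' - x| ≤ δ).card ≤ M) :
    ∫ p, ‖∑ x ∈ Y, G x p‖ ^ 2 * v p ∂μ ≤ M * ∑ x ∈ Y, ∫ p, ‖G x p‖ ^ 2 * v p ∂μ := by
  have hd : ∀ x ∈ Y, Integrable (fun p => ‖G x p‖ ^ 2 * v p) μ := by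
    intro x hx
    refine (hint x hx x hx).re.congr (Filter.Eventually.of_forall fun p => ?_)
    exact tri_orth_diag (G x) v p
  have e1 : ((∫ p, ‖∑ x ∈ Y, G x p‖ ^ 2 * v p ∂μ : ℝ) : ℂ)
      = ∑ x ∈ Y, ∑ x' ∈ Y, ∫ p, G x p * (starRingEnd ℂ) (G x' p) * ((v p : ℝ) : ℂ) ∂μ := by
    rw [← integral_complex_ofReal]
    simp_rw [tri_orth_expand]
    rw [integral_finsetSum _ fun x hx => integrable_finsetSum _ fun x' hx' => hint x hx x' hx']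
    refine Finset.sum_congr rfl fun x hx => ?_
    rw [integral_finsetSum _ fun x' hx' => hint x hx x' hx']
  have e2 : ∫ p, ‖∑ x ∈ Y, G x p‖ ^ 2 * v p ∂μ
      = ∑ x ∈ Y, ∑ x' ∈ Y, (∫ p, G x p * (starRingEnd ℂ) (G x' p) * ((v p : ℝ) : ℂ) ∂μ).re := by
    have := congrArg Complex.re e1
    rw [Complex.ofReal_re, Complex.re_sum] at this
    rw [this]
    refine Finset.sum_congr rfl fun x _ => ?_
    rw [Complex.re_sum]
  rw [e2]
  refine le_trans (Finset.sum_le_sum fun x hx => Finset.sum_le_sum fun x' hx' => ?_)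
    (tri_orth_comb Y (fun x => ∫ p, ‖G x p‖ ^ 2 * v p ∂μ) (fun x _ => integral_nonneg fun p => mul_nonneg (by positivity) (hv0 p)) δ M hcount)
  split_ifs with hn
  · refine (Complex.re_le_norm _).trans ((norm_integral_le_integral_norm _).trans ?_)
    have e3 : (∫ p, ‖G x p‖ ^ 2 * v p ∂μ + ∫ p, ‖G x' p‖ ^ 2 * v p ∂μ) / 2 = ∫ p, (‖G x p‖ ^ 2 * v p + ‖G x' p‖ ^ 2 * v p) / 2 ∂μ := by
      rw [integral_div, integral_add (hd x hx) (hd x' hx')]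
    rw [e3]
    refine integral_mono (hint x hx x' hx').norm (((hd x hx).add (hd x' hx')).div_const 2) fun p => ?_
    show ‖G x p * (starRingEnd ℂ) (G x' p) * ((v p : ℝ) : ℂ)‖ ≤ (‖G x p‖ ^ 2 * v p + ‖G x' p‖ ^ 2 * v p) / 2
    rw [norm_mul, norm_mul, RCLike.norm_conj, Complex.norm_real, Real.norm_eq_abs, abs_of_nonneg (hv0 p)]
    nlinarith [hv0 p, mul_nonneg (sq_nonneg (‖G x p‖ - ‖G x' p‖)) (hv0 p)]
  · rw [horth x hx x' hx' (not_le.1 hn)]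
    simp

/-- the weight is integrable -/
theorem tri_eta_sq_int (ρ : ℝ) (hρ : 0 < ρ) (z : TV) : Integrable (fun p => ‖teta ρ z p‖ ^ 2) := by
  have h1 : Integrable (fun u : TV => ‖teta0 u‖ ^ 2) := (teta0.memLp 2 volume).integrable_norm_pow (by norm_num)
  have h2 := (h1.comp_smul (R := ρ⁻¹) (by positivity)).comp_sub_right z
  exact h2

/-- **LEAF L-256-TRI-ORTH: local orthogonality on balls of radius `√r`.**
PLAN.  `v p = ‖teta (√r) z p‖²` (integrable, `G x` bounded continuous: all integrals below are finite).   `‖∑ G_x‖² = ∑_{x,x'} Re (G_x conj G_x')`.   If `5/√r < |x - x'|` then `∫ G_x conj G_x' v = 0`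
(`tri_eta_orth` with `ρ = √r`, contrapositive of `tri_plank_far`).   Otherwise `|∫ G_x conj G_x' v| ≤ (a_x + a_x')/2`, `a_x = ∫ ‖G_x‖² v`.   `#{x' ∈ Y : |x'-x| ≤ 5/√r} ≤ 5m` (`tri_mult_scale`).   Symmetry: `∑_x ∑_{x' near} (a_x + a_x')/2 ≤ 5m ∑ a_x`.
Pass to `ENNReal` (`ofReal_integral_eq_lintegral_ofReal`, `enorm`). -/
theorem tri_orth (r : ℝ) (hr : 256 ≤ r) (m : ℕ) (Y : Finset ℝ) (G : ℝ → TV → ℂ) (hG : TFam r m Y G) (z : TV) :
    ∫⁻ p, ‖∑ x ∈ Y, G x p‖ₑ ^ 2 * ‖teta (√r) z p‖ₑ ^ 2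
      ≤ ((5 * m : ℕ) : ℝ≥0∞) * ∑ x ∈ Y, ∫⁻ p, ‖G x p‖ₑ ^ 2 * ‖teta (√r) z p‖ₑ ^ 2 := by
  have hr0 : 0 < r := by linarith
  have hs0 : 0 < √r := Real.sqrt_pos.2 hr0
  obtain ⟨v, hv⟩ : ∃ v : TV → ℝ, v = fun p => ‖teta (√r) z p‖ ^ 2 := ⟨_, rfl⟩
  have hv0 : ∀ p, 0 ≤ v p := by
    intro p
    rw [hv]
    positivity
  have hvi : Integrable v := by
    rw [hv]
    exact tri_eta_sq_int _ hs0 z
  have hint : ∀ x ∈ Y, ∀ x' ∈ Y, Integrable (fun p => G x p * (starRingEnd ℂ) (G x' p) * ((v p : ℝ) : ℂ)) := by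
    intro x hx x' hx'
    obtain ⟨B, hB0, hB⟩ := (hG.fs x hx).bdd
    obtain ⟨B', hB0', hB'⟩ := (hG.fs x' hx').bdd
    have hc : Continuous fun p => G x p * (starRingEnd ℂ) (G x' p) :=
      (hG.fs x hx).continuous.mul (Complex.continuous_conj.comp (hG.fs x' hx').continuous)
    refine Integrable.bdd_mul (c := B * B') hvi.ofReal hc.aestronglyMeasurable (Filter.Eventually.of_forall fun p => ?_)
    rw [norm_mul, RCLike.norm_conj]
    exact mul_le_mul (hB p) (hB' p) (norm_nonneg _) hB0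
  have horth : ∀ x ∈ Y, ∀ x' ∈ Y, 5 / √r < |x' - x| → ∫ p, G x p * (starRingEnd ℂ) (G x' p) * ((v p : ℝ) : ℂ) = 0 := by
    intro x hx x' hx' hfar
    rw [hv]
    refine tri_eta_orth (√r) hs0 z (hG.fs x hx) (hG.fs x' hx') fun ω hω ω' hω' => ?_
    by_contra hcon
    have := tri_plank_far r hr x x' (hG.bd x hx) (hG.bd x' hx') ω ω' hω hω' (not_lt.1 hcon)
    rw [abs_sub_comm] at this
    linarith
  have hcount : ∀ x ∈ Y, (Y.filter fun x' => |x' - x| ≤ 5 / √r).card ≤ 5 * m := by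
    intro x _
    have := tri_mult_scale r hr0 m Y hG.mult 5 (by norm_num) x
    exact_mod_cast this
  have key := tri_orth_abs volume Y G v hv0 hint (5 / √r) (5 * m) horth hcount
  have hconv : ∀ w : TV → ℂ, Integrable (fun p => ‖w p‖ ^ 2 * v p) →
      ∫⁻ p, ‖w p‖ₑ ^ 2 * ‖teta (√r) z p‖ₑ ^ 2 = ENNReal.ofReal (∫ p, ‖w p‖ ^ 2 * v p) := by
    intro w hw
    rw [ofReal_integral_eq_lintegral_ofReal hw (Filter.Eventually.of_forall fun p => mul_nonneg (by positivity) (hv0 p))]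
    refine lintegral_congr fun p => ?_
    rw [hv, ENNReal.ofReal_mul (by positivity), ENNReal.ofReal_pow (norm_nonneg _), ENNReal.ofReal_pow (norm_nonneg _),
      ofReal_norm, ofReal_norm]
  have hd : ∀ x ∈ Y, Integrable (fun p => ‖G x p‖ ^ 2 * v p) := by
    intro x hx
    refine (hint x hx x hx).re.congr (Filter.Eventually.of_forall fun p => ?_)
    exact tri_orth_diag (G x) v p
  rw [hconv _ (tri_orth_int volume Y G v hint), Finset.sum_congr rfl fun x hx => hconv (G x) (hd x hx),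
    ← ENNReal.ofReal_sum_of_nonneg fun x _ => integral_nonneg fun p => mul_nonneg (by positivity) (hv0 p),
    ← ENNReal.ofReal_natCast, ← ENNReal.ofReal_mul (by positivity)]
  exact ENNReal.ofReal_le_ofReal key

end Claimed.Agent.R256
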