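import Claimed.Agent.R256.Tri.Kak

/-!
# Row 256, BOX E3, file 5: TRILINEAR RESTRICTION BY INDUCTION ON SCALES (Bennett-Carbery-Tao scheme)            (architect helper213)            CONTRACT
PAPER-FREE.   `tri_step : TRc ν (√r) 5 M → TRc ν r m (C r^ε M)`  (`r ≥ 256`):
  cover `ℝ³` by the cubes of side `ρ = √r` (`tri_cover`, bumps `η_k = teta ρ (tlat ρ k)`);   on each cube regroup the `r`-planks into cells of width `1/(2 r^{1/4})`: `(∑_{cell} G_x) η_k` is a family at scale `√r` of multiplicity `5` (`tri_regroup`);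
  apply `TRc ν (√r) 5 M`;   local orthogonality `tri_orth` inside every cell, `‖η_k‖² ≤ C tWt 40` (`tri_step_ball`);   sum over `k` with `tri_kak` (`H = ‖G_x‖²`, hypothesis `LD` from `tri_line`).
Powers of `r`:  `(√r)^{-3/2} · r^{-3/4} = r^{-3/2}`.
`tri_base`: bounded scales (Bernstein `tri_sup`).   `tri_TR`: the recursion closes WITHOUT accumulating constants: with `ε' = ε/4`, `C r^{ε'} · M₀ (√r)^ε ≤ M₀ r^ε` as soon as `r^{ε/4} ≥ C`; smaller `r` are in the base case.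
Every `sorry` is a leaf `L-256-TRI-*`.   Statements FROZEN; auxiliary lemmas directly above your theorem, prefix `tri_`; edit only your block.
-/

set_option autoImplicit false

namespace Claimed.Agent.R256

open MeasureTheory
open scoped ENNReal BigOperators

/-- **LEAF L-256-TRI-IND (1).**  `ENNReal.ofReal_le_ofReal`, `Real.rpow_nonneg`. -/
theorem TRc.mono {ν r : ℝ} {m : ℕ} {M M' : ℝ} (h : TRc ν r m M) (hr : 0 ≤ r) (hM : M ≤ M') : TRc ν r m M' := by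
  intro X G hG hS
  refine (h X G hG hS).trans ?_
  gcongr

/-- **LEAF L-256-TRI-IND (2).**  By induction on `n`: `∀ r, 1 ≤ r → r ≤ r1 ^ (2 ^ n) → P r` (`√r ≤ r1 ^ (2 ^ n)` from `r ≤ (r1 ^ (2 ^ n))²`, `Real.sqrt_le_left`/`Real.sqrt_le_sqrt`, `1 ≤ √r`);  every `r` is `≤ r1 ^ (2 ^ n)` for some `n` (`pow_unbounded_of_one_lt`, `n < 2 ^ n`). -/
theorem tri_ind_sqrt (P : ℝ → Prop) (r1 : ℝ) (h1 : 1 < r1) (hb : ∀ r, 1 ≤ r → r ≤ r1 → P r) (hs : ∀ r, r1 < r → P (√r) → P r) :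
    ∀ r, 1 ≤ r → P r := by
  have key : ∀ n : ℕ, ∀ r, 1 ≤ r → r ≤ r1 ^ (2 ^ n) → P r := by
    intro n
    induction n with
    | zero => intro r hr h; exact hb r hr (by simpa using h)
    | succ n ih =>
      intro r hr h
      by_cases hc : r ≤ r1
      · exact hb r hr hc
      · have hc := not_le.mp hc
        refine hs r hc (ih _ ?_ ?_)
        · exact Real.one_le_sqrt.mpr hr
        · rw [Real.sqrt_le_left (by positivity)]
          calc r ≤ r1 ^ (2 ^ (n + 1)) := h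
            _ = (r1 ^ (2 ^ n)) ^ 2 := by rw [← pow_mul, pow_succ]
  intro r hr
  obtain ⟨n, hn⟩ := pow_unbounded_of_one_lt r h1
  refine key n r hr (hn.le.trans ?_)
  exact pow_le_pow_right₀ h1.le (Nat.lt_two_pow_self).le

/-- **LEAF L-256-TRI-IND (3).**  By induction on `n`: `∀ r, 1 ≤ r → r ≤ r1 * q ^ n → P r`. -/
theorem tri_ind_div (P : ℝ → Prop) (r1 q : ℝ) (hq : 1 < q) (hq1 : q ≤ r1) (hb : ∀ r, 1 ≤ r → r ≤ r1 → P r) (hs : ∀ r, r1 < r → P (r / q) → P r) :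
    ∀ r, 1 ≤ r → P r := by
  have hq0 : 0 < q := by linarith
  have key : ∀ n : ℕ, ∀ r, 1 ≤ r → r ≤ r1 * q ^ n → P r := by
    intro n
    induction n with
    | zero => intro r hr h; exact hb r hr (by simpa using h)
    | succ n ih =>
      intro r hr h
      by_cases hc : r ≤ r1
      · exact hb r hr hc
      · have hc := not_le.mp hc
        refine hs r hc (ih _ ?_ ?_)
        · rw [le_div_iff₀ hq0]; linarith
        · rw [div_le_iff₀ hq0]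
          calc r ≤ r1 * q ^ (n + 1) := h
            _ = r1 * q ^ n * q := by ring
  intro r hr
  obtain ⟨n, hn⟩ := pow_unbounded_of_one_lt r hq
  refine key n r hr (hn.le.trans ?_)
  have : 0 < q ^ n := by positivity
  nlinarith

/-- **LEAF L-256-TRI-REGROUP: cells of width `w = 1/(2 r^{1/4})`.**
PLAN.  `cell x = ⌊x / w⌋`;  `φ x` = any fixed element of `X` in the cell of `x` (e.g. `(X.filter (cell · = cell x)).min'`, or `Classical.choose`; for `x ∉ X` anything), so that `φ x = φ y ↔ cell x = cell y` on `X`.   `|x - φ x| ≤ w`.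
`bd`: `φ x ∈ X`.   `mult`: the points of `X.image φ` lie in DISTINCT cells; an interval of length `2/√(√r) = 4w` meets at most `5` cells (`Finset.card_le_card_of_injOn cell` into `Finset.Icc ⌊(y-2w)/w⌋ (⌊(y-2w)/w⌋ + 4)`).
`fs`: `TFS.sum` after `TFS.mono`?  NO: first `TFS.mul (hG.fs x) hη : TFS (tPlank x r + ball)`, `TFS.mono (tri_plank_cell ..)`, then `TFS.sum` and `Finset.sum_mul`. -/
theorem tri_regroup (r : ℝ) (hr : 256 ≤ r) (m : ℕ) (X : Finset ℝ) (G : ℝ → TV → ℂ) (hG : TFam r m X G) :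
    ∃ φ : ℝ → ℝ, (∀ x ∈ X, φ x ∈ X) ∧ ∀ η : TV → ℂ, TFS (Metric.closedBall 0 (1 / (16 * √r))) η →
      TFam (√r) 5 (X.image φ) (fun x' p => (∑ x ∈ X.filter (fun x => φ x = x'), G x p) * η p) := by
  classical
  have hr0 : 0 < r := by linarith
  have hs0 : 0 < √r := Real.sqrt_pos.mpr hr0
  have hss0 : 0 < √(√r) := Real.sqrt_pos.mpr hs0
  set w : ℝ := 1 / (2 * √(√r)) with hw
  have hw0 : 0 < w := by positivity
  have h2w : 1 / √(√r) = 2 * w := by rw [hw]; field_simp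
  let cell : ℝ → ℤ := fun x => ⌊x / w⌋
  let rep : ℤ → ℝ := fun n => if h : ∃ y ∈ X, cell y = n then Classical.choose h else 0
  have hrep : ∀ x ∈ X, rep (cell x) ∈ X ∧ cell (rep (cell x)) = cell x := by
    intro x hx
    have h : ∃ y ∈ X, cell y = cell x := ⟨x, hx, rfl⟩
    simp only [rep, dif_pos h]
    exact Classical.choose_spec h
  have hclose : ∀ a b : ℝ, cell a = cell b → |a - b| ≤ w := by
    intro a b hab
    have ha1 : (cell a : ℝ) ≤ a / w := Int.floor_le _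
    have ha2 : a / w < cell a + 1 := Int.lt_floor_add_one _
    have hb1 : (cell b : ℝ) ≤ b / w := Int.floor_le _
    have hb2 : b / w < cell b + 1 := Int.lt_floor_add_one _
    rw [hab] at ha1 ha2
    rw [le_div_iff₀ hw0] at ha1 hb1
    rw [div_lt_iff₀ hw0] at ha2 hb2
    rw [abs_le]
    constructor <;> nlinarith
  refine ⟨fun x => rep (cell x), fun x hx => (hrep x hx).1, fun η hη => ⟨?_, ?_, ?_⟩⟩
  · intro x' hx'
    obtain ⟨x, hx, rfl⟩ := Finset.mem_image.1 hx'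
    exact hG.bd _ (hrep x hx).1
  · intro y
    set n0 : ℤ := ⌊(y - 2 * w) / w⌋ with hn0
    have hcard : (Finset.Icc n0 (n0 + 4)).card = 5 := by
      rw [Int.card_Icc]
      have : n0 + 4 + 1 - n0 = 5 := by ring
      rw [this]
      rfl
    rw [← hcard]
    apply Finset.card_le_card_of_injOn cell
    · intro x' hx'
      have hx'' := Finset.mem_filter.1 (Finset.mem_coe.1 hx')
      have habs := hx''.2
      rw [h2w, abs_le] at habs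
      simp only [Finset.coe_Icc, Set.mem_Icc]
      constructor
      · apply Int.floor_le_floor
        apply div_le_div_of_nonneg_right _ hw0.le
        linarith [habs.1]
      · have h1 : x' / w ≤ (y - 2 * w) / w + 4 := by
          rw [div_add' _ _ _ hw0.ne']
          apply div_le_div_of_nonneg_right _ hw0.le
          linarith [habs.2]
        have h2 : cell x' ≤ ⌊(y - 2 * w) / w + 4⌋ := Int.floor_le_floor h1
        have h3 : ⌊(y - 2 * w) / w + 4⌋ = n0 + 4 := by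
          have := Int.floor_add_intCast ((y - 2 * w) / w) 4
          rw [hn0, ← this]
          norm_num
        rw [h3] at h2
        exact h2
    · intro a ha b hb hab
      have ha' := (Finset.mem_filter.1 (Finset.mem_coe.1 ha)).1
      have hb' := (Finset.mem_filter.1 (Finset.mem_coe.1 hb)).1
      obtain ⟨x, hx, rfl⟩ := Finset.mem_image.1 ha'
      obtain ⟨x2, hx2, rfl⟩ := Finset.mem_image.1 hb'
      rw [(hrep x hx).2, (hrep x2 hx2).2] at hab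
      simp only [hab]
  · intro x' hx'
    obtain ⟨x0, hx0, rfl⟩ := Finset.mem_image.1 hx'
    have hx'X : rep (cell x0) ∈ X := (hrep x0 hx0).1
    have hsum : (fun p => (∑ x ∈ X.filter (fun x => rep (cell x) = rep (cell x0)), G x p) * η p)
        = fun p => ∑ x ∈ X.filter (fun x => rep (cell x) = rep (cell x0)), G x p * η p := by
      funext p
      rw [Finset.sum_mul]
    rw [hsum]
    apply TFS.sum
    intro x hx
    obtain ⟨hxX, hxe⟩ := Finset.mem_filter.1 hx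
    have hcl : |x - rep (cell x0)| ≤ 1 / (2 * √(√r)) := by
      rw [← hxe]
      exact hclose _ _ (hrep x hxX).2.symm
    exact TFS.mono (tri_plank_cell r hr x _ (hG.bd x hxX) (hG.bd _ hx'X) hcl) (TFS.mul (hG.fs x hxX) hη)

theorem tri_teta_cont (ρ : ℝ) (z : TV) : Continuous (teta ρ z) := by
  unfold teta
  exact teta0.continuous.comp (by fun_prop)

/-- **LEAF L-256-TRI-COVER.**  For every `p` the index `k i = round (p i / ρ)` has `|p i - ρ k i| ≤ ρ/2`, so `1 ≤ ∑' k ‖η_k p‖ₑ³` (`tri_eta_ge`, `ENNReal.le_tsum`);  `lintegral_tsum` (measurability: `f` measurable, `teta` continuous: `teta0.continuous`). -/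
theorem tri_cover (ρ : ℝ) (hρ : 0 < ρ) (f : TV → ℝ≥0∞) (hf : Measurable f) :
    ∫⁻ p, f p ≤ ∑' k : Fin 3 → ℤ, ∫⁻ p, f p * ‖teta ρ (tlat ρ k) p‖ₑ ^ 3 := by
  rw [← lintegral_tsum (f := fun (k : Fin 3 → ℤ) (p : TV) => f p * ‖teta ρ (tlat ρ k) p‖ₑ ^ 3)
    (fun k => (hf.mul ((tri_teta_cont ρ _).enorm.measurable.pow_const 3)).aemeasurable)]
  refine lintegral_mono fun p => ?_
  rw [ENNReal.tsum_mul_left]
  have h1 : 1 ≤ ∑' k : Fin 3 → ℤ, ‖teta ρ (tlat ρ k) p‖ₑ ^ 3 := by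
    refine le_trans ?_ (ENNReal.le_tsum (fun i => round (p i / ρ)))
    have h2 : 1 ≤ ‖teta ρ (tlat ρ (fun i => round (p i / ρ))) p‖ := by
      refine tri_eta_ge ρ hρ _ p fun i => ?_
      rw [tri_tlat_apply]
      have h3 := abs_sub_round (p i / ρ)
      have e : p i - ρ * (round (p i / ρ) : ℝ) = ρ * (p i / ρ - round (p i / ρ)) := by
        field_simp
      rw [e, abs_mul, abs_of_pos hρ]
      calc ρ * |p i / ρ - round (p i / ρ)| ≤ ρ * (1 / 2) := by gcongr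
        _ = ρ / 2 := by ring
    have h4 : (1 : ℝ≥0∞) ≤ ‖teta ρ (tlat ρ (fun i => round (p i / ρ))) p‖ₑ := by
      rw [← ofReal_norm]
      exact ENNReal.one_le_ofReal.2 h2
    exact one_le_pow₀ h4
  calc f p = f p * 1 := (mul_one _).symm
    _ ≤ _ := by gcongr

/-- **LEAF L-256-TRI-STEPBALL: one ball of radius `√r`.**
PLAN.  `η = teta (√r) z`, `tri_eta_fs`.   `φ i` from `tri_regroup`;  `X' i = (X i).image (φ i) ⊆ X i` (so `TSep ν X'`);  `G' i x' p = (∑_{x ∈ fibre} G i x p) η p`.   `∑_{x' ∈ X' i} G' i x' p = (∑_{x ∈ X i} G i x p) η p` (`Finset.sum_fiberwise_of_maps_to`, `Finset.sum_mul`),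
`∏ i ‖a i η‖ₑ = (∏ ‖a i‖ₑ) ‖η‖ₑ³` (`Fin.prod_univ_three`, `enorm_mul`).   Apply `TRc ν (√r) 5 M`;  `(√r)^{-3/2} = r^{-3/4}`.
`tE (G' i x') = ∫ ‖∑_{fibre} G‖² ‖η‖² ≤ 5m ∑_{fibre} ∫ ‖G i x‖² ‖η‖²` (`tri_orth` for the subfamily, `TFam.subset`) `≤ 5m C₄₀ ∑_{fibre} ∫ ‖G i x‖² tWt 40` (`tri_eta_decay 40`);  sum over the fibres.   Constant `(5 m C₄₀)^{3/2}`. -/
theorem tri_step_ball (m : ℕ) : ∃ C : ℝ, 0 ≤ C ∧ ∀ ν r M : ℝ, 256 ≤ r → 0 ≤ M → TRc ν (√r) 5 M →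
    ∀ (X : Fin 3 → Finset ℝ) (G : Fin 3 → ℝ → TV → ℂ), (∀ i, TFam r m (X i) (G i)) → TSep ν X → ∀ z : TV,
    ∫⁻ p, (∏ i, ‖∑ x ∈ X i, G i x p‖ₑ) * ‖teta (√r) z p‖ₑ ^ 3
      ≤ ENNReal.ofReal (C * M * r ^ (-(3 / 4) : ℝ)) * ∏ i, (∑ x ∈ X i, ∫⁻ p, ‖G i x p‖ₑ ^ 2 * tWt 40 (√r) z p) ^ (1 / 2 : ℝ) := by
  classical
  obtain ⟨C40, hC40, hdecay⟩ := tri_eta_decay 40
  set K : ℝ := 5 * m * C40 with hK
  have hK0 : 0 ≤ K := by positivity
  refine ⟨(K ^ (1 / 2 : ℝ)) ^ 3, by positivity, ?_⟩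
  intro ν r M hr hM hTR X G hG hsep z
  have hr0 : 0 < r := by linarith
  have hs0 : 0 < √r := Real.sqrt_pos.mpr hr0
  set η : TV → ℂ := teta (√r) z with hη
  have hηfs : TFS (Metric.closedBall 0 (1 / (16 * √r))) η := tri_eta_fs (√r) hs0 z
  choose φ hφX hφ using fun i => tri_regroup r hr m (X i) (G i) (hG i)
  set X' : Fin 3 → Finset ℝ := fun i => (X i).image (φ i) with hX'
  set G' : Fin 3 → ℝ → TV → ℂ := fun i x' p => (∑ x ∈ (X i).filter (fun x => φ i x = x'), G i x p) * η p with hG'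
  have hfam : ∀ i, TFam (√r) 5 (X' i) (G' i) := fun i => hφ i η hηfs
  have hsub : ∀ i, X' i ⊆ X i := by
    intro i x' hx'
    obtain ⟨x, hx, rfl⟩ := Finset.mem_image.1 hx'
    exact hφX i x hx
  have hsep' : TSep ν X' := fun i j hij x hx x' hx' => hsep i j hij x (hsub i hx) x' (hsub j hx')
  have hmain := hTR X' G' hfam hsep'
  have hsumG : ∀ i p, ∑ x' ∈ X' i, G' i x' p = (∑ x ∈ X i, G i x p) * η p := by
    intro i p
    simp only [hG']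
    rw [← Finset.sum_mul, Finset.sum_fiberwise_of_maps_to (fun x hx => Finset.mem_image_of_mem _ hx)]
  have hL : ∫⁻ p, (∏ i, ‖∑ x ∈ X i, G i x p‖ₑ) * ‖η p‖ₑ ^ 3 = ∫⁻ p, ∏ i, ‖∑ x' ∈ X' i, G' i x' p‖ₑ := by
    congr 1
    funext p
    simp only [hsumG, enorm_mul]
    rw [Finset.prod_mul_distrib, Finset.prod_const]
    simp
  set I : Fin 3 → ℝ → ℝ≥0∞ := fun i x => ∫⁻ p, ‖G i x p‖ₑ ^ 2 * tWt 40 (√r) z p with hI
  have hE : ∀ i x', tE (G' i x') ≤ ENNReal.ofReal K * ∑ x ∈ (X i).filter (fun x => φ i x = x'), I i x := by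
    intro i x'
    have h1 : tE (G' i x') = ∫⁻ p, ‖∑ x ∈ (X i).filter (fun x => φ i x = x'), G i x p‖ₑ ^ 2 * ‖teta (√r) z p‖ₑ ^ 2 := by
      unfold tE
      congr 1
      funext p
      simp only [hG', enorm_mul, mul_pow]
      rfl
    have h2 := tri_orth r hr m _ (G i) ((hG i).subset (Finset.filter_subset (fun x => φ i x = x') (X i))) z
    rw [h1]
    refine h2.trans ?_
    have h3 : ∀ x, ∫⁻ p, ‖G i x p‖ₑ ^ 2 * ‖teta (√r) z p‖ₑ ^ 2 ≤ ENNReal.ofReal C40 * I i x := by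
      intro x
      simp only [hI]
      rw [← lintegral_const_mul' _ _ ENNReal.ofReal_ne_top]
      refine lintegral_mono fun p => ?_
      calc ‖G i x p‖ₑ ^ 2 * ‖teta (√r) z p‖ₑ ^ 2 ≤ ‖G i x p‖ₑ ^ 2 * (ENNReal.ofReal C40 * tWt 40 (√r) z p) := by
            gcongr
            exact hdecay (√r) hs0 z p
        _ = _ := by ring
    calc ((5 * m : ℕ) : ℝ≥0∞) * ∑ x ∈ (X i).filter (fun x => φ i x = x'), ∫⁻ p, ‖G i x p‖ₑ ^ 2 * ‖teta (√r) z p‖ₑ ^ 2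
        ≤ ((5 * m : ℕ) : ℝ≥0∞) * ∑ x ∈ (X i).filter (fun x => φ i x = x'), ENNReal.ofReal C40 * I i x := by
          gcongr with x _
          exact h3 x
      _ = ENNReal.ofReal K * ∑ x ∈ (X i).filter (fun x => φ i x = x'), I i x := by
          rw [← Finset.mul_sum, ← mul_assoc, hK, ENNReal.ofReal_mul (by positivity)]
          congr 2
          rw [← ENNReal.ofReal_natCast]
          push_cast
          rfl
  have hEs : ∀ i, ∑ x' ∈ X' i, tE (G' i x') ≤ ENNReal.ofReal K * ∑ x ∈ X i, I i x := by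
    intro i
    calc ∑ x' ∈ X' i, tE (G' i x') ≤ ∑ x' ∈ X' i, ENNReal.ofReal K * ∑ x ∈ (X i).filter (fun x => φ i x = x'), I i x :=
          Finset.sum_le_sum fun x' _ => hE i x'
      _ = ENNReal.ofReal K * ∑ x ∈ X i, I i x := by
          rw [← Finset.mul_sum, Finset.sum_fiberwise_of_maps_to (fun x hx => Finset.mem_image_of_mem _ hx)]
  have hpow : (√r) ^ (-(3 / 2) : ℝ) = r ^ (-(3 / 4) : ℝ) := by
    rw [Real.sqrt_eq_rpow, ← Real.rpow_mul hr0.le]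
    norm_num
  calc ∫⁻ p, (∏ i, ‖∑ x ∈ X i, G i x p‖ₑ) * ‖η p‖ₑ ^ 3
      = ∫⁻ p, ∏ i, ‖∑ x' ∈ X' i, G' i x' p‖ₑ := hL
    _ ≤ ENNReal.ofReal (M * (√r) ^ (-(3 / 2) : ℝ)) * ∏ i, (∑ x' ∈ X' i, tE (G' i x')) ^ (1 / 2 : ℝ) := hmain
    _ ≤ ENNReal.ofReal (M * (√r) ^ (-(3 / 2) : ℝ)) * ∏ i, (ENNReal.ofReal K * ∑ x ∈ X i, I i x) ^ (1 / 2 : ℝ) := by
        gcongr with i _
        exact hEs i
    _ = ENNReal.ofReal ((K ^ (1 / 2 : ℝ)) ^ 3 * M * r ^ (-(3 / 4) : ℝ)) * ∏ i, (∑ x ∈ X i, I i x) ^ (1 / 2 : ℝ) := by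
        simp only [ENNReal.mul_rpow_of_nonneg _ _ (by norm_num : (0 : ℝ) ≤ 1 / 2)]
        rw [Finset.prod_mul_distrib, Finset.prod_const, ← mul_assoc, hpow]
        congr 1
        rw [ENNReal.ofReal_rpow_of_nonneg hK0 (by norm_num), ← ENNReal.ofReal_pow (by positivity),
          ← ENNReal.ofReal_mul (by positivity)]
        congr 1
        simp
        ring

theorem tri_enorm_sq (z : ℂ) : ‖z‖ₑ ^ 2 = ENNReal.ofReal (‖z‖ ^ 2) := by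
  rw [ENNReal.ofReal_pow (norm_nonneg _), ofReal_norm]

theorem tri_step_LD : ∃ A : ℝ, 0 ≤ A ∧ ∀ r : ℝ, 0 < r → ∀ (x : ℝ) (G : TV → ℂ), TFS (tPlank x r) G → ∀ p : TV,
    ‖G p‖ₑ ^ 2 ≤ ENNReal.ofReal (A / r) * ∫⁻ s : ℝ, ‖G (p + s • tdir x)‖ₑ ^ 2 * ENNReal.ofReal ((1 + |s| / r) ^ (-10 : ℝ)) := by
  obtain ⟨A, hA, h⟩ := tri_line 10
  refine ⟨A * 2, by positivity, fun r hr x G hG p => ?_⟩
  have h1 := h (2 / r) (by positivity) x (tPlank x r) G (fun ω hω => tri_plank_slab x r ω hω) hG p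
  refine h1.trans ?_
  have e : A * (2 / r) = A * 2 / r := by ring
  rw [e]
  gcongr with s
  have e2 : (-((10 : ℕ) : ℝ)) = (-10 : ℝ) := by norm_num
  rw [e2]
  refine Real.rpow_le_rpow_of_nonpos (by positivity) ?_ (by norm_num)
  have h2 : 0 ≤ |s| / r := by positivity
  have e3 : 2 / r * |s| = 2 * (|s| / r) := by ring
  rw [e3]
  linarith

/-- **LEAF L-256-TRI-STEP (glue): one step of the induction on scales.**
PLAN.  `tri_cover (√r)` with `f = ∏ i ‖∑ G i x‖ₑ` (continuous: `TFS.continuous`);  `tri_step_ball` with `z = tlat (√r) k`;  `ENNReal.tsum_mul_left`;  `tri_kak ν ε` with `H i x p = ‖G i x p‖ₑ²` (measurable, bounded: `TFS.continuous`, `TFS.bdd`),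
`LD` from `tri_line 10` with `a = 2/r`, `S = tPlank x r` (`tri_plank_slab`): `A_kak = 2 A_line`, `(1 + (2/r)|s|)^{-10} ≤ (1 + |s|/r)^{-10}`.   `r^{-3/4} r^{-3/4} = r^{-3/2}`. -/
theorem tri_step (ν ε : ℝ) (hν : 0 < ν) (hν1 : ν ≤ 1) (hε : 0 < ε) (m : ℕ) : ∃ C : ℝ, 0 ≤ C ∧ ∀ r M : ℝ, 256 ≤ r → 0 ≤ M →
    TRc ν (√r) 5 M → TRc ν r m (C * r ^ ε * M) := by
  obtain ⟨Cb, hCb, hball⟩ := tri_step_ball m
  obtain ⟨Ck, hCk, hkak⟩ := tri_kak ν ε hν hν1 hε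
  obtain ⟨A, hA, hLD⟩ := tri_step_LD
  refine ⟨Cb * (Ck * A ^ (3 / 2 : ℝ)), by positivity, fun r M hr hM hTR X G hfam hsep => ?_⟩
  have hr1 : 1 ≤ r := by linarith
  have hr0 : 0 < r := by linarith
  have hρ0 : 0 < √r := Real.sqrt_pos.2 hr0
  have hGc : ∀ i, ∀ x ∈ X i, Continuous (G i x) := fun i x hx => ((hfam i).fs x hx).continuous
  have hfm : Measurable fun p : TV => ∏ i, ‖∑ x ∈ X i, G i x p‖ₑ := by
    refine Finset.measurable_prod _ fun i _ => ?_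
    exact (continuous_finsetSum _ fun x hx => hGc i x hx).enorm.measurable
  have hk := hkak r hr1 A hA X (fun i x hx => (hfam i).bd x hx) hsep (fun i x p => ‖G i x p‖ₑ ^ 2)
    (fun i x hx => (hGc i x hx).enorm.measurable.pow_const 2)
    (fun i x hx => by
      obtain ⟨B, hB0, hB⟩ := ((hfam i).fs x hx).bdd
      refine ⟨B ^ 2, fun p => ?_⟩
      rw [tri_enorm_sq]
      apply ENNReal.ofReal_le_ofReal
      have := hB p
      gcongr)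
    (fun i x hx p => hLD r hr0 x (G i x) ((hfam i).fs x hx) p)
  calc ∫⁻ p, ∏ i, ‖∑ x ∈ X i, G i x p‖ₑ
      ≤ ∑' k : Fin 3 → ℤ, ∫⁻ p, (∏ i, ‖∑ x ∈ X i, G i x p‖ₑ) * ‖teta (√r) (tlat (√r) k) p‖ₑ ^ 3 := tri_cover (√r) hρ0 _ hfm
    _ ≤ ∑' k : Fin 3 → ℤ, ENNReal.ofReal (Cb * M * r ^ (-(3 / 4) : ℝ))
          * ∏ i, (∑ x ∈ X i, ∫⁻ p, ‖G i x p‖ₑ ^ 2 * tWt 40 (√r) (tlat (√r) k) p) ^ (1 / 2 : ℝ) :=
        ENNReal.tsum_le_tsum fun k => hball ν r M hr hM hTR X G hfam hsep _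
    _ = ENNReal.ofReal (Cb * M * r ^ (-(3 / 4) : ℝ))
          * ∑' k : Fin 3 → ℤ, ∏ i, (∑ x ∈ X i, ∫⁻ p, ‖G i x p‖ₑ ^ 2 * tWt 40 (√r) (tlat (√r) k) p) ^ (1 / 2 : ℝ) := ENNReal.tsum_mul_left
    _ ≤ ENNReal.ofReal (Cb * M * r ^ (-(3 / 4) : ℝ))
          * (ENNReal.ofReal (Ck * A ^ (3 / 2 : ℝ) * r ^ ε * r ^ (-(3 / 4) : ℝ)) * ∏ i, (∑ x ∈ X i, ∫⁻ p, ‖G i x p‖ₑ ^ 2) ^ (1 / 2 : ℝ)) := by
        gcongr
    _ = ENNReal.ofReal (Cb * (Ck * A ^ (3 / 2 : ℝ)) * r ^ ε * M * r ^ (-(3 / 2) : ℝ)) * ∏ i, (∑ x ∈ X i, tE (G i x)) ^ (1 / 2 : ℝ) := by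
        rw [← mul_assoc, ← ENNReal.ofReal_mul (by positivity)]
        have e : r ^ (-(3 / 2) : ℝ) = r ^ (-(3 / 4) : ℝ) * r ^ (-(3 / 4) : ℝ) := by
          rw [← Real.rpow_add hr0]; norm_num
        rw [e]
        congr 2
        ring

/-- **LEAF L-256-TRI-CS.**  Cauchy-Schwarz: `‖∑ a‖² ≤ card ∑ ‖a‖²` pointwise (`inner_mul_le_norm_mul_norm`-free: `sq_sum_le_card_mul_sum_sq` on the norms), integrate (`lintegral_finset_sum'`; measurability from `hG`). -/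
theorem tri_energy_sum (Y : Finset ℝ) (G : ℝ → TV → ℂ) (hG : ∀ x ∈ Y, Continuous (G x)) :
    tE (fun p => ∑ x ∈ Y, G x p) ≤ (Y.card : ℝ≥0∞) * ∑ x ∈ Y, tE (G x) := by
  unfold tE
  have hpt : ∀ p, ‖∑ x ∈ Y, G x p‖ₑ ^ 2 ≤ (Y.card : ℝ≥0∞) * ∑ x ∈ Y, ‖G x p‖ₑ ^ 2 := by
    intro p
    simp only [tri_enorm_sq]
    rw [← ENNReal.ofReal_sum_of_nonneg (fun x _ => by positivity), ← ENNReal.ofReal_natCast,
      ← ENNReal.ofReal_mul (by positivity)]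
    apply ENNReal.ofReal_le_ofReal
    calc ‖∑ x ∈ Y, G x p‖ ^ 2 ≤ (∑ x ∈ Y, ‖G x p‖) ^ 2 := by
          gcongr
          exact norm_sum_le _ _
      _ ≤ _ := sq_sum_le_card_mul_sum_sq
  refine (lintegral_mono hpt).trans (le_of_eq ?_)
  rw [lintegral_const_mul' _ _ (ENNReal.natCast_ne_top _),
    lintegral_finsetSum _ (fun x hx => (hG x hx).enorm.measurable.pow_const 2)]

theorem tri_base_const (C N r r1 : ℝ) (hC : 0 ≤ C) (hN : 0 ≤ N) (hr : 1 ≤ r) (hr1 : r ≤ r1) :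
    ENNReal.ofReal C ^ (1 / 2 : ℝ) * (ENNReal.ofReal N ^ (1 / 2 : ℝ)) ^ 3
      ≤ ENNReal.ofReal (C ^ (1 / 2 : ℝ) * (N ^ (1 / 2 : ℝ)) ^ 3 * (max r1 1) ^ (3 / 2 : ℝ) * r ^ (-(3 / 2) : ℝ)) := by
  have hr0 : 0 < r := by linarith
  rw [ENNReal.ofReal_rpow_of_nonneg hC (by norm_num), ENNReal.ofReal_rpow_of_nonneg hN (by norm_num),
    ← ENNReal.ofReal_pow (by positivity), ← ENNReal.ofReal_mul (by positivity)]
  apply ENNReal.ofReal_le_ofReal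
  have h1 : 1 ≤ (max r1 1) ^ (3 / 2 : ℝ) * r ^ (-(3 / 2) : ℝ) := by
    have h2 : r ^ (3 / 2 : ℝ) ≤ (max r1 1) ^ (3 / 2 : ℝ) :=
      Real.rpow_le_rpow hr0.le (hr1.trans (le_max_left _ _)) (by norm_num)
    have h3 : 0 < r ^ (3 / 2 : ℝ) := Real.rpow_pos_of_pos hr0 _
    rw [Real.rpow_neg hr0.le, ← div_eq_mul_inv, le_div_iff₀ h3]
    linarith
  have h0 : 0 ≤ C ^ (1 / 2 : ℝ) * (N ^ (1 / 2 : ℝ)) ^ 3 := by positivity
  calc C ^ (1 / 2 : ℝ) * (N ^ (1 / 2 : ℝ)) ^ 3 = C ^ (1 / 2 : ℝ) * (N ^ (1 / 2 : ℝ)) ^ 3 * 1 := (mul_one _).symm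
    _ ≤ C ^ (1 / 2 : ℝ) * (N ^ (1 / 2 : ℝ)) ^ 3 * ((max r1 1) ^ (3 / 2 : ℝ) * r ^ (-(3 / 2) : ℝ)) := by gcongr
    _ = _ := by ring

theorem tri_cs2 (f g : TV → ℂ) (hf : Continuous f) (hg : Continuous g) :
    ∫⁻ p, ‖f p‖ₑ * ‖g p‖ₑ ≤ tE f ^ (1 / 2 : ℝ) * tE g ^ (1 / 2 : ℝ) := by
  have hh : (2 : ℝ).HolderConjugate 2 := by
    rw [Real.holderConjugate_iff]
    norm_num
  have h := ENNReal.lintegral_mul_le_Lp_mul_Lq (volume : Measure TV) hh (f := fun p => ‖f p‖ₑ) (g := fun p => ‖g p‖ₑ)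
    hf.enorm.measurable.aemeasurable hg.enorm.measurable.aemeasurable
  simpa [tE] using h

/-- **LEAF L-256-TRI-BASE: bounded scales.**
PLAN.  `F i = ∑_{x ∈ X i} G i x ∈ TFS (closedBall 0 20)` (`tri_plank_ball`, `TFS.sum`).   `tri_sup 0`: `‖F 2 p‖ₑ² ≤ C tE (F 2)` (`tWt 0 = 1`).   `∫ ‖F 0‖ ‖F 1‖ ≤ tE(F 0)^{1/2} tE(F 1)^{1/2}` (`ENNReal.lintegral_mul_le_Lp_mul_Lq` with `p = q = 2`).
`tE (F i) ≤ card ∑ tE (G i x)` (`tri_energy_sum`), `card ≤ ⌈√r⌉₊ m ≤ (√r1 + 1) m` (`TFam.card_le`).   `M = C^{1/2} ((√r1 + 1) m)^{3/2} r1^{3/2}`, `r^{-3/2} ≥ r1^{-3/2}`. -/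
theorem tri_base (ν : ℝ) (m : ℕ) (r1 : ℝ) : ∃ M : ℝ, 0 ≤ M ∧ ∀ r : ℝ, 1 ≤ r → r ≤ r1 → TRc ν r m M := by
  obtain ⟨C, hC, hsup⟩ := tri_sup 0
  obtain ⟨N, hN⟩ : ∃ N : ℝ, N = (√r1 + 1) * m := ⟨_, rfl⟩
  have hN0 : 0 ≤ N := by rw [hN]; positivity
  refine ⟨C ^ (1 / 2 : ℝ) * (N ^ (1 / 2 : ℝ)) ^ 3 * (max r1 1) ^ (3 / 2 : ℝ), by positivity, fun r hr hr1 X G hfam _ => ?_⟩
  have hr0 : 0 < r := by linarith
  obtain ⟨F, hF⟩ : ∃ F : Fin 3 → TV → ℂ, F = fun i p => ∑ x ∈ X i, G i x p := ⟨_, rfl⟩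
  have hFS : ∀ i, TFS (Metric.closedBall 0 20) (F i) := by
    intro i
    rw [hF]
    exact TFS.sum (X i) (G i) fun x hx => TFS.mono (tri_plank_ball x r hr ((hfam i).bd x hx)) ((hfam i).fs x hx)
  have hFc : ∀ i, Continuous (F i) := fun i => (hFS i).continuous
  obtain ⟨Sg, hSg⟩ : ∃ Sg : Fin 3 → ℝ≥0∞, Sg = fun i => ∑ x ∈ X i, tE (G i x) := ⟨_, rfl⟩
  have hE : ∀ i, tE (F i) ≤ ENNReal.ofReal N * Sg i := by
    intro i
    have h1 : tE (F i) ≤ ((X i).card : ℝ≥0∞) * ∑ x ∈ X i, tE (G i x) := by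
      rw [hF]
      exact tri_energy_sum (X i) (G i) fun x hx => ((hfam i).fs x hx).continuous
    refine h1.trans ?_
    rw [hSg]
    gcongr
    rw [← ENNReal.ofReal_natCast]
    apply ENNReal.ofReal_le_ofReal
    have h2 : (((X i).card : ℕ) : ℝ) ≤ ((⌈√r⌉₊ * m : ℕ) : ℝ) := by exact_mod_cast (hfam i).card_le hr0
    refine h2.trans ?_
    rw [hN]
    push_cast
    gcongr
    have h3 : (⌈√r⌉₊ : ℝ) < √r + 1 := Nat.ceil_lt_add_one (Real.sqrt_nonneg _)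
    have h4 : √r ≤ √r1 := Real.sqrt_le_sqrt hr1
    linarith
  have hE' : ∀ i, tE (F i) ^ (1 / 2 : ℝ) ≤ ENNReal.ofReal N ^ (1 / 2 : ℝ) * Sg i ^ (1 / 2 : ℝ) := by
    intro i
    rw [← ENNReal.mul_rpow_of_nonneg _ _ (by norm_num)]
    exact ENNReal.rpow_le_rpow (hE i) (by norm_num)
  have h2 : ∀ p, ‖F 2 p‖ₑ ≤ ENNReal.ofReal C ^ (1 / 2 : ℝ) * tE (F 2) ^ (1 / 2 : ℝ) := by
    intro p
    have h := hsup (F 2) (hFS 2) p
    have e : ∫⁻ q, ‖F 2 q‖ₑ ^ 2 * tWt 0 1 p q = tE (F 2) := by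
      simp [tWt, tE]
    rw [e] at h
    rw [← ENNReal.mul_rpow_of_nonneg _ _ (by norm_num)]
    have h' := ENNReal.rpow_le_rpow h (z := 1 / 2) (by norm_num)
    refine le_trans (le_of_eq ?_) h'
    rw [← ENNReal.rpow_natCast, ← ENNReal.rpow_mul]
    norm_num
  have hgoal : ∫⁻ p, ∏ i, ‖∑ x ∈ X i, G i x p‖ₑ = ∫⁻ p, ‖F 0 p‖ₑ * ‖F 1 p‖ₑ * ‖F 2 p‖ₑ := by
    simp only [Fin.prod_univ_three, hF]
  have hprod : ∏ i, (∑ x ∈ X i, tE (G i x)) ^ (1 / 2 : ℝ) = Sg 0 ^ (1 / 2 : ℝ) * Sg 1 ^ (1 / 2 : ℝ) * Sg 2 ^ (1 / 2 : ℝ) := by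
    simp only [Fin.prod_univ_three, hSg]
  rw [hgoal, hprod]
  calc ∫⁻ p, ‖F 0 p‖ₑ * ‖F 1 p‖ₑ * ‖F 2 p‖ₑ
      ≤ ∫⁻ p, ‖F 0 p‖ₑ * ‖F 1 p‖ₑ * (ENNReal.ofReal C ^ (1 / 2 : ℝ) * tE (F 2) ^ (1 / 2 : ℝ)) := by
        refine lintegral_mono fun p => ?_
        gcongr
        exact h2 p
    _ = (∫⁻ p, ‖F 0 p‖ₑ * ‖F 1 p‖ₑ) * (ENNReal.ofReal C ^ (1 / 2 : ℝ) * tE (F 2) ^ (1 / 2 : ℝ)) :=
        lintegral_mul_const _ ((hFc 0).enorm.measurable.mul (hFc 1).enorm.measurable)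
    _ ≤ (tE (F 0) ^ (1 / 2 : ℝ) * tE (F 1) ^ (1 / 2 : ℝ)) * (ENNReal.ofReal C ^ (1 / 2 : ℝ) * tE (F 2) ^ (1 / 2 : ℝ)) := by
        gcongr
        exact tri_cs2 _ _ (hFc 0) (hFc 1)
    _ ≤ ((ENNReal.ofReal N ^ (1 / 2 : ℝ) * Sg 0 ^ (1 / 2 : ℝ)) * (ENNReal.ofReal N ^ (1 / 2 : ℝ) * Sg 1 ^ (1 / 2 : ℝ)))
          * (ENNReal.ofReal C ^ (1 / 2 : ℝ) * (ENNReal.ofReal N ^ (1 / 2 : ℝ) * Sg 2 ^ (1 / 2 : ℝ))) := by
        gcongr <;> exact hE' _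
    _ = (ENNReal.ofReal C ^ (1 / 2 : ℝ) * (ENNReal.ofReal N ^ (1 / 2 : ℝ)) ^ 3)
          * (Sg 0 ^ (1 / 2 : ℝ) * Sg 1 ^ (1 / 2 : ℝ) * Sg 2 ^ (1 / 2 : ℝ)) := by ring
    _ ≤ _ := by
        gcongr
        exact tri_base_const C N r r1 hC hN0 hr hr1

theorem tri_sqrt_rpow (r ε : ℝ) (hr : 0 ≤ r) : (√r) ^ ε = r ^ (ε / 2) := by
  rw [Real.sqrt_eq_rpow, ← Real.rpow_mul hr]
  congr 1
  ring

/-- **LEAF L-256-TRI-TR (glue): TRILINEAR RESTRICTION FOR THE CONE, `ε`-loss.**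
PLAN.  `C₅` from `tri_step ν (ε/4) 5`, `r1 = max 256 ((C₅ + 1)^{4/ε})`, `M₀` from `tri_base ν 5 r1`.   `P r := TRc ν r 5 (M₀ r^ε)`;  `tri_ind_sqrt`:  base `M₀ ≤ M₀ r^ε`;  step `C₅ r^{ε/4} M₀ (√r)^ε = C₅ r^{-ε/4} M₀ r^ε ≤ M₀ r^ε` (`TRc.mono`).
General `m`: `r ≤ 256`: `tri_base ν m 256`;  `r ≥ 256`: `tri_step ν (ε/4) m` applied to `P (√r)`: constant `C_m r^{ε/4} M₀ r^{ε/2} ≤ C_m M₀ r^ε`. -/
theorem tri_TR (ν ε : ℝ) (hν : 0 < ν) (hν1 : ν ≤ 1) (hε : 0 < ε) (m : ℕ) : ∃ C : ℝ, 0 ≤ C ∧ ∀ r : ℝ, 1 ≤ r → TRc ν r m (C * r ^ ε) := by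
  obtain ⟨C5, hC5, h5⟩ := tri_step ν (ε / 4) hν hν1 (by positivity) 5
  obtain ⟨Cm, hCm, hm⟩ := tri_step ν (ε / 4) hν hν1 (by positivity) m
  obtain ⟨r1, hr1⟩ : ∃ r1 : ℝ, r1 = max 256 ((C5 + 1) ^ (4 / ε)) := ⟨_, rfl⟩
  have hr1a : (256 : ℝ) ≤ r1 := hr1 ▸ le_max_left _ _
  have hr1b : (C5 + 1) ^ (4 / ε) ≤ r1 := hr1 ▸ le_max_right _ _
  obtain ⟨M0, hM0, hb5⟩ := tri_base ν 5 r1
  obtain ⟨Mb, hMb, hbm⟩ := tri_base ν m 256
  have P5 : ∀ r, 1 ≤ r → TRc ν r 5 (M0 * r ^ ε) := by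
    apply tri_ind_sqrt (fun r => TRc ν r 5 (M0 * r ^ ε)) r1 (by linarith)
    · intro r hr hrr
      exact (hb5 r hr hrr).mono (by linarith) (le_mul_of_one_le_right hM0 (Real.one_le_rpow hr hε.le))
    · intro r hr hP
      have h256 : 256 ≤ r := hr1a.trans hr.le
      have hr0 : 0 < r := by linarith
      have h := h5 r (M0 * (√r) ^ ε) h256 (by positivity) hP
      refine h.mono hr0.le ?_
      have hC : C5 ≤ r ^ (ε / 4) := by
        have h1 : ((C5 + 1) ^ (4 / ε)) ^ (ε / 4) ≤ r ^ (ε / 4) :=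
          Real.rpow_le_rpow (by positivity) (hr1b.trans hr.le) (by positivity)
        rw [← Real.rpow_mul (by positivity)] at h1
        have h2 : 4 / ε * (ε / 4) = 1 := by field_simp
        rw [h2, Real.rpow_one] at h1
        linarith
      rw [tri_sqrt_rpow r ε hr0.le]
      have e : r ^ ε = r ^ (ε / 4) * r ^ (ε / 4) * r ^ (ε / 2) := by
        rw [← Real.rpow_add hr0, ← Real.rpow_add hr0]
        congr 1
        ring
      rw [e]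
      have p1 : 0 < r ^ (ε / 4) := by positivity
      have p2 : 0 < r ^ (ε / 2) := by positivity
      calc C5 * r ^ (ε / 4) * (M0 * r ^ (ε / 2)) ≤ r ^ (ε / 4) * r ^ (ε / 4) * (M0 * r ^ (ε / 2)) := by gcongr
        _ = M0 * (r ^ (ε / 4) * r ^ (ε / 4) * r ^ (ε / 2)) := by ring
  refine ⟨max Mb (Cm * M0), le_max_of_le_left hMb, fun r hr => ?_⟩
  have hr0 : 0 < r := by linarith
  by_cases h : r ≤ 256
  · refine (hbm r hr h).mono hr0.le ?_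
    calc Mb ≤ max Mb (Cm * M0) := le_max_left _ _
      _ ≤ max Mb (Cm * M0) * r ^ ε := le_mul_of_one_le_right (le_max_of_le_left hMb) (Real.one_le_rpow hr hε.le)
  · have h := not_le.mp h
    have h' := hm r (M0 * (√r) ^ ε) h.le (by positivity) (P5 (√r) (Real.one_le_sqrt.mpr hr))
    refine h'.mono hr0.le ?_
    rw [tri_sqrt_rpow r ε hr0.le]
    have e : r ^ (ε / 4) * r ^ (ε / 2) ≤ r ^ ε := by
      rw [← Real.rpow_add hr0]
      exact Real.rpow_le_rpow_of_exponent_le hr (by linarith)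
    calc Cm * r ^ (ε / 4) * (M0 * r ^ (ε / 2)) = Cm * M0 * (r ^ (ε / 4) * r ^ (ε / 2)) := by ring
      _ ≤ Cm * M0 * r ^ ε := by gcongr
      _ ≤ max Mb (Cm * M0) * r ^ ε := by gcongr; exact le_max_right _ _

end Claimed.Agent.R256
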